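import Vale.Agent.P099.Seq0

open MeasureTheory Set Filter Topology
open scoped ComplexConjugate

namespace Vale.Agent.P099

section
variable {X : Type} [MeasurableSpace X] (m : Measure X) [IsFiniteMeasure m]

theorem seq_real_cs {f g : X → ℝ} (hf : Bd f) (hg : Bd g) :
    ∫ x, f x * g x ∂m ≤ √(∫ x, f x ^ 2 ∂m) * √(∫ x, g x ^ 2 ∂m) := by
  have i1 := (hf.mul hf).integrable m
  have i2 := (hf.mul hg).integrable m
  have i3 := (hg.mul hg).integrable m
  have h := discrim_le_zero (a := ∫ x, f x * f x ∂m) (b := 2 * ∫ x, f x * g x ∂m)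
    (c := ∫ x, g x * g x ∂m) fun t => by
      have h1 : 0 ≤ ∫ x, (t * t * (f x * f x) + 2 * t * (f x * g x) + g x * g x) ∂m :=
        integral_nonneg fun x => by
          simp only [Pi.zero_apply]
          nlinarith [sq_nonneg (t * f x + g x)]
      have i4 : Integrable (fun x => t * t * (f x * f x) + 2 * t * (f x * g x)) m :=
        (i1.const_mul _).add (i2.const_mul _)
      rw [integral_add i4 i3,
        integral_add (i1.const_mul _) (i2.const_mul _), integral_const_mul,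
        integral_const_mul] at h1
      linarith
  rw [← Real.sqrt_mul (integral_nonneg fun x => sq_nonneg _)]
  refine Real.le_sqrt_of_sq_le ?_
  simp only [discrim, pow_two] at h ⊢
  linarith

theorem seq_pair {f g : X → ℝ} (hf : Bd f) (hg : Bd g) {a b : ℝ} (ha : 0 ≤ a)
    (h1 : ∀ᵐ x ∂m, |g x| ≤ a) (h2 : ∫ x, |f x| ∂m ≤ b) : ∫ x, f x * g x ∂m ≤ a * b := by
  refine le_trans (integral_mono_ae ((hf.mul hg).integrable m)
    ((hf.abs.integrable m).const_mul a) ?_) ?_
  · filter_upwards [h1] with x hx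
    refine (le_abs_self _).trans ?_
    rw [abs_mul, mul_comm]
    exact mul_le_mul_of_nonneg_right hx (abs_nonneg _)
  · rw [integral_const_mul]
    exact mul_le_mul_of_nonneg_left h2 ha

theorem seq_sq_sum (R : ℕ → X → ℝ) (J : ℕ) (hR : ∀ j, Bd (R j)) :
    ∫ x, (∑ j ∈ Finset.range J, R j x) ^ 2 ∂m =
      ∑ j ∈ Finset.range J, ∑ k ∈ Finset.range J, ∫ x, R j x * R k x ∂m := by
  simp only [pow_two, Finset.sum_mul_sum]
  rw [integral_finsetSum _ fun j _ => (Bd.sum _ fun k _ => (hR j).mul (hR k)).integrable m]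
  exact Finset.sum_congr rfl fun j _ =>
    integral_finsetSum _ fun k _ => ((hR j).mul (hR k)).integrable m

end

/-- Cauchy-Schwarz for bounded measurable complex functions -/
theorem int_cs {X : Type} [MeasurableSpace X] (m : Measure X) [IsFiniteMeasure m] {f g : X → ℂ}
    (hf : Measurable f) (hg : Measurable g) (Cf Cg : ℝ) (hCf : ∀ x, ‖f x‖ ≤ Cf)
    (hCg : ∀ x, ‖g x‖ ≤ Cg) :
    |∫ x, (f x * conj (g x)).re ∂m| ≤ √(∫ x, ‖f x‖ ^ 2 ∂m) * √(∫ x, ‖g x‖ ^ 2 ∂m) := by
  have bf : Bd fun x => ‖f x‖ := ⟨hf.norm, Cf, fun x => by simpa using hCf x⟩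
  have bg : Bd fun x => ‖g x‖ := ⟨hg.norm, Cg, fun x => by simpa using hCg x⟩
  refine le_trans ?_ (seq_real_cs m bf bg)
  rw [← Real.norm_eq_abs]
  refine norm_integral_le_of_norm_le ((bf.mul bg).integrable m) (ae_of_all _ fun x => ?_)
  refine (Complex.abs_re_le_norm _).trans (le_of_eq ?_)
  simp

theorem int_L1_le {X : Type} [MeasurableSpace X] (m : Measure X) [IsFiniteMeasure m] {f : X → ℝ}
    (hf : Bd f) : ∫ x, |f x| ∂m ≤ √(m.real univ) * √(∫ x, f x ^ 2 ∂m) := by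
  simpa using seq_real_cs m (Bd.const 1) hf.abs

/-- almost orthogonality across dyadic scales -/
theorem dyadic_sum {X : Type} [MeasurableSpace X] (m : Measure X) [IsFiniteMeasure m]
    (R : ℕ → X → ℝ) (J : ℕ) (a b : ℝ) (hR : ∀ j, Bd (R j))
    (h1 : ∀ j < J, ∀ᵐ x ∂m, |R j x| ≤ a / 2 ^ j) (h2 : ∀ j < J, ∫ x, |R j x| ∂m ≤ b * 2 ^ j)
    (ha : 0 ≤ a) (hb : 0 ≤ b) :
    ∫ x, (∑ j ∈ Finset.range J, R j x) ^ 2 ∂m ≤ 4 * a * b * J := by
  rw [seq_sq_sum m R J hR]
  have hab := mul_nonneg ha hb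
  have hp : ∀ j < J, ∀ k < J, ∫ x, R j x * R k x ∂m ≤ a / 2 ^ k * (b * 2 ^ j) := fun j hj k hk =>
    seq_pair m (hR j) (hR k) (by positivity) (h1 k hk) (h2 j hj)
  have key : ∀ n ≤ J, ∑ j ∈ Finset.range n, ∑ k ∈ Finset.range n, ∫ x, R j x * R k x ∂m ≤
      4 * a * b * n := by
    intro n
    induction n with
    | zero => simp
    | succ n ih =>
      intro hn
      have h3 : ∑ j ∈ Finset.range n, ∫ x, R j x * R n x ∂m ≤ a * b := by
        refine (Finset.sum_le_sum fun j hj =>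
          hp j ((Finset.mem_range.1 hj).trans hn) n hn).trans ?_
        rw [← Finset.mul_sum, ← Finset.mul_sum, geom_sum_eq (by norm_num), div_mul_eq_mul_div,
          div_le_iff₀ (by positivity)]
        nlinarith
      have h4 : ∑ k ∈ Finset.range n, ∫ x, R n x * R k x ∂m ≤ a * b := by
        simpa only [mul_comm (R n _)] using h3
      have h5 : ∫ x, R n x * R n x ∂m ≤ a * b := (hp n hn n hn).trans (le_of_eq (by field_simp))
      simp only [Finset.sum_range_succ, Finset.sum_add_distrib]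
      push_cast
      linarith [ih (by omega)]
  exact key J le_rfl

theorem flat_sum {X : Type} [MeasurableSpace X] (m : Measure X) [IsFiniteMeasure m]
    (R : ℕ → X → ℝ) (J : ℕ) (a b : ℝ) (hR : ∀ j, Bd (R j))
    (h1 : ∀ j < J, ∀ᵐ x ∂m, |R j x| ≤ a) (h2 : ∀ j < J, ∫ x, |R j x| ∂m ≤ b) (ha : 0 ≤ a) :
    ∫ x, (∑ j ∈ Finset.range J, R j x) ^ 2 ∂m ≤ a * b * (J : ℝ) ^ 2 := by
  rw [seq_sq_sum m R J hR]
  refine (Finset.sum_le_sum fun j hj => Finset.sum_le_sum fun k hk => seq_pair m (hR j) (hR k) ha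
    (h1 k (Finset.mem_range.1 hk)) (h2 j (Finset.mem_range.1 hj))).trans (le_of_eq ?_)
  simp
  ring

end Vale.Agent.P099
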