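import Vale.Agent.P099.One
import Vale.Agent.P099.Seq

open MeasureTheory Set Filter Topology
open scoped ComplexConjugate

namespace Vale.Agent.P099

variable {v : Fin 3 → ℂ} {Z : Type} [MeasurableSpace Z] (ν : Measure Z) [IsProbabilityMeasure ν]

theorem avg_sq {X : Type} [MeasurableSpace X] (m : Measure X) (J : ℕ) (R : ℕ → X → ℝ)
    (f : X → ℝ) (hf : ∀ x, f x = (J : ℝ)⁻¹ * ∑ j ∈ Finset.range J, R j x) :
    ∫ x, f x ^ 2 ∂m = ((J : ℝ)⁻¹) ^ 2 * ∫ x, (∑ j ∈ Finset.range J, R j x) ^ 2 ∂m := by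
  rw [← integral_const_mul]
  refine integral_congr_ae (Eventually.of_forall fun x => ?_)
  simp only [hf, mul_pow]

theorem avg_bsq {X : Type} [MeasurableSpace X] {f : X → ℝ} (hf : Bd f) : Bd fun x => f x ^ 2 := by
  simpa only [sq] using hf.mul hf

theorem avg_main {F F' : Ph × Z → ℝ} (hF : Bd F) {c ω s τ : ℝ} (hc : 0 < c) (hω : 0 < ω)
    (hs : 0 < s) (hτ : 0 < τ) (J : ℕ) (hJ : 0 < J)
    (h : ∀ j < J, ∃ φ φ₁ φ₂ Ψ Ψ₁ Ψ₂ Y₁ Y₂ : Ph × Z → ℝ,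
      Pack v ν F F' φ φ₁ φ₂ Ψ Ψ₁ Ψ₂ ∧ Bd Y₁ ∧ Bd Y₂ ∧
        (∀ w, |Ψ w| ≤ c) ∧
        (∀ᵐ w ∂(mW v ν), |XX φ₁ φ₂ w - Ψ w| ≤ c / (2 ^ j * τ / s)) ∧
        (∫ w, |XX φ₁ φ₂ w - Ψ w| ∂(mW v ν) ≤ c * (2 ^ j * s)) ∧
        (∀ w, YY φ₁ φ₂ w = Y₁ w + Y₂ w) ∧
        (∀ w, |Y₁ w| ≤ c / (2 ^ j * s)) ∧ (∫ w, |Y₁ w| ∂(mW v ν) ≤ ω / (2 ^ j * s)) ∧
        (∀ w, |Y₂ w| ≤ c / (2 ^ j * s)) ∧ (∫ w, |Y₂ w| ∂(mW v ν) ≤ c * (2 ^ j * τ / s)) ∧
        (∫ w, |φ w - F w| ∂(mW v ν) ≤ ω + c * ((2 ^ j * s) * (2 ^ j * τ / s)))) :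
    ∃ φ φ₁ φ₂ Ψ Ψ₁ Ψ₂ : Ph × Z → ℝ,
      Pack v ν F F' φ φ₁ φ₂ Ψ Ψ₁ Ψ₂ ∧ ∫ w, |φ w - F w| ∂(mW v ν) ≤ ω + c * (4 ^ J * τ) ∧
      nn v ν Ψ ≤ (mW v ν).real univ * c ^ 2 ∧
      nn v ν (fun w => XX φ₁ φ₂ w - Ψ w) ≤ 4 * c ^ 2 * s ^ 2 / (τ * J) ∧
      nn v ν (YY φ₁ φ₂) ≤ 2 * c * ω / s ^ 2 + 8 * c ^ 2 * τ / (s ^ 2 * J) := by
  have hJ' : (0 : ℝ) < J := by exact_mod_cast hJ
  have h' : ∀ j : ℕ, ∃ φ φ₁ φ₂ Ψ Ψ₁ Ψ₂ Y₁ Y₂ : Ph × Z → ℝ,
      (Bd φ ∧ Bd φ₁ ∧ Bd φ₂ ∧ Bd Ψ ∧ Bd Y₁ ∧ Bd Y₂) ∧ (j < J →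
      Pack v ν F F' φ φ₁ φ₂ Ψ Ψ₁ Ψ₂ ∧
        (∀ w, |Ψ w| ≤ c) ∧
        (∀ᵐ w ∂(mW v ν), |XX φ₁ φ₂ w - Ψ w| ≤ c / (2 ^ j * τ / s)) ∧
        (∫ w, |XX φ₁ φ₂ w - Ψ w| ∂(mW v ν) ≤ c * (2 ^ j * s)) ∧
        (∀ w, YY φ₁ φ₂ w = Y₁ w + Y₂ w) ∧
        (∀ w, |Y₁ w| ≤ c / (2 ^ j * s)) ∧ (∫ w, |Y₁ w| ∂(mW v ν) ≤ ω / (2 ^ j * s)) ∧
        (∀ w, |Y₂ w| ≤ c / (2 ^ j * s)) ∧ (∫ w, |Y₂ w| ∂(mW v ν) ≤ c * (2 ^ j * τ / s)) ∧
        (∫ w, |φ w - F w| ∂(mW v ν) ≤ ω + c * ((2 ^ j * s) * (2 ^ j * τ / s)))) := by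
    intro j
    by_cases hj : j < J
    · obtain ⟨φ, φ₁, φ₂, Ψ, Ψ₁, Ψ₂, Y₁, Y₂, hp, b1, b2, r⟩ := h j hj
      exact ⟨φ, φ₁, φ₂, Ψ, Ψ₁, Ψ₂, Y₁, Y₂, ⟨hp.1.1, hp.1.2.1, hp.1.2.2.1, hp.2.1.1, b1, b2⟩,
        fun _ => ⟨hp, r⟩⟩
    · exact ⟨F, F, F, F, F, F, F, F, ⟨hF, hF, hF, hF, hF, hF⟩, fun hj' => absurd hj' hj⟩
  choose φ φ₁ φ₂ Ψ Ψ₁ Ψ₂ Y₁ Y₂ hb hp using h'
  have mr : ∀ j ∈ Finset.range J, j < J := fun j hj => Finset.mem_range.1 hj
  have hone : ∑ _j ∈ Finset.range J, (J : ℝ)⁻¹ = 1 := by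
    rw [Finset.sum_const, Finset.card_range, nsmul_eq_mul, mul_inv_cancel₀ hJ'.ne']
  refine ⟨_, _, _, _, _, _, Pack.avg ν (Finset.range J) (J : ℝ)⁻¹ fun j hj => (hp j (mr j hj)).1,
    ?_, ?_, ?_, ?_⟩
  · have hi : ∀ j, Integrable (fun w => (J : ℝ)⁻¹ * |φ j w - F w|) (mW v ν) := fun j =>
      ((Bd.const _).mul ((hb j).1.sub hF).abs).integrable _
    calc ∫ w, |∑ j ∈ Finset.range J, (J : ℝ)⁻¹ * φ j w - F w| ∂(mW v ν)
        ≤ ∫ w, ∑ j ∈ Finset.range J, (J : ℝ)⁻¹ * |φ j w - F w| ∂(mW v ν) := by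
          refine integral_mono_of_nonneg (Eventually.of_forall fun w => abs_nonneg _)
            (integrable_finset_sum _ fun j _ => hi j) (Eventually.of_forall fun w => ?_)
          have : ∑ j ∈ Finset.range J, (J : ℝ)⁻¹ * φ j w - F w =
              ∑ j ∈ Finset.range J, (J : ℝ)⁻¹ * (φ j w - F w) := by
            simp only [mul_sub, Finset.sum_sub_distrib]
            rw [← Finset.sum_mul (f := fun _ => (J : ℝ)⁻¹), hone, one_mul]
          simp only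
          rw [this]
          refine (Finset.abs_sum_le_sum_abs _ _).trans (le_of_eq ?_)
          refine Finset.sum_congr rfl fun j _ => ?_
          rw [abs_mul, abs_of_pos (inv_pos.2 hJ')]
      _ = ∑ j ∈ Finset.range J, (J : ℝ)⁻¹ * ∫ w, |φ j w - F w| ∂(mW v ν) := by
          rw [integral_finset_sum _ fun j _ => hi j]
          exact Finset.sum_congr rfl fun j _ => integral_const_mul _ _
      _ ≤ ∑ _j ∈ Finset.range J, (J : ℝ)⁻¹ * (ω + c * (4 ^ J * τ)) := by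
          refine Finset.sum_le_sum fun j hj => mul_le_mul_of_nonneg_left ?_ (by positivity)
          refine (hp j (mr j hj)).2.2.2.2.2.2.2.2.2.trans ?_
          have e : (2 ^ j * s) * (2 ^ j * τ / s) = 4 ^ j * τ := by
            rw [show (4 : ℝ) = 2 * 2 by norm_num, mul_pow]
            field_simp
          have : (4 : ℝ) ^ j ≤ 4 ^ J := pow_le_pow_right₀ (by norm_num) (mr j hj).le
          rw [e]
          gcongr
      _ = _ := by rw [← Finset.sum_mul, hone, one_mul]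
  · have hbd : ∀ w, |∑ j ∈ Finset.range J, (J : ℝ)⁻¹ * Ψ j w| ≤ c := by
      intro w
      refine (Finset.abs_sum_le_sum_abs _ _).trans ?_
      calc ∑ j ∈ Finset.range J, |(J : ℝ)⁻¹ * Ψ j w| ≤ ∑ _j ∈ Finset.range J, (J : ℝ)⁻¹ * c := by
            refine Finset.sum_le_sum fun j hj => ?_
            rw [abs_mul, abs_of_pos (inv_pos.2 hJ')]
            exact mul_le_mul_of_nonneg_left ((hp j (mr j hj)).2.1 w) (by positivity)
        _ = c := by rw [← Finset.sum_mul, hone, one_mul]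
    unfold nn
    calc _ ≤ ∫ _w, c ^ 2 ∂(mW v ν) := by
          refine integral_mono_of_nonneg (Eventually.of_forall fun w => sq_nonneg _)
            (integrable_const _) (Eventually.of_forall fun w => ?_)
          simp only
          rw [← sq_abs]
          exact pow_le_pow_left₀ (abs_nonneg _) (hbd w) 2
      _ = _ := by rw [integral_const, smul_eq_mul]
  · unfold nn
    rw [avg_sq (mW v ν) J (fun j w => XX (φ₁ j) (φ₂ j) w - Ψ j w)]
    · have := dyadic_sum (mW v ν) (fun j w => XX (φ₁ j) (φ₂ j) w - Ψ j w) J (c * s / τ) (c * s)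
        (fun j => ((hb j).2.1.xx (hb j).2.2.1).sub (hb j).2.2.2.1) (fun j hj => by
          have e : c * s / τ / 2 ^ j = c / (2 ^ j * τ / s) := by field_simp
          rw [e]
          exact (hp j hj).2.2.1) (fun j hj => by
          have e : c * s * 2 ^ j = c * (2 ^ j * s) := by ring
          rw [e]
          exact (hp j hj).2.2.2.1) (by positivity) (by positivity)
      refine (mul_le_mul_of_nonneg_left this (by positivity)).trans (le_of_eq ?_)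
      field_simp
    · intro w
      simp only [XX, Finset.mul_sum, ← Finset.sum_add_distrib, ← Finset.sum_sub_distrib]
      exact Finset.sum_congr rfl fun j _ => by ring
  · have k1 := flat_sum (mW v ν) Y₁ J (c / s) (ω / s) (fun j => (hb j).2.2.2.2.1)
      (fun j hj => Eventually.of_forall fun w => by
        refine ((hp j hj).2.2.2.2.2.1 w).trans ?_
        have : (1 : ℝ) ≤ 2 ^ j := one_le_pow₀ (by norm_num)
        exact div_le_div_of_nonneg_left hc.le hs (by nlinarith))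
      (fun j hj => by
        refine ((hp j hj).2.2.2.2.2.2.1).trans ?_
        have : (1 : ℝ) ≤ 2 ^ j := one_le_pow₀ (by norm_num)
        exact div_le_div_of_nonneg_left hω.le hs (by nlinarith)) (by positivity)
    have k2 := dyadic_sum (mW v ν) Y₂ J (c / s) (c * τ / s) (fun j => (hb j).2.2.2.2.2)
      (fun j hj => Eventually.of_forall fun w => by
        have e : c / s / 2 ^ j = c / (2 ^ j * s) := by field_simp
        rw [e]
        exact (hp j hj).2.2.2.2.2.2.2.1 w)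
      (fun j hj => by
        have e : c * τ / s * 2 ^ j = c * (2 ^ j * τ / s) := by ring
        rw [e]
        exact (hp j hj).2.2.2.2.2.2.2.2.1) (by positivity) (by positivity)
    have b1 := avg_bsq (Bd.sum (Finset.range J) (f := Y₁) fun j _ => (hb j).2.2.2.2.1)
    have b2 := avg_bsq (Bd.sum (Finset.range J) (f := Y₂) fun j _ => (hb j).2.2.2.2.2)
    unfold nn
    rw [avg_sq (mW v ν) J (fun j w => Y₁ j w + Y₂ j w)]
    · have k3 : ∫ w, (∑ j ∈ Finset.range J, (Y₁ j w + Y₂ j w)) ^ 2 ∂(mW v ν) ≤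
          2 * (c / s * (ω / s) * (J : ℝ) ^ 2) + 2 * (4 * (c / s) * (c * τ / s) * J) := by
        calc _ ≤ ∫ w, (2 * (∑ j ∈ Finset.range J, Y₁ j w) ^ 2 +
              2 * (∑ j ∈ Finset.range J, Y₂ j w) ^ 2) ∂(mW v ν) := by
              refine integral_mono_of_nonneg (Eventually.of_forall fun w => sq_nonneg _)
                (((b1.integrable _).const_mul 2).add ((b2.integrable _).const_mul 2))
                (Eventually.of_forall fun w => ?_)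
              simp only
              rw [Finset.sum_add_distrib]
              nlinarith [sq_nonneg (∑ j ∈ Finset.range J, Y₁ j w - ∑ j ∈ Finset.range J, Y₂ j w)]
          _ = _ := by
              rw [integral_add ((b1.integrable _).const_mul 2) ((b2.integrable _).const_mul 2),
                integral_const_mul, integral_const_mul]
          _ ≤ _ := by gcongr
      refine (mul_le_mul_of_nonneg_left k3 (by positivity)).trans (le_of_eq ?_)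
      field_simp
      ring
    · intro w
      rw [← Finset.sum_congr rfl fun j hj => (hp j (mr j hj)).2.2.2.2.1 w]
      simp only [YY, Finset.mul_sum, ← Finset.sum_add_distrib]
      exact Finset.sum_congr rfl fun j _ => by ring

theorem approx (hv : AffineIndependent ℝ v) {F F' : Ph × Z → ℝ} (hF : Bd F) (hF' : Bd F')
    (h : Dv (mW v ν) univ (fun h w => (flow v h w.1, w.2)) F F' (fun _ => 0)) :
    ∃ C₀ : ℝ, ∀ ε : ℝ, 0 < ε → ∃ φ φ₁ φ₂ Ψ Ψ₁ Ψ₂ : Ph × Z → ℝ,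
      Pack v ν F F' φ φ₁ φ₂ Ψ Ψ₁ Ψ₂ ∧ ∫ w, |φ w - F w| ∂(mW v ν) ≤ ε ∧ nn v ν Ψ ≤ C₀ ∧
      nn v ν (fun w => XX φ₁ φ₂ w - Ψ w) ≤ ε ∧
      nn v ν (fun w => XX φ₁ φ₂ w - Ψ w) * nn v ν (YY φ₁ φ₂) ≤ ε := by
  obtain ⟨c, hc, H⟩ := one_scale ν hv hF hF' h
  refine ⟨(mW v ν).real univ * c ^ 2, fun ε hε => ?_⟩
  obtain ⟨J, hJ⟩ := exists_nat_gt (max 1 (64 * c ^ 4 / ε))
  have hJ1 : (1 : ℝ) < J := (le_max_left _ _).trans_lt hJ
  have hJ2 : 64 * c ^ 4 / ε < J := (le_max_right _ _).trans_lt hJ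
  have hJ0 : 0 < J := by exact_mod_cast (zero_lt_one.trans hJ1)
  set τ : ℝ := ε / (2 * c * 4 ^ J) with hτ
  have τ0 : 0 < τ := by positivity
  set ω : ℝ := min (ε / 2) (ε * τ / (16 * c ^ 3)) with hω
  have ω0 : 0 < ω := lt_min (by positivity) (by positivity)
  have ω1 : ω ≤ ε / 2 := min_le_left _ _
  have ω2 : ω ≤ ε * τ / (16 * c ^ 3) := min_le_right _ _
  obtain ⟨s₀, hs₀, H1⟩ := H ω ω0
  set s : ℝ := min (min 1 τ) (min (s₀ / 2 ^ J) (ε * τ / (4 * c ^ 2))) with hs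
  have s0 : 0 < s := lt_min (lt_min one_pos τ0) (lt_min (by positivity) (by positivity))
  have s1 : s ≤ 1 := (min_le_left _ _).trans (min_le_left _ _)
  have s2 : s ≤ τ := (min_le_left _ _).trans (min_le_right _ _)
  have s3 : s ≤ s₀ / 2 ^ J := (min_le_right _ _).trans (min_le_left _ _)
  have s4 : s ≤ ε * τ / (4 * c ^ 2) := (min_le_right _ _).trans (min_le_right _ _)
  have ss : s ^ 2 ≤ s := by nlinarith
  obtain ⟨φ, φ₁, φ₂, Ψ, Ψ₁, Ψ₂, hp, a1, a2, a3, a4⟩ := avg_main ν hF hc ω0 s0 τ0 J hJ0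
    (F' := F') (v := v) fun j hj => by
      refine H1 (2 ^ j * s) (2 ^ j * τ / s) (by positivity) ?_ ?_
      · have h1 : (2 : ℝ) ^ j < 2 ^ J := pow_lt_pow_right₀ (by norm_num) hj
        have h2 : s * 2 ^ J ≤ s₀ := (le_div_iff₀ (by positivity)).1 s3
        nlinarith
      · rw [le_div_iff₀ s0]
        have : (0 : ℝ) < 2 ^ j := by positivity
        nlinarith
  have J0 : (0 : ℝ) < J := zero_lt_one.trans hJ1
  refine ⟨φ, φ₁, φ₂, Ψ, Ψ₁, Ψ₂, hp, a1.trans ?_, a2, a3.trans ?_, ?_⟩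
  · have : c * (4 ^ J * τ) = ε / 2 := by
      rw [hτ]
      field_simp
    linarith
  · rw [div_le_iff₀ (by positivity)]
    have h1 : s * (4 * c ^ 2) ≤ ε * τ := (le_div_iff₀ (by positivity)).1 s4
    have h2 : 4 * c ^ 2 * s ^ 2 ≤ 4 * c ^ 2 * s := by gcongr
    have h3 : ε * τ ≤ ε * (τ * J) := by
      have : τ ≤ τ * J := by nlinarith
      gcongr
    linarith
  · have n2 : 0 ≤ nn v ν (YY φ₁ φ₂) := integral_nonneg fun w => sq_nonneg _
    refine (mul_le_mul a3 a4 n2 (by positivity)).trans ?_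
    have e : 4 * c ^ 2 * s ^ 2 / (τ * J) * (2 * c * ω / s ^ 2 + 8 * c ^ 2 * τ / (s ^ 2 * J)) =
        8 * c ^ 3 * ω / (τ * J) + 32 * c ^ 4 / (J * J) := by
      field_simp
      ring
    rw [e]
    have h1 : 8 * c ^ 3 * ω / (τ * J) ≤ ε / 2 := by
      rw [div_le_iff₀ (by positivity)]
      have h2 : ω * (16 * c ^ 3) ≤ ε * τ := (le_div_iff₀ (by positivity)).1 ω2
      have h3 : ε * τ ≤ ε * (τ * J) := by
        have : τ ≤ τ * J := by nlinarith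
        gcongr
      linarith
    have h2 : 32 * c ^ 4 / (J * J) ≤ ε / 2 := by
      rw [div_le_iff₀ (by positivity)]
      have h3 : 64 * c ^ 4 < J * ε := (div_lt_iff₀ hε).1 hJ2
      have h4 : J * ε ≤ ε * (J * J) := by
        have : (J : ℝ) ≤ J * J := by nlinarith
        nlinarith
      linarith
    linarith

end Vale.Agent.P099
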