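import Vale.Agent.P099.Defs

open MeasureTheory Set
open scoped ComplexConjugate

namespace Vale.Agent.P099

/-- twice the signed area -/
noncomputable def det3 (v : Fin 3 → ℂ) : ℝ := (conj (v 1 - v 0) * (v 2 - v 0)).im

/-- inward unit normal of side `i` -/
noncomputable def nrm (v : Fin 3 → ℂ) (i : Fin 3) : ℂ :=
  ((Real.sign (det3 v) / ‖v (i + 2) - v (i + 1)‖ : ℝ) : ℂ) * Complex.I * (v (i + 2) - v (i + 1))

/-- signed distance to the line of side `i`, positive inside -/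
noncomputable def lam (v : Fin 3 → ℂ) (i : Fin 3) (x : ℂ) : ℝ :=
  ((x - v (i + 1)) * conj (nrm v i)).re

/-- normal component of a vector -/
noncomputable def ncp (v : Fin 3 → ℂ) (i : Fin 3) (e : ℂ) : ℝ := (e * conj (nrm v i)).re

/-- reflection in the line of side `i` -/
noncomputable def mir (v : Fin 3 → ℂ) (i : Fin 3) (x : ℂ) : ℂ := x - (2 * lam v i x) • nrm v i

/-- reflection of directions is `θ ↦ bet v i - θ` -/
noncomputable def bet (v : Fin 3 → ℂ) (i : Fin 3) : UnitAddCircle :=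
  ((Complex.arg (-(nrm v i) ^ 2) / (2 * Real.pi) : ℝ) : UnitAddCircle)

noncomputable def mirP (v : Fin 3 → ℂ) (i : Fin 3) (p : Ph) : Ph := (mir v i p.1, bet v i - p.2)

/-- free motion -/
noncomputable def free (h : ℝ) (p : Ph) : Ph := (p.1 + h • vel p.2, p.2)

/-- distance to the vertex set -/
noncomputable def rr (v : Fin 3 → ℂ) (x : ℂ) : ℝ := min ‖x - v 0‖ (min ‖x - v 1‖ ‖x - v 2‖)

def Out (v : Fin 3 → ℂ) (i : Fin 3) (p : Ph) : Prop :=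
  lam v i p.1 < 0 ∨ (lam v i p.1 = 0 ∧ ncp v i (vel p.2) < 0)

open Classical in
noncomputable def fold (v : Fin 3 → ℂ) (p : Ph) : Ph :=
  if Out v 0 p then mirP v 0 p else if Out v 1 p then mirP v 1 p else
    if Out v 2 p then mirP v 2 p else p

/-- short time billiard map -/
noncomputable def step (v : Fin 3 → ℂ) (h : ℝ) (p : Ph) : Ph := fold v (free h p)

/-- admissible states -/
def PM (v : Fin 3 → ℂ) : Set Ph :=
  {p | p.1 ∈ table v ∨ ∃ i, p.1 ∈ side v i ∧ 0 < ncp v i (vel p.2)}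

def Good (v : Fin 3 → ℂ) : Set Ph := {p | ∃ γ, IsTraj v γ ∧ γ 0 = p}

/-- away from the vertices at most one side line is close -/
def Kite (v : Fin 3 → ℂ) (K : ℝ) : Prop :=
  1 ≤ K ∧ ∀ (x : ℂ) (η : ℝ), 0 < η → (∀ i, 0 ≤ lam v i x) → K * η < rr v x →
    ∃ i, ∀ j, j ≠ i → 10 * η < lam v j x

def Safe (v : Fin 3 → ℂ) (K h : ℝ) (k : ℕ) : Set Ph :=
  {p | ∀ j < k, 2 * K * |h| < rr v ((step v h)^[j] p).1}

noncomputable def m0 : Measure Ph := (volume : Measure ℂ).prod AddCircle.haarAddCircle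

noncomputable def mQ (v : Fin 3 → ℂ) : Measure Ph :=
  (volume.restrict (table v)).prod AddCircle.haarAddCircle

section An
variable {Z : Type} [MeasurableSpace Z]

noncomputable def mW (v : Fin 3 → ℂ) (ν : Measure Z) : Measure (Ph × Z) := (mQ v).prod ν

noncomputable def mW0 (ν : Measure Z) : Measure (Ph × Z) := m0.prod ν

noncomputable def mB (v : Fin 3 → ℂ) (ν : Measure Z) : Measure (ℂ × Z) :=
  (volume.restrict (table v)).prod ν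

/-- bounded measurable -/
def Bd {X : Type} [MeasurableSpace X] (f : X → ℝ) : Prop := Measurable f ∧ ∃ C, ∀ w, |f w| ≤ C

/-- Fourier mode in the direction variable -/
noncomputable def md (n : ℤ) (f : Ph × Z → ℝ) (q : ℂ × Z) : ℂ :=
  fourierCoeff (fun θ : UnitAddCircle => ((f ((q.1, θ), q.2) : ℝ) : ℂ)) n

def Nice (φ φ₁ φ₂ : Ph × Z → ℝ) : Prop :=
  Bd φ ∧ Bd φ₁ ∧ Bd φ₂ ∧ ∀ (n : ℤ) (ζ : Z), ContDiff ℝ 2 (fun x : ℂ => md n φ (x, ζ)) ∧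
    ∀ x : ℂ, fderiv ℝ (fun x : ℂ => md n φ (x, ζ)) x 1 = md n φ₁ (x, ζ) ∧
      fderiv ℝ (fun x : ℂ => md n φ (x, ζ)) x Complex.I = md n φ₂ (x, ζ)

def Sym (v : Fin 3 → ℂ) (φ : Ph × Z → ℝ) : Prop :=
  ∀ i, ∀ x ∈ side v i, ∀ (θ : UnitAddCircle) (ζ : Z), φ ((x, bet v i - θ), ζ) = φ ((x, θ), ζ)

def Sk {P : Type} (ν : Measure Z) (a a' b b' : P × Z → ℝ) : Prop :=
  ∀ p p' : P, ∫ ζ, (a' (p, ζ) * b (p', ζ) + a (p, ζ) * b' (p', ζ)) ∂ν = 0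

def Lin (ν : Measure Z) (F F' a a' : Ph × Z → ℝ) : Prop :=
  ∀ b b' : Ph × Z → ℝ, Bd b → Bd b' → Sk ν F F' b b' → Sk ν a a' b b'

noncomputable def XX (φ₁ φ₂ : Ph × Z → ℝ) (w : Ph × Z) : ℝ :=
  (vel w.1.2).re * φ₁ w + (vel w.1.2).im * φ₂ w

noncomputable def YY (φ₁ φ₂ : Ph × Z → ℝ) (w : Ph × Z) : ℝ :=
  -(vel w.1.2).im * φ₁ w + (vel w.1.2).re * φ₂ w

noncomputable def dz (n : ℤ) (φ₁ φ₂ : Ph × Z → ℝ) (q : ℂ × Z) : ℂ :=
  (md n φ₁ q - Complex.I * md n φ₂ q) / 2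

noncomputable def dzb (n : ℤ) (φ₁ φ₂ : Ph × Z → ℝ) (q : ℂ × Z) : ℂ :=
  (md n φ₁ q + Complex.I * md n φ₂ q) / 2

noncomputable def nn (v : Fin 3 → ℂ) (ν : Measure Z) (f : Ph × Z → ℝ) : ℝ :=
  ∫ w, f w ^ 2 ∂(mW v ν)

noncomputable def en (v : Fin 3 → ℂ) (ν : Measure Z) (n : ℤ) (φ₁ φ₂ : Ph × Z → ℝ) : ℝ :=
  ∫ q, (‖md n φ₁ q‖ ^ 2 + ‖md n φ₂ q‖ ^ 2) ∂(mB v ν)

noncomputable def indQ (v : Fin 3 → ℂ) (f : Ph × Z → ℝ) : Ph × Z → ℝ :=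
  indicator {w | w.1.1 ∈ table v} f

/-- extension by the method of images -/
noncomputable def ext (v : Fin 3 → ℂ) (f : Ph × Z → ℝ) (w : Ph × Z) : ℝ :=
  indQ v f w + ∑ i, indQ v f (mirP v i w.1, w.2)

/-- convolution in the position variable -/
noncomputable def cv (k : ℂ → ℝ) (G : Ph × Z → ℝ) (w : Ph × Z) : ℝ :=
  ∫ y, k (w.1.1 - y) * G ((y, w.1.2), w.2)

/-- approximate derivative along a family of maps -/
def Dv {X : Type} [MeasurableSpace X] (m : Measure X) (U : Set X) (T : ℝ → X → X)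
    (f f' g : X → ℝ) : Prop :=
  ∃ C h₀ : ℝ, 0 < h₀ ∧ ∀ h ∈ Ioo 0 h₀, ∀ᵐ w ∂m, w ∈ U →
    |f (T h w) - f w - h * f' w| ≤ h * g w + C * h ^ 2

/-- the data produced by smoothing -/
def Pack (v : Fin 3 → ℂ) (ν : Measure Z) (F F' φ φ₁ φ₂ Ψ Ψ₁ Ψ₂ : Ph × Z → ℝ) : Prop :=
  Nice φ φ₁ φ₂ ∧ Nice Ψ Ψ₁ Ψ₂ ∧ Sym v φ ∧ Sym v Ψ ∧
    Lin ν F F' φ Ψ ∧ Lin ν F F' φ₁ Ψ₁ ∧ Lin ν F F' φ₂ Ψ₂

/-- time smoothing along the second factor -/
noncomputable def tsm {P : Type} (S : ℝ → Z → Z) (κ : ℝ → ℝ) (F : P × Z → ℝ) (w : P × Z) : ℝ :=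
  ∫ t, κ t * F (w.1, S t w.2)

end An

noncomputable def d1 (k : ℂ → ℝ) (y : ℂ) : ℝ := fderiv ℝ k y 1
noncomputable def d2 (k : ℂ → ℝ) (y : ℂ) : ℝ := fderiv ℝ k y Complex.I

structure IsKer (σ c : ℝ) (k : ℂ → ℝ) : Prop where
  smooth : ContDiff ℝ 3 k
  cs : HasCompactSupport k
  nonneg : ∀ y, 0 ≤ k y
  int : ∫ y, k y = 1
  supp : ∀ y, σ ≤ ‖y‖ → k y = 0
  supp1 : ∀ y, σ ≤ ‖y‖ → d1 k y = 0
  supp2 : ∀ y, σ ≤ ‖y‖ → d2 k y = 0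
  radial : ∀ y y', ‖y‖ = ‖y'‖ → k y = k y'
  b1 : ∫ y, |d1 k y| ≤ c / σ
  b2 : ∫ y, |d2 k y| ≤ c / σ
  z1 : ∫ y, d1 k y = 0
  z2 : ∫ y, d2 k y = 0

end Vale.Agent.P099
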