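import Vale.Agent.P099.Md

open MeasureTheory Set Filter Topology
open scoped ComplexConjugate

namespace Vale.Agent.P099

variable {v : Fin 3 → ℂ} {Z : Type} [MeasurableSpace Z] (ν : Measure Z) [IsProbabilityMeasure ν]

theorem Bes.parseval {f : Ph × Z → ℝ} (hf : Bd f) (q : ℂ × Z) :
    HasSum (fun n => ‖md n f q‖ ^ 2) (∫ θ, f ((q.1, θ), q.2) ^ 2 ∂AddCircle.haarAddCircle) := by
  obtain ⟨hm, C, hC⟩ := Md0.bd_slice hf q
  have h2 : MemLp (fun θ : UnitAddCircle => ((f ((q.1, θ), q.2) : ℝ) : ℂ)) 2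
      AddCircle.haarAddCircle :=
    MemLp.of_bound (Complex.measurable_ofReal.comp hm).aestronglyMeasurable C
      (Eventually.of_forall fun θ => by
        rw [Complex.norm_real, Real.norm_eq_abs]; exact hC θ)
  have h3 := hasSum_sq_fourierCoeff h2.toLp
  rw [fourierCoeff_congr_ae h2.coeFn_toLp] at h3
  have e : ∫ θ, ‖h2.toLp _ θ‖ ^ 2 ∂AddCircle.haarAddCircle =
      ∫ θ, f ((q.1, θ), q.2) ^ 2 ∂AddCircle.haarAddCircle := by
    refine integral_congr_ae ?_
    filter_upwards [h2.coeFn_toLp] with θ hθ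
    rw [hθ, Complex.norm_real, Real.norm_eq_abs, sq_abs]
  rw [e] at h3
  exact h3

theorem Bes.bd_sq {X : Type} [MeasurableSpace X] {f : X → ℝ} (hf : Bd f) :
    Bd fun w => f w ^ 2 := by
  simpa only [sq] using hf.mul hf

theorem Bes.bd_norm {f : Ph × Z → ℝ} (hf : Bd f) (n : ℤ) : Bd fun q => ‖md n f q‖ := by
  obtain ⟨C, hC⟩ := hf.2
  exact ⟨(measurable_md hf n).norm, C, fun q => by
    rw [abs_norm]; exact norm_md_le hC n q⟩

theorem bessel {f : Ph × Z → ℝ} (hf : Bd f) (s : Finset ℤ) :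
    ∑ n ∈ s, ∫ q, ‖md n f q‖ ^ 2 ∂(mB v ν) ≤ nn v ν f := by
  obtain ⟨h1, h2⟩ := Md.fubini (v := v) ν (Bes.bd_sq hf)
  have hi : ∀ n ∈ s, Integrable (fun q => ‖md n f q‖ ^ 2) (mB v ν) := fun n _ =>
    (Bes.bd_sq (Bes.bd_norm hf n)).integrable _
  rw [nn, h2, ← integral_finsetSum _ hi]
  exact integral_mono (integrable_finsetSum _ hi) h1 fun q =>
    sum_le_hasSum s (fun n _ => sq_nonneg _) (Bes.parseval hf q)

theorem complete {f : Ph × Z → ℝ} (hf : Bd f) (h : ∀ n, ∀ᵐ q ∂(mB v ν), md n f q = 0) :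
    ∀ᵐ w ∂(mW v ν), f w = 0 := by
  obtain ⟨_, h2⟩ := Md.fubini (v := v) ν (Bes.bd_sq hf)
  have h3 : ∫ w, f w ^ 2 ∂(mW v ν) = 0 := by
    rw [h2]
    refine (integral_congr_ae ?_).trans (integral_zero _ _)
    filter_upwards [ae_all_iff.mpr h] with q hq
    have := Bes.parseval hf q
    simp only [hq, norm_zero, ne_eq, OfNat.ofNat_ne_zero, not_false_eq_true, zero_pow] at this
    exact this.unique hasSum_zero
  have h4 := (integral_eq_zero_iff_of_nonneg (fun w => sq_nonneg (f w))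
    ((Bes.bd_sq hf).integrable _)).mp h3
  filter_upwards [h4] with w hw
  exact pow_eq_zero_iff two_ne_zero |>.mp hw

omit [MeasurableSpace Z] in
theorem md_of_snd (c : ℂ × Z → ℝ) (n : ℤ) (q : ℂ × Z) :
    md n (fun w => c (w.1.1, w.2)) q = if n = 0 then (c q : ℂ) else 0 := by
  have h := fourierCoeff.const_mul (T := 1) (fourier 0) (c q : ℂ) n
  rw [fourierCoeff_fourier] at h
  simp only [fourier_zero, mul_one] at h
  unfold md
  simp only [Prod.mk.eta]
  rw [h]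
  by_cases hn : n = 0
  · simp [hn]
  · simp [hn]

end Vale.Agent.P099
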