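import Vale.Agent.P099.Geo1

open MeasureTheory Set Filter Topology
open scoped ComplexConjugate

namespace Vale.Agent.P099

variable {v : Fin 3 → ℂ}

theorem geo4_fourier (n : ℤ) (θ : UnitAddCircle) : fourier n θ = vel θ ^ n := by
  unfold vel
  rw [fourier_apply, AddCircle.toCircle_zsmul]
  simp

theorem geo4_sq (hv : AffineIndependent ℝ v) (i : Fin 3) :
    -(nrm v i) ^ 2 = ((v (i + 2) - v (i + 1)) / (‖v (i + 2) - v (i + 1)‖ : ℝ)) ^ 2 := by
  have hs : Real.sign (det3 v) ^ 2 = 1 := by rw [← sq_abs, geo0_sign hv]; simp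
  have hs' : ((Real.sign (det3 v) : ℝ) : ℂ) ^ 2 = 1 := by exact_mod_cast hs
  unfold nrm
  rw [mul_pow, mul_pow, Complex.I_sq, Complex.ofReal_div, div_pow, hs', div_pow]
  ring

theorem geo4_angle {e e' : ℂ} (he : e ≠ 0) (he' : e' ≠ 0) {n : ℤ} (hn : n ≠ 0)
    (h : ((e / (‖e‖ : ℝ)) ^ 2) ^ n = ((e' / (‖e'‖ : ℝ)) ^ 2) ^ n) :
    ∃ q : ℚ, InnerProductGeometry.angle e e' = q * Real.pi := by
  have h1 : (‖e‖ : ℂ) ≠ 0 := by exact_mod_cast norm_ne_zero_iff.2 he
  have h2 : (‖e'‖ : ℂ) ≠ 0 := by exact_mod_cast norm_ne_zero_iff.2 he'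
  have h3 := Complex.norm_mul_exp_arg_mul_I (e / e')
  have h4 : Complex.exp (Complex.arg (e / e') * Complex.I) = (e / (‖e‖ : ℝ)) / (e' / (‖e'‖ : ℝ)) := by
    rw [norm_div, Complex.ofReal_div] at h3
    field_simp
    field_simp at h3
    linear_combination h3
  have h5 : Complex.exp ((n : ℂ) * (2 * (Complex.arg (e / e') * Complex.I))) = 1 := by
    rw [Complex.exp_int_mul, show (2 : ℂ) = ((2 : ℕ) : ℂ) by norm_num, Complex.exp_nat_mul, h4,
      div_pow, div_zpow, h, div_self]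
    exact zpow_ne_zero _ (pow_ne_zero _ (div_ne_zero he' h2))
  obtain ⟨m, hm⟩ := Complex.exp_eq_one_iff.1 h5
  have h6 : (n : ℝ) * Complex.arg (e / e') = m * Real.pi := by
    have := congrArg Complex.im hm
    simp at this
    linarith
  have hn' : (n : ℝ) ≠ 0 := by exact_mod_cast hn
  refine ⟨|(m : ℚ) / n|, ?_⟩
  rw [Complex.angle_eq_abs_arg he he']
  have : Complex.arg (e / e') = m / n * Real.pi := by
    field_simp; linarith
  rw [this, abs_mul, abs_of_pos Real.pi_pos]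
  push_cast
  rfl

theorem irr_bet (hv : AffineIndependent ℝ v) (hirr : ¬ RationalTriangle v) :
    ∃ i j : Fin 3, ∀ n : ℤ, n ≠ 0 → fourier n (bet v i) ≠ fourier n (bet v j) := by
  by_contra hc
  push Not at hc
  apply hirr
  intro k
  obtain ⟨n, hn, h⟩ := hc (k + 2) (k + 1)
  rw [geo4_fourier, geo4_fourier, vel_bet0 hv, vel_bet0 hv, geo4_sq hv, geo4_sq hv] at h
  have e1 : k + 2 + 2 = k + 1 := by fin_cases k <;> rfl
  have e2 : k + 2 + 1 = k := by fin_cases k <;> rfl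
  have e3 : k + 1 + 2 = k := by fin_cases k <;> rfl
  have e4 : k + 1 + 1 = k + 2 := by fin_cases k <;> rfl
  have g1 := geo0_edge_ne hv (k + 2)
  have g2 := geo0_edge_ne hv (k + 1)
  rw [e1, e2] at g1
  rw [e3, e4] at g2
  rw [e1, e2, e3, e4] at h
  have g3 : v (k + 2) - v k ≠ 0 := fun h0 => g2 (by linear_combination -h0)
  unfold EuclideanGeometry.angle
  simp only [vsub_eq_sub]
  refine geo4_angle g1 g3 hn ?_
  rw [h, norm_sub_rev (v k), ← neg_sub (v (k + 2)) (v k), neg_div, neg_sq]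

end Vale.Agent.P099
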