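import Vale.Agent.P099.FrPo
import Vale.Agent.P099.Bes
import Vale.Agent.P099.Seq
import Vale.Agent.P099.Geo4

open MeasureTheory Set Filter Topology
open scoped ComplexConjugate

namespace Vale.Agent.P099

variable {v : Fin 3 → ℂ} {Z : Type} [MeasurableSpace Z] (ν : Measure Z) [IsProbabilityMeasure ν]

instance fin_finite (v : Fin 3 → ℂ) : IsFiniteMeasure (volume.restrict (table v)) :=
  isFiniteMeasure_restrict.2 volume_table_ne_top

theorem fin_bd_norm {X : Type} [MeasurableSpace X] {g : X → ℂ} (hg : Measurable g) {C : ℝ}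
    (hC : ∀ q, ‖g q‖ ≤ C) : Bd (fun q => ‖g q‖) :=
  ⟨hg.norm, C, fun q => by rw [abs_norm]; exact hC q⟩

theorem fin_bd_md {f : Ph × Z → ℝ} (hf : Bd f) (n : ℤ) : Bd (fun q => ‖md n f q‖) := by
  obtain ⟨C, hC⟩ := hf.2
  exact fin_bd_norm (measurable_md hf n) (norm_md_le hC n)

theorem fin_int_slice {g : ℂ × Z → ℝ} (hg : Bd g) (ζ : Z) :
    Integrable (fun x => g (x, ζ)) (volume.restrict (table v)) :=
  (hg.comp measurable_prodMk_right).integrable _

theorem fin_int_md {f : Ph × Z → ℝ} (hf : Bd f) (n : ℤ) (ζ : Z) :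
    Integrable (fun x => md n f (x, ζ)) (volume.restrict (table v)) := by
  obtain ⟨C, hC⟩ := hf.2
  exact Integrable.of_bound ((measurable_md hf n).comp measurable_prodMk_right).aestronglyMeasurable
    C (Eventually.of_forall fun x => norm_md_le hC n _)

theorem fin_fub {f g : ℂ × Z → ℝ} (hf : Bd f) (hg : Bd g)
    (h : ∀ ζ, ∫ x in table v, f (x, ζ) ≤ ∫ x in table v, g (x, ζ)) :
    ∫ q, f q ∂(mB v ν) ≤ ∫ q, g q ∂(mB v ν) := by
  have hf' := hf.integrable (mB v ν)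
  have hg' := hg.integrable (mB v ν)
  unfold mB at hf' hg' ⊢
  rw [integral_prod_symm _ hf', integral_prod_symm _ hg']
  exact integral_mono hf'.integral_prod_right hg'.integral_prod_right h

theorem fin_grad {φ₁ φ₂ : Ph × Z → ℝ} (h1 : Bd φ₁) (h2 : Bd φ₂) (n : ℤ) :
    ∫ q, (‖md n φ₁ q‖ + ‖md n φ₂ q‖) ∂(mB v ν) ≤
      √((mB v ν).real univ) * √(2 * en v ν n φ₁ φ₂) := by
  have b1 := fin_bd_md h1 n
  have b2 := fin_bd_md h2 n
  have hb := b1.add b2
  have := int_L1_le (mB v ν) hb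
  calc _ = ∫ q, |‖md n φ₁ q‖ + ‖md n φ₂ q‖| ∂(mB v ν) := by
        refine integral_congr_ae (Eventually.of_forall fun q => ?_)
        simp only
        rw [abs_of_nonneg (by positivity)]
    _ ≤ _ := this
    _ ≤ _ := by
        refine mul_le_mul_of_nonneg_left (Real.sqrt_le_sqrt ?_) (Real.sqrt_nonneg _)
        unfold en
        rw [← integral_const_mul]
        refine integral_mono ?_ ?_ fun q => ?_
        · simpa only [pow_two] using (hb.mul hb).integrable _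
        · simpa only [pow_two] using
            ((Bd.const 2).mul ((b1.mul b1).add (b2.mul b2))).integrable _
        · simp only
          nlinarith [sq_nonneg (‖md n φ₁ q‖ - ‖md n φ₂ q‖)]

theorem fin_zero_of {X : Type} [MeasurableSpace X] (m : Measure X) [IsFiniteMeasure m] {g : X → ℂ}
    (hg : Bd fun q => ‖g q‖) (a b : ℝ)
    (h : ∀ ε : ℝ, 0 < ε → ∫ q, ‖g q‖ ∂m ≤ a * √(2 * ε) + b * ε) : ∀ᵐ q ∂m, g q = 0 := by
  have hc : Tendsto (fun ε : ℝ => a * √(2 * ε) + b * ε) (𝓝[>] 0) (𝓝 0) := by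
    have : Continuous fun ε : ℝ => a * √(2 * ε) + b * ε := by fun_prop
    have h2 := this.tendsto 0
    simp only [mul_zero, Real.sqrt_zero, add_zero] at h2
    exact h2.mono_left nhdsWithin_le_nhds
  have h0 : ∫ q, ‖g q‖ ∂m ≤ 0 :=
    ge_of_tendsto hc (eventually_nhdsWithin_of_forall fun ε hε => h ε hε)
  have h1 : ∫ q, ‖g q‖ ∂m = 0 := le_antisymm h0 (integral_nonneg fun q => norm_nonneg _)
  rw [integral_eq_zero_iff_of_nonneg (fun q => norm_nonneg _) (hg.integrable m)] at h1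
  filter_upwards [h1] with q hq
  simpa using hq

theorem fin_comb {φ φ₁ φ₂ F : Ph × Z → ℝ} (hφ : Bd φ) (h1 : Bd φ₁) (h2 : Bd φ₂) (hF : Bd F)
    (n : ℤ) {g : ℂ × Z → ℝ} (hg : Bd g) {C ε : ℝ} (hC : 0 ≤ C)
    (h : ∀ ζ, ∫ x in table v, g (x, ζ) ≤
      C * (∫ x in table v, (‖md n φ₁ (x, ζ)‖ + ‖md n φ₂ (x, ζ)‖)) +
        2 * ∫ x in table v, ‖md n φ (x, ζ) - md n F (x, ζ)‖)
    (e1 : ∫ w, |φ w - F w| ∂(mW v ν) ≤ ε) (e2 : en v ν n φ₁ φ₂ ≤ ε) :
    ∫ q, g q ∂(mB v ν) ≤ C * √((mB v ν).real univ) * √(2 * ε) + 2 * ε := by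
  have b1 := (fin_bd_md h1 n).add (fin_bd_md h2 n)
  have b2 := fin_bd_md (hφ.sub hF) n
  have b3 := ((Bd.const C).mul b1).add ((Bd.const 2).mul b2)
  have k1 := fin_fub (v := v) ν hg b3 fun ζ => by
    refine (h ζ).trans (le_of_eq ?_)
    rw [integral_add (fin_int_slice ((Bd.const C).mul b1) ζ)
      (fin_int_slice ((Bd.const 2).mul b2) ζ), integral_const_mul, integral_const_mul]
    simp only [md_sub hφ hF]
  rw [integral_add (((Bd.const C).mul b1).integrable _) (((Bd.const 2).mul b2).integrable _),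
    integral_const_mul, integral_const_mul] at k1
  have k2 := fin_grad (v := v) ν h1 h2 n
  have k3 := md_L1 (v := v) ν (hφ.sub hF) n
  have k4 : √(2 * en v ν n φ₁ φ₂) ≤ √(2 * ε) := Real.sqrt_le_sqrt (by linarith)
  have k5 := mul_le_mul_of_nonneg_left k4 (Real.sqrt_nonneg ((mB v ν).real univ))
  have k6 := mul_le_mul_of_nonneg_left (k2.trans k5) hC
  linarith

theorem fin_ne (hv : AffineIndependent ℝ v) {F : Ph × Z → ℝ} (hF : Bd F) (n : ℤ) (i : Fin 3)
    (h : ∀ ε : ℝ, 0 < ε → ∃ φ φ₁ φ₂ : Ph × Z → ℝ, Nice φ φ₁ φ₂ ∧ Sym v φ ∧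
      ∫ w, |φ w - F w| ∂(mW v ν) ≤ ε ∧ en v ν n φ₁ φ₂ ≤ ε) :
    ∀ᵐ q ∂(mB v ν), md n F q = fourier (-n) (bet v i) * conj (md n F q) := by
  obtain ⟨C, hC, hfr⟩ := friedrichs hv
  obtain ⟨c, hc⟩ : ∃ c : ℂ, c = fourier (-n) (bet v i) := ⟨_, rfl⟩
  have hc1 : ‖c‖ = 1 := by rw [hc, fourier_apply]; exact Circle.norm_coe _
  have hT : ∀ z : ℂ, ‖z - c * conj z‖ ≤ 2 * ‖z‖ := by
    intro z
    refine (norm_sub_le _ _).trans ?_
    rw [norm_mul, hc1, Complex.norm_conj]; linarith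
  have hbd : ∀ f : Ph × Z → ℝ, Bd f → Bd fun q => ‖md n f q - c * conj (md n f q)‖ := by
    intro f hf
    obtain ⟨B, hB⟩ := hf.2
    have hm := measurable_md hf n
    refine fin_bd_norm (C := 2 * B) (hm.sub ((Complex.continuous_conj.measurable.comp hm).const_mul c))
      fun q => (hT _).trans ?_
    linarith [norm_md_le hB n q]
  rw [← hc]
  have := fin_zero_of (mB v ν) (hbd F hF) (2 * C * √((mB v ν).real univ)) 2 fun ε hε => by
    obtain ⟨φ, φ₁, φ₂, ⟨hφ, h1, h2, hN⟩, hS, e1, e2⟩ := h ε hε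
    refine fin_comb ν hφ h1 h2 hF n (hbd F hF) (by linarith) (fun ζ => ?_) e1 e2
    obtain ⟨hs, hd⟩ := hN n ζ
    have hs1 : ContDiff ℝ 1 fun x : ℂ => md n φ (x, ζ) := hs.of_le (by norm_num)
    have hW : ContDiff ℝ 1 fun x : ℂ => md n φ (x, ζ) - c * conj (md n φ (x, ζ)) :=
      hs1.sub (contDiff_const.mul (Complex.conjCLE.contDiff.comp hs1))
    have hD : ∀ x e, fderiv ℝ (fun x : ℂ => md n φ (x, ζ) - c * conj (md n φ (x, ζ))) x e =
        fderiv ℝ (fun x : ℂ => md n φ (x, ζ)) x e -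
          c * conj (fderiv ℝ (fun x : ℂ => md n φ (x, ζ)) x e) := by
      intro x e
      have a1 := (hs1.differentiable one_ne_zero x).hasFDerivAt
      have a2 := a1.sub ((Complex.conjCLE.hasFDerivAt.comp x a1).const_mul c)
      have a3 : HasFDerivAt (fun x : ℂ => md n φ (x, ζ) - c * conj (md n φ (x, ζ))) _ x := a2
      rw [a3.fderiv]
      simp
    have k1 := hfr i _ hW fun x hx => by
      rw [hc]; exact sub_eq_zero.2 (md_sym hS n i hx ζ)
    have b1 := (fin_bd_md h1 n).add (fin_bd_md h2 n)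
    have k2 : ∫ x in table v,
        (‖fderiv ℝ (fun x : ℂ => md n φ (x, ζ) - c * conj (md n φ (x, ζ))) x 1‖ +
        ‖fderiv ℝ (fun x : ℂ => md n φ (x, ζ) - c * conj (md n φ (x, ζ))) x Complex.I‖) ≤
        2 * ∫ x in table v, (‖md n φ₁ (x, ζ)‖ + ‖md n φ₂ (x, ζ)‖) := by
      rw [← integral_const_mul]
      refine integral_mono_of_nonneg (Eventually.of_forall fun x => by positivity)
        (fin_int_slice ((Bd.const 2).mul b1) ζ) (Eventually.of_forall fun x => ?_)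
      simp only [hD, (hd x).1, (hd x).2]
      linarith [hT (md n φ₁ (x, ζ)), hT (md n φ₂ (x, ζ))]
    have k3 : ∫ x in table v, ‖md n F (x, ζ) - c * conj (md n F (x, ζ))‖ ≤
        (∫ x in table v, ‖md n φ (x, ζ) - c * conj (md n φ (x, ζ))‖) +
          2 * ∫ x in table v, ‖md n φ (x, ζ) - md n F (x, ζ)‖ := by
      have i1 := fin_int_slice (v := v) (hbd φ hφ) ζ
      have i2 : Integrable (fun x => 2 * ‖md n φ (x, ζ) - md n F (x, ζ)‖)
          (volume.restrict (table v)) :=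
        (((fin_int_md (v := v) hφ n ζ).sub (fin_int_md hF n ζ)).norm).const_mul 2
      rw [← integral_const_mul, ← integral_add i1 i2]
      refine integral_mono (fin_int_slice (hbd F hF) ζ) (i1.add i2) fun x => ?_
      have := hT (md n φ (x, ζ) - md n F (x, ζ))
      have e : md n F (x, ζ) - c * conj (md n F (x, ζ)) =
          (md n φ (x, ζ) - c * conj (md n φ (x, ζ))) -
          ((md n φ (x, ζ) - md n F (x, ζ)) - c * conj (md n φ (x, ζ) - md n F (x, ζ))) := by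
        rw [map_sub]; ring
      simp only [Pi.sub_apply]
      rw [e]
      exact (norm_sub_le _ _).trans (by linarith)
    have k4 := mul_le_mul_of_nonneg_left k2 hC
    linarith
  filter_upwards [this] with q hq using sub_eq_zero.1 hq

theorem fin_avg {X : Type} [MeasurableSpace X] (m : Measure X) [IsFiniteMeasure m] {a b : X → ℂ}
    (ha : Integrable a m) (hb : Integrable b m) :
    ∫ x, ‖b x - ⨍ y, b y ∂m‖ ∂m ≤ ∫ x, ‖a x - ⨍ y, a y ∂m‖ ∂m + 2 * ∫ x, ‖a x - b x‖ ∂m := by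
  have i1 : Integrable (fun x => ‖a x - ⨍ y, a y ∂m‖) m := (ha.sub (integrable_const _)).norm
  have i2 : Integrable (fun x => ‖a x - b x‖) m := (ha.sub hb).norm
  have i3 : Integrable (fun x => ‖b x - ⨍ y, b y ∂m‖) m := (hb.sub (integrable_const _)).norm
  have k1 : ∫ x, ‖b x - ⨍ y, b y ∂m‖ ∂m ≤ ∫ x, (‖a x - ⨍ y, a y ∂m‖ + ‖a x - b x‖ +
      ‖⨍ y, a y ∂m - ⨍ y, b y ∂m‖) ∂m := by
    refine integral_mono i3 ((i1.add i2).add (integrable_const _)) fun x => ?_
    have e : b x - ⨍ y, b y ∂m = (a x - ⨍ y, a y ∂m) - (a x - b x) +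
        (⨍ y, a y ∂m - ⨍ y, b y ∂m) := by ring
    simp only
    rw [e]
    exact (norm_add_le _ _).trans (add_le_add_left (norm_sub_le _ _) _)
  have i4 : Integrable (fun x => ‖a x - ⨍ y, a y ∂m‖ + ‖a x - b x‖) m := i1.add i2
  rw [integral_add i4 (integrable_const _), integral_add i1 i2, integral_const] at k1
  have k2 : m.real univ • ‖⨍ y, a y ∂m - ⨍ y, b y ∂m‖ ≤ ∫ x, ‖a x - b x‖ ∂m := by
    rw [smul_eq_mul, ← abs_of_nonneg (measureReal_nonneg (μ := m) (s := univ)), ← Real.norm_eq_abs,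
      ← norm_smul, smul_sub, measure_smul_average, measure_smul_average, ← integral_sub ha hb]
    exact norm_integral_le_integral_norm _
  linarith

theorem fin_av_meas {F : Ph × Z → ℝ} (hF : Bd F) :
    Measurable (fun ζ : Z => ⨍ y in table v, md 0 F (y, ζ)) ∧
      ∃ B, ∀ ζ, ‖⨍ y in table v, md 0 F (y, ζ)‖ ≤ B := by
  obtain ⟨B, hB⟩ := hF.2
  constructor
  · simp only [average_eq]
    exact ((measurable_md hF 0).stronglyMeasurable.integral_prod_left'
      (μ := volume.restrict (table v))).measurable.const_smul _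
  · refine ⟨‖((volume.restrict (table v)).real univ)⁻¹‖ *
      (B * (volume.restrict (table v)).real univ), fun ζ => ?_⟩
    rw [average_eq, norm_smul]
    exact mul_le_mul_of_nonneg_left (norm_integral_le_of_norm_le_const
      (Eventually.of_forall fun x => norm_md_le hB 0 _)) (norm_nonneg _)

theorem fin_zero (hv : AffineIndependent ℝ v) {F : Ph × Z → ℝ} (hF : Bd F)
    (h : ∀ ε : ℝ, 0 < ε → ∃ φ φ₁ φ₂ : Ph × Z → ℝ, Nice φ φ₁ φ₂ ∧ Sym v φ ∧
      ∫ w, |φ w - F w| ∂(mW v ν) ≤ ε ∧ en v ν 0 φ₁ φ₂ ≤ ε) :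
    ∀ᵐ q ∂(mB v ν), md 0 F q = ⨍ y in table v, md 0 F (y, q.2) := by
  obtain ⟨C, hC, hpo⟩ := poincare hv
  obtain ⟨hm, B', hB'⟩ := fin_av_meas (v := v) hF
  obtain ⟨B, hB⟩ := hF.2
  have hbd : Bd fun q : ℂ × Z => ‖md 0 F q - ⨍ y in table v, md 0 F (y, q.2)‖ :=
    fin_bd_norm (C := B + B') ((measurable_md hF 0).sub (hm.comp measurable_snd)) fun q =>
      (norm_sub_le _ _).trans (add_le_add (norm_md_le hB 0 q) (hB' _))
  have := fin_zero_of (mB v ν) hbd (C * √((mB v ν).real univ)) 2 fun ε hε => by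
    obtain ⟨φ, φ₁, φ₂, ⟨hφ, h1, h2, hN⟩, -, e1, e2⟩ := h ε hε
    refine fin_comb ν hφ h1 h2 hF 0 hbd hC (fun ζ => ?_) e1 e2
    obtain ⟨hs, hd⟩ := hN 0 ζ
    have k1 := hpo _ (hs.of_le (by norm_num))
    simp only [(hd _).1, (hd _).2] at k1
    have k2 := fin_avg (volume.restrict (table v)) (fin_int_md hφ 0 ζ) (fin_int_md hF 0 ζ)
    simp only
    linarith
  filter_upwards [this] with q hq using sub_eq_zero.1 hq

theorem fin_all (hv : AffineIndependent ℝ v) (hirr : ¬ RationalTriangle v) {F : Ph × Z → ℝ}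
    (hF : Bd F)
    (h : ∀ (n : ℤ) (ε : ℝ), 0 < ε → ∃ φ φ₁ φ₂ : Ph × Z → ℝ, Nice φ φ₁ φ₂ ∧ Sym v φ ∧
      ∫ w, |φ w - F w| ∂(mW v ν) ≤ ε ∧ en v ν n φ₁ φ₂ ≤ ε) :
    ∃ c : Z → ℝ, Measurable c ∧ ∀ᵐ w ∂(mW v ν), F w = c w.2 := by
  obtain ⟨i, j, hij⟩ := irr_bet hv hirr
  obtain ⟨hm, B', hB'⟩ := fin_av_meas (v := v) hF
  obtain ⟨c, hc⟩ : ∃ c : Z → ℝ, c = fun ζ => (⨍ y in table v, md 0 F (y, ζ)).re := ⟨_, rfl⟩
  have hcm : Measurable c := by rw [hc]; exact Complex.measurable_re.comp hm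
  have hcb : Bd fun w : Ph × Z => c w.2 :=
    ⟨hcm.comp measurable_snd, B', fun w => by
      rw [hc]; exact (Complex.abs_re_le_norm _).trans (hB' _)⟩
  refine ⟨c, hcm, ?_⟩
  have := complete (v := v) ν (hF.sub hcb) fun n => by
    have e : ∀ q, md n (fun w : Ph × Z => c w.2) q = if n = 0 then (c q.2 : ℂ) else 0 :=
      fun q => md_of_snd (fun q => c q.2) n q
    simp only [md_sub hF hcb, e]
    by_cases hn : n = 0
    · subst hn
      filter_upwards [fin_zero ν hv hF (h 0)] with q hq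
      have h1 := md_zero_im F q
      simp only [if_true, hc]
      rw [← hq]
      apply Complex.ext <;> simp [h1]
    · filter_upwards [fin_ne ν hv hF n i (h n), fin_ne ν hv hF n j (h n)] with q h1 h2
      simp only [hn, if_false, sub_zero]
      have h3 : (fourier (-n) (bet v i) - fourier (-n) (bet v j)) * conj (md n F q) = 0 := by
        linear_combination h2 - h1
      rcases mul_eq_zero.1 h3 with h4 | h4
      · exact absurd (sub_eq_zero.1 h4) (hij (-n) (neg_ne_zero.2 hn))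
      · simpa using h4
  filter_upwards [this] with w hw using sub_eq_zero.1 hw

end Vale.Agent.P099
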