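import Vale.Agent.P099.PestA
import Vale.Agent.P099.Bes
import Vale.Agent.P099.Seq

open MeasureTheory Set Filter Topology
open scoped ComplexConjugate

namespace Vale.Agent.P099

variable {v : Fin 3 → ℂ} {Z : Type} [MeasurableSpace Z] (ν : Measure Z) [IsProbabilityMeasure ν]

section PcAlg
variable {X : Type} [MeasurableSpace X] (m : Measure X) [IsFiniteMeasure m] {p q ψ r : X → ℂ}

theorem pc_cs (hp : BdC p) (hq : BdC q) :
    |∫ x, (p x * conj (q x)).re ∂m| ≤ √(∫ x, ‖p x‖ ^ 2 ∂m) * √(∫ x, ‖q x‖ ^ 2 ∂m) := by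
  obtain ⟨h1, C, hC⟩ := hp
  obtain ⟨h2, D, hD⟩ := hq
  exact int_cs m h1 h2 C D hC hD

theorem pc_one (hp : BdC p) (hq : BdC q) (hψ : BdC ψ) (hr : BdC r)
    (h : ∀ x, p x + q x = ψ x + r x) :
    ∫ x, ‖p x‖ ^ 2 ∂m + ∫ x, (ψ x * conj (q x)).re ∂m =
      ∫ x, ‖q x‖ ^ 2 ∂m + ∫ x, (ψ x * conj (p x)).re ∂m +
        ∫ x, (r x * conj (p x - q x)).re ∂m := by
  have i1 : Integrable (fun x => ‖p x‖ ^ 2) m := hp.nsq.integrable m
  have i2 : Integrable (fun x => ‖q x‖ ^ 2) m := hq.nsq.integrable m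
  have i3 : Integrable (fun x => (ψ x * conj (q x)).re) m := (hψ.mul hq.cj).re.integrable m
  have i4 : Integrable (fun x => (ψ x * conj (p x)).re) m := (hψ.mul hp.cj).re.integrable m
  have i5 : Integrable (fun x => (r x * conj (p x - q x)).re) m :=
    (hr.mul (hp.sub hq).cj).re.integrable m
  have i6 : Integrable (fun x => ‖q x‖ ^ 2 + (ψ x * conj (p x)).re) m := i2.add i4
  rw [← integral_add i1 i3, ← integral_add i2 i4, ← integral_add i6 i5]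
  refine integral_congr_ae (Eventually.of_forall fun x => ?_)
  have e : r x = p x + q x - ψ x := by rw [h x]; ring
  simp only [e]
  rw [Complex.sq_norm, Complex.sq_norm, Complex.normSq_apply, Complex.normSq_apply]
  simp
  ring

theorem pc_two (hp : BdC p) (hq : BdC q) (hψ : BdC ψ) (hr : BdC r)
    (h : ∀ x, p x + q x = ψ x + r x) :
    ∫ x, (ψ x * conj (p x)).re ∂m + ∫ x, (ψ x * conj (q x)).re ∂m =
      ∫ x, ‖ψ x‖ ^ 2 ∂m + ∫ x, (ψ x * conj (r x)).re ∂m := by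
  have i1 : Integrable (fun x => ‖ψ x‖ ^ 2) m := hψ.nsq.integrable m
  have i3 : Integrable (fun x => (ψ x * conj (q x)).re) m := (hψ.mul hq.cj).re.integrable m
  have i4 : Integrable (fun x => (ψ x * conj (p x)).re) m := (hψ.mul hp.cj).re.integrable m
  have i5 : Integrable (fun x => (ψ x * conj (r x)).re) m := (hψ.mul hr.cj).re.integrable m
  rw [← integral_add i4 i3, ← integral_add i1 i5]
  refine integral_congr_ae (Eventually.of_forall fun x => ?_)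
  have e : r x = p x + q x - ψ x := by rw [h x]; ring
  simp only [e]
  rw [Complex.sq_norm, Complex.normSq_apply]
  simp
  ring

theorem pc_three (hp : BdC p) (hq : BdC q) (hψ : BdC ψ) (hr : BdC r)
    (h : ∀ x, p x + q x = ψ x + r x) :
    ∫ x, ‖ψ x‖ ^ 2 ∂m + 2 * ∫ x, (ψ x * conj (r x)).re ∂m ≤
      2 * (∫ x, ‖p x‖ ^ 2 ∂m + ∫ x, ‖q x‖ ^ 2 ∂m) := by
  have i1 : Integrable (fun x => ‖p x‖ ^ 2) m := hp.nsq.integrable m
  have i2 : Integrable (fun x => ‖q x‖ ^ 2) m := hq.nsq.integrable m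
  have i3 : Integrable (fun x => ‖ψ x‖ ^ 2) m := hψ.nsq.integrable m
  have i5 : Integrable (fun x => (ψ x * conj (r x)).re) m := (hψ.mul hr.cj).re.integrable m
  have i6 : Integrable (fun x => 2 * (ψ x * conj (r x)).re) m := i5.const_mul 2
  have i7 : Integrable (fun x => ‖p x‖ ^ 2 + ‖q x‖ ^ 2) m := i1.add i2
  rw [← integral_add i1 i2, ← integral_const_mul, ← integral_const_mul, ← integral_add i3 i6]
  refine integral_mono (i3.add i6) (i7.const_mul 2) fun x => ?_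
  have e : ψ x = p x + q x - r x := by rw [h x]; ring
  simp only [e]
  generalize p x = a
  generalize q x = b
  generalize r x = c
  rw [Complex.sq_norm, Complex.sq_norm, Complex.sq_norm, Complex.normSq_apply,
    Complex.normSq_apply, Complex.normSq_apply]
  simp
  nlinarith [sq_nonneg (a.re - b.re), sq_nonneg (a.im - b.im), sq_nonneg c.re, sq_nonneg c.im]

end PcAlg

theorem pc_en (hv : AffineIndependent ℝ v) {φ φ₁ φ₂ : Ph × Z → ℝ} (hN : Nice φ φ₁ φ₂)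
    (hs : Sym v φ) (n : ℤ) :
    en v ν n φ₁ φ₂ = 4 * ∫ q, ‖dz n φ₁ φ₂ q‖ ^ 2 ∂(mB v ν) := by
  have hA := pestA ν hv hN hs n
  obtain ⟨h0, h1, h2, -⟩ := hN
  have i1 : Integrable (fun q => ‖dz n φ₁ φ₂ q‖ ^ 2) (mB v ν) := (bdc_dz h1 h2 n).nsq.integrable _
  have i2 : Integrable (fun q => ‖dzb n φ₁ φ₂ q‖ ^ 2) (mB v ν) :=
    (bdc_dzb h1 h2 n).nsq.integrable _
  have : en v ν n φ₁ φ₂ = 2 * (∫ q, ‖dz n φ₁ φ₂ q‖ ^ 2 ∂(mB v ν) +
      ∫ q, ‖dzb n φ₁ φ₂ q‖ ^ 2 ∂(mB v ν)) := by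
    rw [← integral_add i1 i2, ← integral_const_mul]
    refine integral_congr_ae (Eventually.of_forall fun q => ?_)
    simp only [dz, dzb]
    generalize md n φ₁ q = a
    generalize md n φ₂ q = b
    simp only [Complex.sq_norm, Complex.normSq_apply]
    simp
    ring
  rw [this, ← hA]
  ring

theorem pest (hv : AffineIndependent ℝ v) {φ φ₁ φ₂ Ψ Ψ₁ Ψ₂ : Ph × Z → ℝ} (hN : Nice φ φ₁ φ₂)
    (hN' : Nice Ψ Ψ₁ Ψ₂) (hs : Sym v φ) (hs' : Sym v Ψ) (h1 : Sk ν φ₁ Ψ₁ φ Ψ)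
    (h2 : Sk ν φ₂ Ψ₂ φ Ψ) (N : ℤ) (M : ℕ) (hM : 0 < M) :
    en v ν N φ₁ φ₂ ≤ 4 * (nn v ν Ψ / M +
      (√(nn v ν Ψ) * √(nn v ν (fun w => XX φ₁ φ₂ w - Ψ w)) +
        2 * (√(nn v ν (fun w => XX φ₁ φ₂ w - Ψ w)) * √(nn v ν (YY φ₁ φ₂)))) *
        (1 + (M : ℝ) ^ 2)) := by
  have a0 := hN.1
  have a1 := hN.2.1
  have a2 := hN.2.2.1
  have b0 := hN'.1
  obtain ⟨R, hR⟩ : ∃ R : Ph × Z → ℝ, R = fun w => XX φ₁ φ₂ w - Ψ w := ⟨_, rfl⟩
  have bR : Bd R := by rw [hR]; exact (a1.xx a2).sub b0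
  have bY : Bd (YY φ₁ φ₂) := a1.yy a2
  rw [← hR]
  obtain ⟨A, hA⟩ : ∃ A : ℤ → ℝ, ∀ n, A n = ∫ q, ‖dz n φ₁ φ₂ q‖ ^ 2 ∂(mB v ν) := ⟨_, fun _ => rfl⟩
  obtain ⟨L, hL⟩ : ∃ L : ℤ → ℝ, ∀ n, L n = ∫ q, ‖md n Ψ q‖ ^ 2 ∂(mB v ν) := ⟨_, fun _ => rfl⟩
  obtain ⟨r, hr⟩ : ∃ r : ℤ → ℝ, ∀ n, r n = ∫ q, ‖md n R q‖ ^ 2 ∂(mB v ν) := ⟨_, fun _ => rfl⟩
  obtain ⟨u, hu⟩ : ∃ u : ℤ → ℝ, ∀ n, u n = ∫ q, ‖md n (YY φ₁ φ₂) q‖ ^ 2 ∂(mB v ν) :=
    ⟨_, fun _ => rfl⟩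
  obtain ⟨y, hy⟩ : ∃ y : ℤ → ℝ, ∀ n,
      y n = ∫ q, (md n Ψ q * conj (dz (n - 1) φ₁ φ₂ q)).re ∂(mB v ν) := ⟨_, fun _ => rfl⟩
  obtain ⟨e, he⟩ : ∃ e : ℤ → ℝ, ∀ n, e n = ∫ q, (md n R q *
      conj (dz (n - 1) φ₁ φ₂ q - dzb (n + 1) φ₁ φ₂ q)).re ∂(mB v ν) := ⟨_, fun _ => rfl⟩
  obtain ⟨ρ, hρ⟩ : ∃ ρ : ℤ → ℝ, ∀ n,
      ρ n = ∫ q, (md n Ψ q * conj (md n R q)).re ∂(mB v ν) := ⟨_, fun _ => rfl⟩
  have A0 : ∀ n, 0 ≤ A n := fun n => by rw [hA]; positivity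
  have L0 : ∀ n, 0 ≤ L n := fun n => by rw [hL]; positivity
  have r0 : ∀ n, 0 ≤ r n := fun n => by rw [hr]; positivity
  have u0 : ∀ n, 0 ≤ u n := fun n => by rw [hu]; positivity
  have sL : ∀ s : Finset ℤ, ∑ n ∈ s, L n ≤ nn v ν Ψ := fun s => by
    simp only [hL]; exact bessel ν b0 s
  have sr : ∀ s : Finset ℤ, ∑ n ∈ s, r n ≤ nn v ν R := fun s => by
    simp only [hr]; exact bessel ν bR s
  have su : ∀ s : Finset ℤ, ∑ n ∈ s, u n ≤ nn v ν (YY φ₁ φ₂) := fun s => by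
    simp only [hu]; exact bessel ν bY s
  have hen : ∀ n, en v ν n φ₁ φ₂ = 4 * A n := fun n => by rw [hA]; exact pc_en ν hv hN hs n
  have sA : ∀ s : Finset ℤ, ∑ n ∈ s, A n ≤ nn v ν φ₁ + nn v ν φ₂ := fun s => by
    have t1 := bessel (v := v) ν a1 s
    have t2 := bessel (v := v) ν a2 s
    refine le_trans ?_ (add_le_add t1 t2)
    rw [← Finset.sum_add_distrib]
    refine Finset.sum_le_sum fun n _ => ?_
    have i1 : Integrable (fun q => ‖md n φ₁ q‖ ^ 2) (mB v ν) := (bdc_md a1 n).nsq.integrable _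
    have i2 : Integrable (fun q => ‖md n φ₂ q‖ ^ 2) (mB v ν) := (bdc_md a2 n).nsq.integrable _
    rw [← integral_add i1 i2]
    have := hen n
    unfold en at this
    rw [this]
    linarith [A0 n]
  have hpq : ∀ n q, dz (n - 1) φ₁ φ₂ q + dzb (n + 1) φ₁ φ₂ q = md n Ψ q + md n R q := by
    intro n q
    rw [← md_XX a1 a2, hR, md_sub (a1.xx a2) b0]
    ring
  have hB : ∀ n, ∫ q, (md n Ψ q * conj (dzb (n + 1) φ₁ φ₂ q)).re ∂(mB v ν) = y (n + 1) := by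
    intro n
    rw [hy, add_sub_cancel_right]
    exact pestB ν hv hN hN' hs hs' h1 h2 n
  have hA' : ∀ n, ∫ q, ‖dzb n φ₁ φ₂ q‖ ^ 2 ∂(mB v ν) = A n := fun n => by
    rw [hA]; exact (pestA ν hv hN hs n).symm
  have f1 : ∀ n, A (n - 1) + y (n + 1) = A (n + 1) + y n + e n := by
    intro n
    have := pc_one (mB v ν) (bdc_dz a1 a2 (n - 1)) (bdc_dzb a1 a2 (n + 1)) (bdc_md b0 n)
      (bdc_md bR n) (hpq n)
    rw [hB, hA', ← hA, ← hy, ← he] at this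
    exact this
  have f2 : ∀ n, y n + y (n + 1) = L n + ρ n := by
    intro n
    have := pc_two (mB v ν) (bdc_dz a1 a2 (n - 1)) (bdc_dzb a1 a2 (n + 1)) (bdc_md b0 n)
      (bdc_md bR n) (hpq n)
    rw [hB, ← hy, ← hL, ← hρ] at this
    exact this
  have f3 : ∀ n, L n + 2 * ρ n ≤ 2 * (A (n - 1) + A (n + 1)) := by
    intro n
    have := pc_three (mB v ν) (bdc_dz a1 a2 (n - 1)) (bdc_dzb a1 a2 (n + 1)) (bdc_md b0 n)
      (bdc_md bR n) (hpq n)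
    rw [hA', ← hA, ← hL, ← hρ] at this
    exact this
  have g1 : ∀ n, |e n| ≤ √(r n) * √(u n) := by
    intro n
    have := pc_cs (mB v ν) (bdc_md bR n) ((bdc_dz a1 a2 (n - 1)).sub (bdc_dzb a1 a2 (n + 1)))
    rw [← he, ← hr] at this
    have e2 : u n = ∫ q, ‖dz (n - 1) φ₁ φ₂ q - dzb (n + 1) φ₁ φ₂ q‖ ^ 2 ∂(mB v ν) := by
      rw [hu]
      simp only [md_YY a1 a2, norm_mul, Complex.norm_I, one_mul]
    rw [e2]
    exact this
  have g2 : ∀ n, |ρ n| ≤ √(nn v ν Ψ) * √(nn v ν R) := by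
    intro n
    have := pc_cs (mB v ν) (bdc_md b0 n) (bdc_md bR n)
    rw [← hρ, ← hL, ← hr] at this
    refine this.trans ?_
    have t1 := sL {n}
    have t2 := sr {n}
    rw [Finset.sum_singleton] at t1 t2
    gcongr
  have g3 : ∀ n, |y n| ≤ √(L n) * √(A (n - 1)) := by
    intro n
    have := pc_cs (mB v ν) (bdc_md b0 n) (bdc_dz a1 a2 (n - 1))
    rw [← hy, ← hL, ← hA] at this
    exact this
  have tA := seq_tendsto A _ A0 sA
  have tL := seq_tendsto L _ L0 sL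
  have tA' : Tendsto (fun n => A (n - 1)) atTop (𝓝 0) :=
    tA.comp (tendsto_atTop_add_const_right atTop (-1) tendsto_id)
  have ty : Tendsto y atTop (𝓝 0) := by
    have := tL.sqrt.mul tA'.sqrt
    rw [Real.sqrt_zero, mul_zero] at this
    exact squeeze_zero_norm g3 this
  have tB : Tendsto (fun n => A (n - 1) + A n - y n) atTop (𝓝 0) := by
    simpa using (tA'.add tA).sub ty
  have hBb : ∀ N, |A (N - 1) + A N - y N| ≤ √(nn v ν R) * √(nn v ν (YY φ₁ φ₂)) :=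
    seq_tel (fun n => A (n - 1) + A n - y n) e _
      (fun n => by
        simp only [add_sub_cancel_right]
        linarith [f1 n])
      (fun s => (Finset.sum_le_sum fun n _ => g1 n).trans (seq_cs r u _ _ r0 u0 sr su s)) tB
  have fin := seq_conv A L (nn v ν Ψ) (√(nn v ν Ψ) * √(nn v ν R) +
      2 * (√(nn v ν R) * √(nn v ν (YY φ₁ φ₂)))) (by positivity) A0
    (fun n => by
      have t1 := abs_le.1 (hBb n)
      have t2 := abs_le.1 (hBb (n + 1))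
      have t3 := abs_le.1 (g2 n)
      rw [add_sub_cancel_right] at t2
      linarith [f2 n, f3 n])
    (fun n => by
      have t1 := abs_le.1 (hBb n)
      have t2 := abs_le.1 (hBb (n + 1))
      have t3 := abs_le.1 (g2 n)
      rw [add_sub_cancel_right] at t2
      linarith [f2 n, A0 (n - 1), A0 (n + 1)]) sL N M hM
  rw [hen]
  linarith

end Vale.Agent.P099
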