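import Vale.Agent.P099.SmA

open MeasureTheory Set Filter Topology
open scoped ComplexConjugate

namespace Vale.Agent.P099

variable {P Z : Type} [MeasurableSpace P] [MeasurableSpace Z] (m : Measure P) [IsFiniteMeasure m]
  (ν : Measure Z) [IsProbabilityMeasure ν]

theorem tsm_limit {S : ℝ → Z → Z} (hS : Measurable (fun q : ℝ × Z => S q.1 q.2))
    (hmp : ∀ t, MeasurePreserving (S t) ν ν) (hadd : ∀ s t ζ, S s (S t ζ) = S (s + t) ζ)
    {F : P × Z → ℝ} (hF : Bd F)
    (h : ∀ κ : ℝ → ℝ, ContDiff ℝ 2 κ → HasCompactSupport κ →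
      ∃ c : Z → ℝ, Measurable c ∧ ∀ᵐ w ∂(m.prod ν), tsm S κ F w = c w.2) :
    ∃ c : Z → ℝ, Measurable c ∧ ∀ᵐ w ∂(m.prod ν), F w = c w.2 := by
  obtain ⟨φ, h1, h2⟩ : ∃ φ : ℕ → ContDiffBump (0 : ℝ), Tendsto (fun i => (φ i).rOut) atTop (𝓝 0) ∧
      ∀ i, (φ i).rOut ≤ 2 * (φ i).rIn := by
    refine ⟨fun n => ⟨1 / ((n : ℝ) + 1) / 2, 1 / ((n : ℝ) + 1), by positivity,
      half_lt_self (by positivity)⟩, tendsto_one_div_add_atTop_nhds_zero_nat, fun n => ?_⟩
    simp only
    linarith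
  have hs : ∀ n, ContDiff ℝ 2 ((φ n).normed volume) := fun n => (φ n).contDiff_normed
  have hc : ∀ n, HasCompactSupport ((φ n).normed volume) := fun n => (φ n).hasCompactSupport_normed
  choose c cm hcc using fun n => h _ (hs n) (hc n)
  have hN : MeasurableSet {w : P × Z | Tendsto (fun n => tsm S ((φ n).normed volume) F w) atTop
      (𝓝 (F w))} :=
    measurableSet_tendsto_fun (fun n => (Bd.tsm hS (hs n).continuous (hc n) hF).1) hF.1
  have h3 : ∀ᵐ w ∂(m.prod ν), ∀ᵐ t : ℝ, (w.1, S t w.2) ∈ {w : P × Z |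
      Tendsto (fun n => tsm S ((φ n).normed volume) F w) atTop (𝓝 (F w))} := by
    refine Eventually.of_forall fun w => ?_
    obtain ⟨C, hC⟩ := hF.2
    have h4 : LocallyIntegrable (fun t : ℝ => F (w.1, S t w.2)) volume :=
      (locallyIntegrable_const C).mono
        ((sma_meas hS hF).comp measurable_prodMk_left).aestronglyMeasurable
        (Eventually.of_forall fun t => (hC _).trans (le_abs_self C))
    filter_upwards [ContDiffBump.ae_convolution_tendsto_right_of_locallyIntegrable h1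
      (Eventually.of_forall h2) h4] with t ht
    refine ht.congr fun n => ?_
    rw [convolution_def, tsm, ← integral_neg_eq_self]
    simp [hadd, ContDiffBump.normed_neg, add_comm]
  obtain ⟨t, ht⟩ := ((Measure.ae_ae_comm (p := fun (w : P × Z) (t : ℝ) => (w.1, S t w.2) ∈
    {w : P × Z | Tendsto (fun n => tsm S ((φ n).normed volume) F w) atTop (𝓝 (F w))})
    ((measurable_fst.fst.prodMk (hS.comp (measurable_snd.prodMk measurable_fst.snd))) hN)).1
    h3).exists
  have h4 := (MeasurePreserving.id m).prod (hmp t)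
  have h5 : ∀ᵐ w ∂(m.prod ν), Tendsto (fun n => tsm S ((φ n).normed volume) F w) atTop
      (𝓝 (F w)) := by
    rw [← h4.map_eq]
    exact (ae_map_iff h4.measurable.aemeasurable hN).2 ht
  refine ⟨fun ζ => limsup (fun n => c n ζ) atTop, Measurable.limsup cm, ?_⟩
  filter_upwards [h5, ae_all_iff.2 hcc] with w h6 h7
  simp only [h7] at h6
  exact h6.limsup_eq.symm

theorem zero_one_of_both {A : Set (Z × Z)} (hA : MeasurableSet A)
    (h1 : ∃ c : Z → ℝ, Measurable c ∧ ∀ᵐ w ∂(ν.prod ν), A.indicator (1 : Z × Z → ℝ) w = c w.2)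
    (h2 : ∃ c : Z → ℝ, Measurable c ∧
      ∀ᵐ w ∂(ν.prod ν), A.indicator (1 : Z × Z → ℝ) w.swap = c w.2) :
    ν.prod ν A = 0 ∨ ν.prod ν A = 1 := by
  obtain ⟨c, -, h1⟩ := h1
  obtain ⟨d, -, h2⟩ := h2
  have h3 : ∀ᵐ w ∂(ν.prod ν), d w.1 = c w.2 := by
    filter_upwards [h1, (Measure.measurePreserving_swap (μ := ν) (ν := ν)).quasiMeasurePreserving.ae
      h2] with w h4 h5
    rw [← h4]
    simpa using h5.symm
  obtain ⟨x, hx⟩ := (Measure.ae_ae_of_ae_prod h3).exists
  have h4 : ∀ᵐ w ∂(ν.prod ν), A.indicator (1 : Z × Z → ℝ) w = d x := by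
    filter_upwards [h1, Measure.quasiMeasurePreserving_snd.ae hx] with w h5 h6
    rw [h5, ← h6]
  by_cases h5 : d x = 0
  · refine Or.inl (measure_eq_zero_iff_ae_notMem.2 (h4.mono fun w hw hA' => ?_))
    rw [indicator_of_mem hA', h5] at hw
    exact one_ne_zero hw
  · refine Or.inr ((mem_ae_iff_prob_eq_one hA).1 (h4.mono fun w hw => ?_))
    by_contra hA'
    rw [indicator_of_notMem hA'] at hw
    exact h5 hw.symm

end Vale.Agent.P099
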