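import Vale.Agent.P099.Avg
import Vale.Agent.P099.PestC
import Vale.Agent.P099.Fin
import Vale.Agent.P099.SmB

open MeasureTheory Set Filter Topology
open scoped ComplexConjugate

namespace Vale.Agent.P099

variable {v : Fin 3 → ℂ} {Z : Type} [MeasurableSpace Z] (ν : Measure Z) [IsProbabilityMeasure ν]

theorem core (hv : AffineIndependent ℝ v) (hirr : ¬ RationalTriangle v) {F F' : Ph × Z → ℝ}
    (hF : Bd F) (hF' : Bd F')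
    (h : Dv (mW v ν) univ (fun h w => (flow v h w.1, w.2)) F F' (fun _ => 0))
    (hs : Sk ν F F' F F') : ∃ c : Z → ℝ, Measurable c ∧ ∀ᵐ w ∂(mW v ν), F w = c w.2 := by
  obtain ⟨C₀, hC⟩ := approx ν hv hF hF' h
  refine fin_all ν hv hirr hF fun n ε hε => ?_
  obtain ⟨C, hC0, hC1⟩ : ∃ C : ℝ, C₀ ≤ C ∧ 1 ≤ C := ⟨max C₀ 1, le_max_left _ _, le_max_right _ _⟩
  obtain ⟨M, hM⟩ := exists_nat_gt (8 * C / ε)
  have hM0 : (0 : ℝ) < M := lt_trans (by positivity) hM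
  have hMn : 0 < M := by exact_mod_cast hM0
  obtain ⟨D, hD⟩ : ∃ D : ℝ, D = 8 * (√C + 2) * (1 + (M : ℝ) ^ 2) := ⟨_, rfl⟩
  have hDpos : 0 < D := by rw [hD]; positivity
  obtain ⟨e, he⟩ : ∃ e : ℝ, e = min ε ((ε / D) ^ 2) := ⟨_, rfl⟩
  have he0 : 0 < e := by rw [he]; exact lt_min hε (by positivity)
  have he1 : e ≤ ε := by rw [he]; exact min_le_left _ _
  have he2 : √e ≤ ε / D := by
    rw [Real.sqrt_le_left (by positivity), he]; exact min_le_right _ _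
  obtain ⟨φ, φ₁, φ₂, Ψ, Ψ₁, Ψ₂, ⟨hN, hN', hS, hS', hL, hL1, hL2⟩, h1, h2, h3, h4⟩ := hC e he0
  refine ⟨φ, φ₁, φ₂, hN, hS, h1.trans he1, ?_⟩
  have k1 : Sk ν φ₁ Ψ₁ φ Ψ :=
    (hL _ _ hN.2.1 hN'.2.1 ((hL1 F F' hF hF' hs).symm ν)).symm ν
  have k2 : Sk ν φ₂ Ψ₂ φ Ψ :=
    (hL _ _ hN.2.2.1 hN'.2.2.1 ((hL2 F F' hF hF' hs).symm ν)).symm ν
  have hp := pest ν hv hN hN' hS hS' k1 k2 n M hMn
  have n0 : ∀ f : Ph × Z → ℝ, 0 ≤ nn v ν f := fun f => integral_nonneg fun w => sq_nonneg _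
  have a1 : √(nn v ν Ψ) ≤ √C := Real.sqrt_le_sqrt (h2.trans hC0)
  have a2 : √(nn v ν (fun w => XX φ₁ φ₂ w - Ψ w)) ≤ √e := Real.sqrt_le_sqrt h3
  have a3 : √(nn v ν (fun w => XX φ₁ φ₂ w - Ψ w)) * √(nn v ν (YY φ₁ φ₂)) ≤ √e := by
    rw [← Real.sqrt_mul (n0 _)]; exact Real.sqrt_le_sqrt h4
  have a4 : √(nn v ν Ψ) * √(nn v ν (fun w => XX φ₁ φ₂ w - Ψ w)) ≤ √C * √e :=
    mul_le_mul a1 a2 (Real.sqrt_nonneg _) (Real.sqrt_nonneg _)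
  have a5 : nn v ν Ψ / M ≤ ε / 8 := by
    rw [div_le_iff₀ hM0]
    rw [div_lt_iff₀ hε] at hM
    nlinarith
  have a6 : (√C * √e + 2 * √e) * (1 + (M : ℝ) ^ 2) ≤ ε / 8 := by
    have : (√C * √e + 2 * √e) * (1 + (M : ℝ) ^ 2) = √e * D / 8 := by rw [hD]; ring
    rw [this]
    rw [le_div_iff₀ hDpos] at he2
    linarith
  have a7 : (√(nn v ν Ψ) * √(nn v ν (fun w => XX φ₁ φ₂ w - Ψ w)) +
        2 * (√(nn v ν (fun w => XX φ₁ φ₂ w - Ψ w)) * √(nn v ν (YY φ₁ φ₂)))) *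
        (1 + (M : ℝ) ^ 2) ≤ (√C * √e + 2 * √e) * (1 + (M : ℝ) ^ 2) :=
    mul_le_mul_of_nonneg_right (by linarith) (by positivity)
  linarith

end Vale.Agent.P099
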