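import Vale.Agent.P099.GlobB

open MeasureTheory Set Filter Topology
open scoped ComplexConjugate

namespace Vale.Agent.P099

variable {v : Fin 3 → ℂ}

open Classical in
noncomputable def cutA (v : Fin 3 → ℂ) (s T t : ℝ) (p : Ph) : ℝ :=
  if rr v (flow v t p).1 < s then max (1 - |t| / T) 0 else 0

noncomputable def cutP (v : Fin 3 → ℂ) (s T : ℝ) (p : Ph) : ℝ := ⨆ q : ℚ, cutA v s T q p

theorem cutA_mem {s T : ℝ} (hT : 0 < T) (t : ℝ) (p : Ph) :
    0 ≤ cutA v s T t p ∧ cutA v s T t p ≤ 1 := by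
  have : 0 ≤ |t| / T := by positivity
  unfold cutA
  split_ifs
  · exact ⟨le_max_right _ _, max_le (by linarith) zero_le_one⟩
  · exact ⟨le_rfl, zero_le_one⟩

theorem cutA_le_q {s T : ℝ} (hT : 0 < T) (q : ℚ) (p : Ph) : cutA v s T q p ≤ cutP v s T p :=
  le_ciSup (f := fun q : ℚ => cutA v s T q p) ⟨1, by
    rintro _ ⟨q, rfl⟩
    exact (cutA_mem hT _ p).2⟩ q

theorem cutP_mem {s T : ℝ} (hT : 0 < T) (p : Ph) : 0 ≤ cutP v s T p ∧ cutP v s T p ≤ 1 :=
  ⟨(cutA_mem hT _ p).1.trans (cutA_le_q hT 0 p), ciSup_le fun _ => (cutA_mem hT _ p).2⟩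

theorem cut_max {T : ℝ} (hT : 0 < T) (a b : ℝ) :
    max (1 - |a| / T) 0 ≤ max (1 - |b| / T) 0 + |b - a| / T := by
  have h1 : |b| / T ≤ |a| / T + |b - a| / T := by
    rw [← add_div]
    exact div_le_div_of_nonneg_right (by linarith [abs_sub_abs_le_abs_sub b a]) hT.le
  have h2 : 0 ≤ |b - a| / T := by positivity
  exact max_le (by linarith [le_max_left (1 - |b| / T) 0]) (by linarith [le_max_right (1 - |b| / T) 0])

theorem cutA_le {s T : ℝ} (hT : 0 < T) (t : ℝ) (p : Ph) : cutA v s T t p ≤ cutP v s T p := by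
  by_cases h : rr v (flow v t p).1 < s
  · refine le_of_forall_pos_le_add fun ε hε => ?_
    obtain ⟨q, hq⟩ := exists_rat_near t (lt_min (sub_pos.2 h) (mul_pos hε hT))
    rw [abs_sub_comm] at hq
    have h1 : rr v (flow v q p).1 < s := by
      linarith [rr_lip (v := v) (flow v q p).1 (flow v t p).1, flow_lip (v := v) p t q,
        hq.trans_le (min_le_left _ _)]
    have h2 := cutA_le_q (v := v) (s := s) hT q p
    have h3 : |q - t| / T ≤ ε := by
      rw [div_le_iff₀ hT]; exact (hq.trans_le (min_le_right _ _)).le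
    rw [cutA, if_pos h1] at h2
    rw [cutA, if_pos h]
    linarith [cut_max hT t q]
  · rw [cutA, if_neg h]
    exact (cutP_mem hT p).1

theorem cutP_lip (hv : AffineIndependent ℝ v) {s T : ℝ} (hT : 0 < T) (h : ℝ) (p : Ph) :
    cutP v s T (flow v h p) ≤ cutP v s T p + |h| / T := by
  refine ciSup_le fun q => ?_
  have h1 := cutA_le (v := v) (s := s) hT (q + h) p
  have h2 : 0 ≤ |h| / T := by positivity
  have h3 := cut_max hT q (q + h)
  rw [add_sub_cancel_left] at h3
  unfold cutA at h1 ⊢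
  rw [flow_add hv]
  split_ifs at h1 ⊢ <;> linarith

theorem exists_cut (hv : AffineIndependent ℝ v) (s T : ℝ) (hs : 0 < s) (hT : 0 < T) :
    ∃ (ψ : Ph → ℝ) (E : Set Ph), Measurable ψ ∧ MeasurableSet E ∧ (∀ p, 0 ≤ ψ p ∧ ψ p ≤ 1) ∧
      (∀ p, rr v p.1 < s → ψ p = 1) ∧ (∀ p, p ∉ E → ψ p = 0) ∧
      (∀ p h, |h| ≤ T → |ψ (flow v h p) - ψ p| ≤ |h| / T * E.indicator 1 p) ∧
      (mQ v).real E ≤ 200 * (s * T + s ^ 2) := by
  have hA : ∀ a : ℝ, MeasurableSet {p : Ph | rr v p.1 ≤ a} := fun a =>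
    measurableSet_le (continuous_rr.comp continuous_fst).measurable measurable_const
  have hE : ∀ p, p ∉ (⋃ m ∈ Finset.Icc (-⌈2 * T / s⌉) ⌈2 * T / s⌉,
      flow v (m * s) ⁻¹' {p : Ph | rr v p.1 ≤ 2 * s}) → ∀ h, |h| ≤ T →
      cutP v s T (flow v h p) = 0 := by
    intro p hp h hh
    refine le_antisymm (ciSup_le fun q => ?_) (cutP_mem hT _).1
    unfold cutA
    rw [flow_add hv]
    split_ifs with h1
    · refine max_le ?_ le_rfl
      rw [sub_nonpos, le_div_iff₀ hT, one_mul]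
      by_contra h2
      have h3 := abs_le.1 ((abs_add_le (q : ℝ) h).trans (show _ ≤ 2 * T by linarith))
      refine hp (mem_biUnion (x := ⌊(q + h) / s⌋) (Finset.mem_coe.2 (Finset.mem_Icc.2 ⟨?_, ?_⟩)) ?_)
      · rw [← Int.floor_neg, ← neg_div]
        exact Int.floor_le_floor (div_le_div_of_nonneg_right h3.1 hs.le)
      · exact (Int.floor_le_ceil _).trans
          (Int.ceil_le_ceil (div_le_div_of_nonneg_right h3.2 hs.le))
      · have h4 := Int.floor_le ((q + h) / s)
        have h5 := Int.lt_floor_add_one ((q + h) / s)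
        rw [le_div_iff₀ hs] at h4
        rw [div_lt_iff₀ hs] at h5
        have h6 := flow_lip (v := v) p (q + h) (⌊(q + h) / s⌋ * s)
        have h7 : |⌊(q + h) / s⌋ * s - (q + h)| ≤ s := abs_le.2 ⟨by linarith, by linarith⟩
        show rr v _ ≤ 2 * s
        linarith [rr_lip (v := v) (flow v (⌊(q + h) / s⌋ * s) p).1 (flow v (q + h) p).1]
    · exact le_rfl
  refine ⟨cutP v s T, ⋃ m ∈ Finset.Icc (-⌈2 * T / s⌉) ⌈2 * T / s⌉,
    flow v (m * s) ⁻¹' {p : Ph | rr v p.1 ≤ 2 * s}, Measurable.iSup fun q => ?_,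
    Finset.measurableSet_biUnion _ fun m _ => measurable_flow hv _ (hA _), cutP_mem hT,
    fun p hp => ?_, fun p hp => ?_, fun p h hh => ?_, ?_⟩
  · exact Measurable.ite (measurableSet_lt ((continuous_rr.comp continuous_fst).measurable.comp
      (measurable_flow hv _)) measurable_const) measurable_const measurable_const
  · refine le_antisymm (cutP_mem hT p).2 (le_trans ?_ (cutA_le hT 0 p))
    rw [cutA, flow_zero, if_pos hp]
    simp
  · simpa [flow_zero] using hE p hp 0 (by simpa using hT.le)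
  · by_cases hp : p ∈ ⋃ m ∈ Finset.Icc (-⌈2 * T / s⌉) ⌈2 * T / s⌉,
        flow v (m * s) ⁻¹' {p : Ph | rr v p.1 ≤ 2 * s}
    · rw [indicator_of_mem hp, Pi.one_apply, mul_one, abs_le]
      have h1 := cutP_lip hv (s := s) hT h p
      have h2 := cutP_lip hv (s := s) hT (-h) (flow v h p)
      rw [flow_add hv, neg_add_cancel, flow_zero, abs_neg] at h2
      constructor <;> linarith
    · have h1 := hE p hp 0 (by simpa using hT.le)
      rw [flow_zero] at h1
      rw [indicator_of_notMem hp, hE p hp h hh, h1]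
      simp
  · refine ENNReal.toReal_le_of_le_ofReal (by positivity) ?_
    refine (measure_biUnion_finset_le _ _).trans ?_
    refine (Finset.sum_le_card_nsmul _ _ (ENNReal.ofReal (12 * (2 * s) ^ 2)) fun m _ => ?_).trans ?_
    · rw [(mp_flow hv _).measure_preimage (hA _).nullMeasurableSet]
      exact mQ_rr_le _
    · rw [nsmul_eq_mul, ← ENNReal.ofReal_natCast, ← ENNReal.ofReal_mul (Nat.cast_nonneg _)]
      refine ENNReal.ofReal_le_ofReal ?_
      have h0 : 0 ≤ ⌈2 * T / s⌉ := Int.ceil_nonneg (by positivity)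
      have h1 : ((Finset.Icc (-⌈2 * T / s⌉) ⌈2 * T / s⌉).card : ℤ) = 2 * ⌈2 * T / s⌉ + 1 := by
        rw [Int.card_Icc, Int.toNat_of_nonneg (by omega)]
        ring
      have h2 : ((Finset.Icc (-⌈2 * T / s⌉) ⌈2 * T / s⌉).card : ℝ) = 2 * ⌈2 * T / s⌉ + 1 := by
        exact_mod_cast h1
      have h3 := Int.ceil_lt_add_one (2 * T / s)
      have h4 : (⌈2 * T / s⌉ : ℝ) * s ≤ 2 * T + s := by
        have := mul_le_mul_of_nonneg_right h3.le hs.le
        rwa [add_mul, div_mul_cancel₀ _ hs.ne', one_mul] at this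
      rw [h2]
      nlinarith [mul_le_mul_of_nonneg_right h4 hs.le, mul_pos hs hT, mul_pos hs hs]

end Vale.Agent.P099
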