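import Vale.Agent.P099.Meas

open MeasureTheory Set Filter Topology
open scoped ComplexConjugate

namespace Vale.Agent.P099

variable {v : Fin 3 → ℂ} {Z : Type} [MeasurableSpace Z] (ν : Measure Z) [IsProbabilityMeasure ν]

theorem cv1_meas {G : Ph × Z → ℝ} (hG : Measurable G) (w : Ph × Z) :
    Measurable (fun y : ℂ => G ((y, w.1.2), w.2)) :=
  hG.comp ((measurable_id.prodMk measurable_const).prodMk measurable_const)

theorem cv1_int {k : ℂ → ℝ} (hi : Integrable k) {G : Ph × Z → ℝ} (hG : Bd G) (w : Ph × Z) :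
    Integrable (fun y => k (w.1.1 - y) * G ((y, w.1.2), w.2)) := by
  obtain ⟨hm, C, hC⟩ := hG
  exact (hi.comp_sub_left w.1.1).mul_bdd (c := C) (cv1_meas hm w).aestronglyMeasurable
    (Eventually.of_forall fun y => hC _)

omit [MeasurableSpace Z] in
theorem cv1_abs {k : ℂ → ℝ} (hi : Integrable k) {G : Ph × Z → ℝ} {B : ℝ}
    (hB : ∀ w, |G w| ≤ B) (w : Ph × Z) : |cv k G w| ≤ (∫ y, |k y|) * B := by
  have h1 : Integrable (fun y => |k (w.1.1 - y)| * B) :=
    (hi.comp_sub_left w.1.1).abs.mul_const B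
  have h2 : ‖∫ y, k (w.1.1 - y) * G ((y, w.1.2), w.2)‖ ≤ ∫ y, |k (w.1.1 - y)| * B := by
    refine norm_integral_le_of_norm_le h1 (Eventually.of_forall fun y => ?_)
    rw [Real.norm_eq_abs, abs_mul]
    exact mul_le_mul_of_nonneg_left (hB _) (abs_nonneg _)
  rw [integral_mul_const, integral_sub_left_eq_self (fun y => |k y|) volume w.1.1] at h2
  exact h2

theorem cv1_jm {k : ℂ → ℝ} (hk : Continuous k) {G : Ph × Z → ℝ} (hG : Measurable G) :
    Measurable (fun q : (Ph × Z) × ℂ => k (q.1.1.1 - q.2) * G ((q.2, q.1.1.2), q.1.2)) := by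
  refine Measurable.mul (hk.measurable.comp ?_) (hG.comp ?_)
  · exact (measurable_fst.comp (measurable_fst.comp measurable_fst)).sub measurable_snd
  · exact (measurable_snd.prodMk (measurable_snd.comp (measurable_fst.comp measurable_fst))).prodMk
      (measurable_snd.comp measurable_fst)

theorem Bd.cv {k : ℂ → ℝ} (hk : Continuous k) (hi : Integrable k) {G : Ph × Z → ℝ} (hG : Bd G) :
    Bd (cv k G) := by
  obtain ⟨hm, C, hC⟩ := hG
  refine ⟨?_, (∫ y, |k y|) * C, fun w => cv1_abs hi hC w⟩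
  exact ((cv1_jm hk hm).stronglyMeasurable.integral_prod_right' (ν := volume)).measurable

omit [MeasurableSpace Z] in
theorem abs_cv_le {k : ℂ → ℝ} (hi : Integrable k) {G : Ph × Z → ℝ} {B : ℝ}
    (hB : ∀ w, |G w| ≤ B) (w : Ph × Z) : |cv k G w| ≤ (∫ y, |k y|) * B := by
  exact cv1_abs hi hB w

omit [MeasurableSpace Z] in
theorem cv_vanish {k : ℂ → ℝ} {σ : ℝ} (hk : ∀ y, σ ≤ ‖y‖ → k y = 0) {G : Ph × Z → ℝ} {w : Ph × Z}
    (hG : ∀ y, ‖w.1.1 - y‖ < σ → G ((y, w.1.2), w.2) = 0) : cv k G w = 0 := by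
  unfold Vale.Agent.P099.cv
  have : ∀ y, k (w.1.1 - y) * G ((y, w.1.2), w.2) = 0 := by
    intro y
    rcases le_or_gt σ ‖w.1.1 - y‖ with h | h
    · rw [hk _ h, zero_mul]
    · rw [hG y h, mul_zero]
  simp [this]

omit [MeasurableSpace Z] in
theorem cv_nonneg {k : ℂ → ℝ} (hk : ∀ y, 0 ≤ k y) {G : Ph × Z → ℝ} (hG : ∀ w, 0 ≤ G w)
    (w : Ph × Z) : 0 ≤ cv k G w := by
  exact integral_nonneg fun y => mul_nonneg (hk _) (hG _)

theorem cv_sub {k : ℂ → ℝ} (hi : Integrable k) {G H : Ph × Z → ℝ} (hG : Bd G) (hH : Bd H)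
    (w : Ph × Z) : cv k (fun w => G w - H w) w = cv k G w - cv k H w := by
  unfold Vale.Agent.P099.cv
  rw [← integral_sub (cv1_int hi hG w) (cv1_int hi hH w)]
  congr 1
  funext y; ring

theorem cv1_mp (y : ℂ) :
    MeasurePreserving (fun w : Ph × Z => (((w.1.1 - y, w.1.2) : Ph), w.2)) (mW0 ν) (mW0 ν) := by
  have h1 := ((measurePreserving_sub_right (volume : Measure ℂ) y).prod
    (MeasurePreserving.id (AddCircle.haarAddCircle : Measure UnitAddCircle))).prod
    (MeasurePreserving.id ν)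
  exact h1

theorem int_cv_le {k : ℂ → ℝ} (hk : Continuous k) (hi : Integrable k) {G : Ph × Z → ℝ}
    (hG : Bd G) (hGi : Integrable G (mW0 ν)) :
    ∫ w, |cv k G w| ∂(mW v ν) ≤ (∫ y, |k y|) * ∫ w, |G w| ∂(mW0 ν) := by
  obtain ⟨hm, C, hC⟩ := hG
  let H : ℂ → Ph × Z → ℝ := fun y w => |k y| * |G ((w.1.1 - y, w.1.2), w.2)|
  have hT : Measurable (fun q : ℂ × (Ph × Z) => (((q.2.1.1 - q.1, q.2.1.2) : Ph), q.2.2)) :=
    (((measurable_fst.comp (measurable_fst.comp measurable_snd)).sub measurable_fst).prodMk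
      (measurable_snd.comp (measurable_fst.comp measurable_snd))).prodMk
      (measurable_snd.comp measurable_snd)
  have hHm : Measurable (Function.uncurry H) :=
    (continuous_abs.measurable.comp (hk.measurable.comp measurable_fst)).mul
      (continuous_abs.measurable.comp (hm.comp hT))
  have hI : ∀ y, ∫ w, |G ((w.1.1 - y, w.1.2), w.2)| ∂(mW0 ν) = ∫ w, |G w| ∂(mW0 ν) := by
    intro y
    have h1 := integral_map (μ := mW0 ν) (cv1_mp ν y).measurable.aemeasurable
      (f := fun w => |G w|) (continuous_abs.measurable.comp hm).aestronglyMeasurable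
    rw [(cv1_mp ν y).map_eq] at h1
    exact h1.symm
  have hHy : ∀ y, ∫ w, H y w ∂(mW0 ν) = |k y| * ∫ w, |G w| ∂(mW0 ν) := by
    intro y
    simp only [H]
    rw [integral_const_mul, hI]
  have hHi : Integrable (Function.uncurry H) ((volume : Measure ℂ).prod (mW0 ν)) := by
    rw [integrable_prod_iff hHm.aestronglyMeasurable]
    constructor
    · refine Eventually.of_forall fun y => ?_
      exact (((cv1_mp ν y).integrable_comp_of_integrable hGi).abs).const_mul |k y|
    · have e : (fun y => ∫ w, ‖Function.uncurry H (y, w)‖ ∂(mW0 ν)) =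
          fun y => |k y| * ∫ w, |G w| ∂(mW0 ν) := by
        funext y
        rw [← hHy]
        congr 1
        funext w
        exact Real.norm_of_nonneg (mul_nonneg (abs_nonneg _) (abs_nonneg _))
      rw [e]
      exact hi.abs.mul_const _
  have hP : Integrable (fun w => ∫ y, H y w) (mW0 ν) := hHi.integral_prod_right
  have hle : ∀ w, |cv k G w| ≤ ∫ y, H y w := by
    intro w
    have h1 : |cv k G w| ≤ ∫ y, |k (w.1.1 - y) * G ((y, w.1.2), w.2)| :=
      abs_integral_le_integral_abs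
    refine h1.trans (le_of_eq ?_)
    rw [← integral_sub_left_eq_self (fun y => H y w) volume w.1.1]
    congr 1
    funext y
    simp only [H, abs_mul, sub_sub_cancel]
  have hmle : mW v ν ≤ mW0 ν := by rw [mW_eq]; exact Measure.restrict_le_self
  calc ∫ w, |cv k G w| ∂(mW v ν) ≤ ∫ w, (∫ y, H y w) ∂(mW v ν) :=
        integral_mono_of_nonneg (Eventually.of_forall fun w => abs_nonneg _)
          (hP.mono_measure hmle) (Eventually.of_forall hle)
    _ ≤ ∫ w, (∫ y, H y w) ∂(mW0 ν) :=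
        integral_mono_measure hmle
          (Eventually.of_forall fun w => (abs_nonneg _).trans (hle w)) hP
    _ = ∫ y, ∫ w, H y w ∂(mW0 ν) := (integral_integral_swap hHi).symm
    _ = (∫ y, |k y|) * ∫ w, |G w| ∂(mW0 ν) := by
        simp only [hHy]
        rw [integral_mul_const]

theorem Lin.cv {F F' a a' : Ph × Z → ℝ} (h : Lin ν F F' a a') (ha : Bd a) (ha' : Bd a')
    {k : ℂ → ℝ} (hk : Continuous k) (hi : Integrable k) : Lin ν F F' (cv k a) (cv k a') := by
  intro b b' hb hb' hs p p'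
  have hsk := h b b' hb hb' hs
  let H : Z → ℂ → ℝ := fun ζ y =>
    k (p.1 - y) * (a' ((y, p.2), ζ) * b (p', ζ) + a ((y, p.2), ζ) * b' (p', ζ))
  have hm1 : Measurable (fun q : Z × ℂ => (((q.2, p.2) : Ph), q.1)) :=
    (measurable_snd.prodMk measurable_const).prodMk measurable_fst
  have hm2 : Measurable (fun q : Z × ℂ => (p', q.1)) := measurable_const.prodMk measurable_fst
  have hbd : Bd (fun q : Z × ℂ =>
      a' ((q.2, p.2), q.1) * b (p', q.1) + a ((q.2, p.2), q.1) * b' (p', q.1)) :=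
    ((ha'.comp hm1).mul (hb.comp hm2)).add ((ha.comp hm1).mul (hb'.comp hm2))
  have hHi : Integrable (Function.uncurry H) (ν.prod (volume : Measure ℂ)) := by
    obtain ⟨hm, C, hC⟩ := hbd
    have h1 : Integrable (fun q : Z × ℂ => k (p.1 - q.2)) (ν.prod (volume : Measure ℂ)) :=
      (hi.comp_sub_left p.1).comp_snd ν
    exact h1.mul_bdd (c := C) hm.aestronglyMeasurable (Eventually.of_forall fun q => hC q)
  have e : ∀ ζ, Vale.Agent.P099.cv k a' (p, ζ) * b (p', ζ) +
      Vale.Agent.P099.cv k a (p, ζ) * b' (p', ζ) = ∫ y, H ζ y := by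
    intro ζ
    unfold Vale.Agent.P099.cv
    rw [← integral_mul_const, ← integral_mul_const, ← integral_add
      ((cv1_int hi ha' (p, ζ)).mul_const _) ((cv1_int hi ha (p, ζ)).mul_const _)]
    congr 1
    funext y
    simp only [H]; ring
  simp only [e]
  rw [integral_integral_swap hHi]
  have e2 : ∀ y, ∫ ζ, H ζ y ∂ν = 0 := by
    intro y
    simp only [H]
    rw [integral_const_mul, hsk (y, p.2) p', mul_zero]
  simp [e2]

end Vale.Agent.P099
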