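import Vale.Agent.P099.Cv1

open MeasureTheory Set Filter Topology
open scoped ComplexConjugate

namespace Vale.Agent.P099

variable {v : Fin 3 → ℂ} {Z : Type} [MeasurableSpace Z] (ν : Measure Z) [IsProbabilityMeasure ν]

theorem cv2_slice {g : ℂ → ℝ} (hg : Integrable g) :
    Tendsto (fun y : ℂ => ∫ x, |g (x - y) - g x|) (𝓝 0) (𝓝 0) := by
  let T : ℂ → C(ℂ, ℂ) := fun y => ⟨fun x => x - y, by fun_prop⟩
  have hT : Continuous T := ContinuousMap.continuous_of_continuous_uncurry _
    (continuous_snd.sub continuous_fst)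
  have hm : ∀ y, MeasurePreserving (T y) volume volume := fun y =>
    measurePreserving_sub_right volume y
  have hc : Continuous (fun y => Lp.compMeasurePreserving (T y) (hm y) (hg.toL1 g)) :=
    continuous_const.compMeasurePreservingLp hT hm ENNReal.one_ne_top
  have h1 := tendsto_iff_norm_sub_tendsto_zero.1 (hc.tendsto 0)
  refine h1.congr fun y => ?_
  rw [L1.norm_eq_integral_norm]
  refine integral_congr_ae ?_
  filter_upwards [Lp.coeFn_sub (Lp.compMeasurePreserving (T y) (hm y) (hg.toL1 g))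
      (Lp.compMeasurePreserving (T 0) (hm 0) (hg.toL1 g)),
    Lp.coeFn_compMeasurePreserving (hg.toL1 g) (hm y),
    Lp.coeFn_compMeasurePreserving (hg.toL1 g) (hm 0),
    (hm y).quasiMeasurePreserving.ae_eq_comp hg.coeFn_toL1,
    (hm 0).quasiMeasurePreserving.ae_eq_comp hg.coeFn_toL1] with x h1 h2 h3 h4 h5
  rw [h1, Pi.sub_apply, h2, h3, h4, h5]
  simp [T]

theorem cv2_mp_assoc : MeasurePreserving
    (fun u : ℂ × (UnitAddCircle × Z) => (((u.1, u.2.1), u.2.2) : Ph × Z))
    ((volume : Measure ℂ).prod (AddCircle.haarAddCircle.prod ν)) (mW0 ν) :=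
  (measurePreserving_prodAssoc (volume : Measure ℂ) AddCircle.haarAddCircle ν).symm

theorem cv2_fubini {F : Ph × Z → ℝ} (hF : Integrable F (mW0 ν)) :
    ∫ w, F w ∂(mW0 ν) =
      ∫ s, (∫ x, F ((x, s.1), s.2)) ∂((AddCircle.haarAddCircle : Measure UnitAddCircle).prod ν) := by
  have h1 := (cv2_mp_assoc ν).integrable_comp_of_integrable hF
  have h2 := integral_prod_symm _ h1
  have h3 : ∫ u, F (((u.1, u.2.1), u.2.2) : Ph × Z)
      ∂((volume : Measure ℂ).prod (AddCircle.haarAddCircle.prod ν)) = ∫ w, F w ∂(mW0 ν) :=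
    (cv2_mp_assoc ν).integral_comp
      (MeasurableEquiv.prodAssoc (α := ℂ) (β := UnitAddCircle) (γ := Z)).symm.measurableEmbedding F
  rw [← h3]
  exact h2

theorem cv2_mp_transl (y : ℂ) : MeasurePreserving
    (fun w : Ph × Z => (((w.1.1 - y, w.1.2), w.2) : Ph × Z)) (mW0 ν) (mW0 ν) :=
  ((measurePreserving_sub_right (volume : Measure ℂ) y).prod
    (MeasurePreserving.id AddCircle.haarAddCircle)).prod (MeasurePreserving.id ν)

theorem cv2_int_transl {G : Ph × Z → ℝ} (hGi : Integrable G (mW0 ν)) (y : ℂ) :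
    Integrable (fun w : Ph × Z => |G ((w.1.1 - y, w.1.2), w.2) - G w|) (mW0 ν) :=
  (((cv2_mp_transl ν y).integrable_comp_of_integrable hGi).sub hGi).abs

/-- continuity of translations in `L¹` -/
theorem transl_cont {G : Ph × Z → ℝ} (hG : Bd G) (hGi : Integrable G (mW0 ν)) (ε : ℝ)
    (hε : 0 < ε) : ∃ δ, 0 < δ ∧ ∀ y : ℂ, ‖y‖ < δ →
      ∫ w, |G ((w.1.1 - y, w.1.2), w.2) - G w| ∂(mW0 ν) ≤ ε := by
  have hA := (cv2_mp_assoc ν).integrable_comp_of_integrable hGi
  have ht : Tendsto (fun y : ℂ => ∫ s, (∫ x, |G ((x - y, s.1), s.2) - G ((x, s.1), s.2)|)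
      ∂((AddCircle.haarAddCircle : Measure UnitAddCircle).prod ν)) (𝓝 0)
      (𝓝 (∫ _s, (0:ℝ) ∂((AddCircle.haarAddCircle : Measure UnitAddCircle).prod ν))) := by
    refine tendsto_integral_filter_of_dominated_convergence
      (fun s => 2 * ∫ x, ‖G ((x, s.1), s.2)‖) (Eventually.of_forall fun y => ?_)
      (Eventually.of_forall fun y => ?_) (hA.integral_norm_prod_right.const_mul 2) ?_
    · exact ((cv2_mp_assoc ν).integrable_comp_of_integrable
        (cv2_int_transl ν hGi y)).integral_prod_right.aestronglyMeasurable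
    · filter_upwards [hA.prod_left_ae] with s hs
      have hs' : Integrable (fun x : ℂ => G ((x, s.1), s.2)) := hs
      have h1 : Integrable (fun x : ℂ => G ((x - y, s.1), s.2)) := hs'.comp_sub_right y
      have h2 : ∫ x, ‖G ((x - y, s.1), s.2)‖ = ∫ x, ‖G ((x, s.1), s.2)‖ :=
        integral_sub_right_eq_self (fun x => ‖G ((x, s.1), s.2)‖) y
      rw [Real.norm_of_nonneg (integral_nonneg fun x => abs_nonneg _)]
      calc ∫ x, |G ((x - y, s.1), s.2) - G ((x, s.1), s.2)|
          ≤ ∫ x, (‖G ((x - y, s.1), s.2)‖ + ‖G ((x, s.1), s.2)‖) :=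
            integral_mono (h1.sub hs').abs (h1.norm.add hs'.norm) fun x => abs_sub _ _
        _ = 2 * ∫ x, ‖G ((x, s.1), s.2)‖ := by
            rw [integral_add h1.norm hs'.norm, h2]; ring
    · filter_upwards [hA.prod_left_ae] with s hs
      have hs' : Integrable (fun x : ℂ => G ((x, s.1), s.2)) := hs
      exact cv2_slice hs'
  rw [integral_zero] at ht
  have h3 := ht.eventually (ge_mem_nhds hε)
  obtain ⟨δ, hδ, h4⟩ := Metric.eventually_nhds_iff.1 h3
  refine ⟨δ, hδ, fun y hy => ?_⟩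
  rw [cv2_fubini ν (cv2_int_transl ν hGi y)]
  exact h4 (by rwa [dist_zero_right])

theorem cv_approx {G : Ph × Z → ℝ} (hG : Bd G) (hGi : Integrable G (mW0 ν)) (ε : ℝ)
    (hε : 0 < ε) : ∃ δ, 0 < δ ∧ ∀ k : ℂ → ℝ, Continuous k → Integrable k →
      (∀ y, δ ≤ ‖y‖ → k y = 0) →
      ∫ w, |cv k G w - (∫ y, k y) * G w| ∂(mW v ν) ≤ ε * ∫ y, |k y| := by
  obtain ⟨δ, hδ, hT⟩ := transl_cont ν hG hGi ε hε
  refine ⟨δ, hδ, fun k hk hki hk0 => ?_⟩
  obtain ⟨hGm, C, hC⟩ := hG
  -- the two variable integrand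
  let H : (Ph × Z) × ℂ → ℝ := fun u =>
    |k u.2| * |G ((u.1.1.1 - u.2, u.1.1.2), u.1.2) - G u.1|
  have hHm : Measurable H := by
    have h1 : Measurable (fun u : (Ph × Z) × ℂ => (((u.1.1.1 - u.2, u.1.1.2), u.1.2) : Ph × Z)) := by
      fun_prop
    exact ((hk.measurable.comp measurable_snd).abs).mul
      (((hGm.comp h1).sub (hGm.comp measurable_fst)).abs)
  have hslice : ∀ y, ∫ w, H (w, y) ∂(mW0 ν) ≤ ε * |k y| := by
    intro y
    simp only [H]
    rw [integral_const_mul]
    by_cases hy : ‖y‖ < δ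
    · rw [mul_comm ε]
      exact mul_le_mul_of_nonneg_left (hT y hy) (abs_nonneg _)
    · rw [hk0 y (not_lt.1 hy)]; simp
  have hHi : Integrable H ((mW0 ν).prod volume) := by
    rw [integrable_prod_iff' hHm.aestronglyMeasurable]
    refine ⟨Eventually.of_forall fun y => (cv2_int_transl ν hGi y).const_mul |k y|, ?_⟩
    refine Integrable.mono' (hki.abs.const_mul ε)
      hHm.norm.stronglyMeasurable.integral_prod_left'.aestronglyMeasurable
      (Eventually.of_forall fun y => ?_)
    rw [Real.norm_of_nonneg (integral_nonneg fun w => norm_nonneg _)]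
    refine le_trans (le_of_eq ?_) (hslice y)
    refine integral_congr_ae (Eventually.of_forall fun w => ?_)
    exact Real.norm_of_nonneg (mul_nonneg (abs_nonneg _) (abs_nonneg _))
  have hpt : ∀ w : Ph × Z, |cv k G w - (∫ y, k y) * G w| ≤ ∫ y, H (w, y) := by
    intro w
    have e1 : cv k G w = ∫ y, k y * G ((w.1.1 - y, w.1.2), w.2) := by
      unfold cv
      rw [← integral_sub_left_eq_self (fun y => k y * G ((w.1.1 - y, w.1.2), w.2)) volume w.1.1]
      simp
    have i1 : Integrable (fun y => k y * G ((w.1.1 - y, w.1.2), w.2)) :=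
      hki.mul_bdd (c := C) (hGm.comp (by fun_prop)).aestronglyMeasurable
        (Eventually.of_forall fun y => hC _)
    rw [e1, ← integral_mul_const, ← integral_sub i1 (hki.mul_const _)]
    refine (abs_integral_le_integral_abs).trans (le_of_eq ?_)
    refine integral_congr_ae (Eventually.of_forall fun y => ?_)
    simp only [H]
    rw [← mul_sub, abs_mul]
  have hI : Integrable (fun w => ∫ y, H (w, y)) (mW0 ν) := hHi.integral_prod_left
  calc ∫ w, |cv k G w - (∫ y, k y) * G w| ∂(mW v ν)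
      ≤ ∫ w, (∫ y, H (w, y)) ∂(mW v ν) := by
        refine integral_mono_of_nonneg (Eventually.of_forall fun w => abs_nonneg _) ?_
          (Eventually.of_forall hpt)
        rw [mW_eq]; exact hI.restrict
    _ ≤ ∫ w, (∫ y, H (w, y)) ∂(mW0 ν) := by
        rw [mW_eq]
        exact setIntegral_le_integral hI (Eventually.of_forall fun w =>
          integral_nonneg fun y => mul_nonneg (abs_nonneg _) (abs_nonneg _))
    _ = ∫ y, ∫ w, H (w, y) ∂(mW0 ν) := by
        rw [← integral_prod _ hHi, integral_prod_symm _ hHi]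
    _ ≤ ∫ y, ε * |k y| := integral_mono hHi.integral_prod_right (hki.abs.const_mul ε) hslice
    _ = ε * ∫ y, |k y| := integral_const_mul _ _

end Vale.Agent.P099
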