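import Vale.Agent.P099.Ext0

open MeasureTheory Set Filter Topology
open scoped ComplexConjugate

namespace Vale.Agent.P099

variable {v : Fin 3 → ℂ} {Z : Type} [MeasurableSpace Z] (ν : Measure Z) [IsProbabilityMeasure ν]

omit [IsProbabilityMeasure ν] in
theorem Sk.symm' {P : Type} {a a' b b' : P × Z → ℝ} (h : Sk ν a a' b b') : Sk ν b b' a a' := by
  intro p p'
  rw [← h p' p]
  refine integral_congr_ae (Eventually.of_forall fun ζ => ?_)
  ring

theorem Sk.symm {P : Type} {a a' b b' : P × Z → ℝ} (h : Sk ν a a' b b') : Sk ν b b' a a' :=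
  Sk.symm' ν h

theorem Lin.refl (F F' : Ph × Z → ℝ) : Lin ν F F' F F' := fun _ _ _ _ h => h

theorem Lin.mul {F F' a a' : Ph × Z → ℝ} (h : Lin ν F F' a a') (χ : Ph → ℝ) :
    Lin ν F F' (fun w => χ w.1 * a w) (fun w => χ w.1 * a' w) := by
  intro b b' hb hb' hs p p'
  have := h b b' hb hb' hs p p'
  calc _ = ∫ ζ, χ p * (a' (p, ζ) * b (p', ζ) + a (p, ζ) * b' (p', ζ)) ∂ν := by
        refine integral_congr_ae (Eventually.of_forall fun ζ => ?_)
        simp only; ring
    _ = 0 := by rw [integral_const_mul, this, mul_zero]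

theorem sk_integrable {a a' b b' : Ph × Z → ℝ} (ha : Bd a) (ha' : Bd a') (hb : Bd b) (hb' : Bd b')
    (p p' : Ph) : Integrable (fun ζ => a' (p, ζ) * b (p', ζ) + a (p, ζ) * b' (p', ζ)) ν :=
  (((ha'.comp measurable_prodMk_left).mul (hb.comp measurable_prodMk_left)).add
    ((ha.comp measurable_prodMk_left).mul (hb'.comp measurable_prodMk_left))).integrable ν

theorem Lin.sum {F F' : Ph × Z → ℝ} {ι : Type} (s : Finset ι) {a a' : ι → Ph × Z → ℝ}
    (h : ∀ j ∈ s, Lin ν F F' (a j) (a' j)) (ha : ∀ j ∈ s, Bd (a j)) (ha' : ∀ j ∈ s, Bd (a' j)) :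
    Lin ν F F' (fun w => ∑ j ∈ s, a j w) (fun w => ∑ j ∈ s, a' j w) := by
  intro b b' hb hb' hs p p'
  calc _ = ∫ ζ, ∑ j ∈ s, (a' j (p, ζ) * b (p', ζ) + a j (p, ζ) * b' (p', ζ)) ∂ν := by
        refine integral_congr_ae (Eventually.of_forall fun ζ => ?_)
        simp only [Finset.sum_add_distrib, Finset.sum_mul]
    _ = ∑ j ∈ s, ∫ ζ, (a' j (p, ζ) * b (p', ζ) + a j (p, ζ) * b' (p', ζ)) ∂ν :=
        integral_finset_sum _ fun j hj => sk_integrable ν (ha j hj) (ha' j hj) hb hb' p p'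
    _ = 0 := Finset.sum_eq_zero fun j hj => h j hj b b' hb hb' hs p p'

theorem Lin.ext {F F' a a' : Ph × Z → ℝ} (h : Lin ν F F' a a') (ha : Bd a) (ha' : Bd a') :
    Lin ν F F' (ext v a) (ext v a') := by
  classical
  intro b b' hb hb' hs p p'
  have key : ∀ r : Ph, Integrable (fun ζ => indQ v a' (r, ζ) * b (p', ζ) +
      indQ v a (r, ζ) * b' (p', ζ)) ν ∧
      ∫ ζ, (indQ v a' (r, ζ) * b (p', ζ) + indQ v a (r, ζ) * b' (p', ζ)) ∂ν = 0 := by
    intro r
    by_cases hr : r.1 ∈ table v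
    · have e1 : ∀ (f : Ph × Z → ℝ) ζ, indQ v f (r, ζ) = f (r, ζ) := fun f ζ =>
        indicator_of_mem (s := {w : Ph × Z | w.1.1 ∈ table v}) (a := (r, ζ)) hr f
      simp only [e1]
      exact ⟨sk_integrable ν ha ha' hb hb' r p', h b b' hb hb' hs r p'⟩
    · have e1 : ∀ (f : Ph × Z → ℝ) ζ, indQ v f (r, ζ) = 0 := fun f ζ =>
        indicator_of_notMem (s := {w : Ph × Z | w.1.1 ∈ table v}) (a := (r, ζ)) hr f
      simp [e1]
  calc _ = ∫ ζ, ((indQ v a' (p, ζ) * b (p', ζ) + indQ v a (p, ζ) * b' (p', ζ)) +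
        ∑ i, (indQ v a' (mirP v i p, ζ) * b (p', ζ) + indQ v a (mirP v i p, ζ) * b' (p', ζ))) ∂ν := by
        refine integral_congr_ae (Eventually.of_forall fun ζ => ?_)
        simp only [P099.ext, Finset.sum_add_distrib, ← Finset.sum_mul]
        ring
    _ = 0 := by
        rw [integral_add (key p).1 (integrable_finset_sum _ fun i _ => (key _).1), (key p).2,
          integral_finset_sum _ fun i _ => (key _).1, Finset.sum_eq_zero fun i _ => (key _).2]
        simp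

end Vale.Agent.P099
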