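import Vale.Agent.P099.Basic

open MeasureTheory Set Filter Topology
open scoped ComplexConjugate

namespace Vale.Agent.P099

theorem ker_fd {k : ℂ → ℝ} (hs : ContDiff ℝ 3 k) (hc : HasCompactSupport k) (e : ℂ) :
    Continuous (fun y => fderiv ℝ k y e) ∧ HasCompactSupport (fun y => fderiv ℝ k y e) :=
  ⟨(hs.continuous_fderiv (by norm_num)).clm_apply continuous_const,
    hc.fderiv_apply (𝕜 := ℝ) e⟩

theorem ker_zero {k : ℂ → ℝ} (hs : ContDiff ℝ 3 k) (hc : HasCompactSupport k) (e : ℂ) :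
    ∫ y, fderiv ℝ k y e = 0 := by
  obtain ⟨h1, h2⟩ := ker_fd hs hc e
  have hi : Integrable (fun y => fderiv ℝ k y e) := h1.integrable_of_hasCompactSupport h2
  have hk : Integrable k := hs.continuous.integrable_of_hasCompactSupport hc
  have h := integral_bilinear_hasLineDerivAt_right_eq_neg_left_of_integrable
    (μ := (volume : Measure ℂ)) (f := fun _ : ℂ => (1 : ℝ)) (f' := fun _ : ℂ => (0 : ℝ))
    (g := k) (g' := fun y => fderiv ℝ k y e) (v := e) (B := ContinuousLinearMap.mul ℝ ℝ)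
    (by simp) (by simpa using hi) (by simpa using hk)
    (fun x _ => (hasFDerivAt_const (1 : ℝ) x).hasLineDerivAt e)
    (fun x _ => ((hs.differentiable (by norm_num)) x).hasFDerivAt.hasLineDerivAt e)
  simpa using h

theorem ker_supp {k : ℂ → ℝ} (hs : ContDiff ℝ 3 k) {σ : ℝ} (h0 : ∀ y, 0 ≤ k y)
    (h : ∀ y, σ ≤ ‖y‖ → k y = 0) (y : ℂ) (hy : σ ≤ ‖y‖) : fderiv ℝ k y = 0 := by
  have hm : IsLocalMin k y := Eventually.of_forall fun z => by rw [h y hy]; exact h0 z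
  exact hm.fderiv_eq_zero

noncomputable def kerB (y : ℂ) : ℝ := expNegInvGlue (1 - ‖y‖ ^ 2)

theorem kerB_smooth : ContDiff ℝ 3 kerB :=
  expNegInvGlue.contDiff.comp (contDiff_const.sub (contDiff_norm_sq ℝ))

theorem kerB_supp (y : ℂ) (hy : 1 ≤ ‖y‖) : kerB y = 0 := by
  refine expNegInvGlue.zero_of_nonpos ?_
  nlinarith

theorem ker_cs {k : ℂ → ℝ} {σ : ℝ} (h : ∀ y, σ ≤ ‖y‖ → k y = 0) : HasCompactSupport k := by
  refine HasCompactSupport.intro (isCompact_closedBall (0 : ℂ) σ) fun y hy => h y ?_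
  rw [mem_closedBall_zero_iff, not_le] at hy
  exact hy.le

theorem kerB_pos : 0 < ∫ y, kerB y := by
  refine Continuous.integral_pos_of_hasCompactSupport_nonneg_nonzero kerB_smooth.continuous
    (ker_cs kerB_supp) (fun y => expNegInvGlue.nonneg _) (x := 0) ?_
  exact (expNegInvGlue.pos_of_pos (by simp)).ne'

theorem ker_scale (f : ℂ → ℝ) {σ : ℝ} (hσ : 0 < σ) : ∫ y : ℂ, f (σ⁻¹ • y) = σ ^ 2 * ∫ y, f y := by
  rw [Measure.integral_comp_inv_smul, Complex.finrank_real_complex, abs_of_pos (by positivity),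
    smul_eq_mul]

theorem exists_ker : ∃ c : ℝ, 0 < c ∧ ∀ σ : ℝ, 0 < σ → ∃ k, IsKer σ c k := by
  set I := ∫ y, kerB y with hI
  have hI0 : 0 < I := kerB_pos
  set c₁ := ∫ y, |fderiv ℝ kerB y 1| with hc₁
  set c₂ := ∫ y, |fderiv ℝ kerB y Complex.I| with hc₂
  have h1 : 0 ≤ c₁ := integral_nonneg fun y => abs_nonneg _
  have h2 : 0 ≤ c₂ := integral_nonneg fun y => abs_nonneg _
  refine ⟨(c₁ + c₂ + 1) / I, by positivity, fun σ hσ => ?_⟩
  let a : ℝ := (I * σ ^ 2)⁻¹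
  have ha : 0 < a := by positivity
  let k : ℂ → ℝ := fun y => a * kerB (σ⁻¹ • y)
  have hs : ContDiff ℝ 3 k :=
    contDiff_const.mul (kerB_smooth.comp (contDiff_id.const_smul σ⁻¹))
  have hn : ∀ y : ℂ, ‖σ⁻¹ • y‖ = σ⁻¹ * ‖y‖ := fun y => by
    rw [norm_smul, Real.norm_of_nonneg (by positivity)]
  have hsupp : ∀ y, σ ≤ ‖y‖ → k y = 0 := by
    intro y hy
    have : 1 ≤ ‖σ⁻¹ • y‖ := by
      rw [hn, le_inv_mul_iff₀ hσ, mul_one]; exact hy
    simp only [k, kerB_supp _ this, mul_zero]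
  have h0 : ∀ y, 0 ≤ k y := fun y => mul_nonneg ha.le (expNegInvGlue.nonneg _)
  have hcs : HasCompactSupport k := ker_cs hsupp
  have hd : ∀ y e : ℂ, fderiv ℝ k y e = (a * σ⁻¹) * fderiv ℝ kerB (σ⁻¹ • y) e := by
    intro y e
    have hb := ((kerB_smooth.differentiable (by norm_num)) (σ⁻¹ • y)).hasFDerivAt
    have hl : HasFDerivAt (fun y : ℂ => σ⁻¹ • y) (σ⁻¹ • ContinuousLinearMap.id ℝ ℂ) y :=
      (hasFDerivAt_id y).const_smul σ⁻¹
    have := ((hb.comp y hl).const_mul a).fderiv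
    have e1 : fderiv ℝ k y = a • (fderiv ℝ kerB (σ⁻¹ • y)).comp
      (σ⁻¹ • ContinuousLinearMap.id ℝ ℂ) := this
    rw [e1]
    simp only [ContinuousLinearMap.smul_apply, ContinuousLinearMap.comp_apply,
      ContinuousLinearMap.id_apply, map_smul, smul_eq_mul]
    ring
  have hb : ∀ e : ℂ, ∫ y, |fderiv ℝ k y e| = (∫ y, |fderiv ℝ kerB y e|) / I / σ := by
    intro e
    have : ∀ y, |fderiv ℝ k y e| = (a * σ⁻¹) * |fderiv ℝ kerB (σ⁻¹ • y) e| := by
      intro y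
      rw [hd, abs_mul, abs_of_pos (by positivity)]
    simp only [this]
    rw [integral_const_mul, ker_scale (fun y => |fderiv ℝ kerB y e|) hσ]
    simp only [a]
    field_simp
  refine ⟨k, hs, hcs, h0, ?_, hsupp, ?_, ?_, ?_, ?_, ?_, ker_zero hs hcs 1,
    ker_zero hs hcs Complex.I⟩
  · simp only [k]
    rw [integral_const_mul, ker_scale kerB hσ, ← hI]
    simp only [a]
    field_simp
  · intro y hy
    simp [d1, ker_supp hs h0 hsupp y hy]
  · intro y hy
    simp [d2, ker_supp hs h0 hsupp y hy]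
  · intro y y' h
    simp only [k, kerB, hn, h]
  · unfold d1
    rw [hb, ← hc₁]
    gcongr
    linarith
  · unfold d2
    rw [hb, ← hc₂]
    gcongr
    linarith

theorem IsKer.cont {σ c : ℝ} {k : ℂ → ℝ} (h : IsKer σ c k) :
    Continuous k ∧ Continuous (d1 k) ∧ Continuous (d2 k) ∧
      Integrable k ∧ Integrable (d1 k) ∧ Integrable (d2 k) := by
  obtain ⟨a1, a2⟩ := ker_fd h.smooth h.cs 1
  obtain ⟨b1, b2⟩ := ker_fd h.smooth h.cs Complex.I
  exact ⟨h.smooth.continuous, a1, b1, h.smooth.continuous.integrable_of_hasCompactSupport h.cs,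
    a1.integrable_of_hasCompactSupport a2, b1.integrable_of_hasCompactSupport b2⟩

theorem IsKer.abs_int {σ c : ℝ} {k : ℂ → ℝ} (h : IsKer σ c k) : ∫ y, |k y| = 1 := by
  rw [← h.int]
  congr 1
  funext y
  exact abs_of_nonneg (h.nonneg y)

end Vale.Agent.P099
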