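import Vale.Agent.P099.Md0

open MeasureTheory Set Filter Topology
open scoped ComplexConjugate

namespace Vale.Agent.P099

variable {v : Fin 3 → ℂ} {Z : Type} [MeasurableSpace Z] (ν : Measure Z) [IsProbabilityMeasure ν]

theorem Md.shift (n : ℤ) (θ : UnitAddCircle) :
    fourier (-(n - 1)) θ = fourier (-n) θ * vel θ ∧
      fourier (-(n + 1)) θ = fourier (-n) θ * conj (vel θ) := by
  rw [vel_eq_fourier, ← fourier_neg, ← fourier_add, ← fourier_add]
  constructor <;> congr 2 <;> ring

theorem Md.comb {f g : Ph × Z → ℝ} (hf : Bd f) (hg : Bd g) (n m : ℤ) (q : ℂ × Z)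
    (a b c d : ℂ) : a * md n f q + b * md n g q + c * md m f q + d * md m g q =
    ∫ θ : UnitAddCircle, (a * (fourier (-n) θ * (f ((q.1, θ), q.2) : ℂ)) +
      b * (fourier (-n) θ * (g ((q.1, θ), q.2) : ℂ)) +
      c * (fourier (-m) θ * (f ((q.1, θ), q.2) : ℂ)) +
      d * (fourier (-m) θ * (g ((q.1, θ), q.2) : ℂ))) ∂AddCircle.haarAddCircle := by
  have i1 := (Md0.int_slice hf (-n) q).const_mul a
  have i2 := (Md0.int_slice hg (-n) q).const_mul b
  have i3 := (Md0.int_slice hf (-m) q).const_mul c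
  have i4 := (Md0.int_slice hg (-m) q).const_mul d
  have i5 : Integrable (fun θ : UnitAddCircle => a * (fourier (-n) θ * (f ((q.1, θ), q.2) : ℂ)) +
      b * (fourier (-n) θ * (g ((q.1, θ), q.2) : ℂ))) AddCircle.haarAddCircle := i1.add i2
  have i6 : Integrable (fun θ : UnitAddCircle => a * (fourier (-n) θ * (f ((q.1, θ), q.2) : ℂ)) +
      b * (fourier (-n) θ * (g ((q.1, θ), q.2) : ℂ)) +
      c * (fourier (-m) θ * (f ((q.1, θ), q.2) : ℂ))) AddCircle.haarAddCircle := i5.add i3
  rw [integral_add i6 i4, integral_add i5 i3, integral_add i1 i2]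
  simp only [integral_const_mul, Md0.md_def]

theorem Md.re_im (z : ℂ) : (z.re : ℂ) = (z + conj z) / 2 ∧
    (z.im : ℂ) = -Complex.I * (z - conj z) / 2 := by
  constructor <;> apply Complex.ext <;> simp

theorem md_XX {f g : Ph × Z → ℝ} (hf : Bd f) (hg : Bd g) (n : ℤ) (q : ℂ × Z) :
    md n (XX f g) q = dz (n - 1) f g q + dzb (n + 1) f g q := by
  have h := Md.comb hf hg (n - 1) (n + 1) q (1 / 2) (-Complex.I / 2) (1 / 2) (Complex.I / 2)
  have e : dz (n - 1) f g q + dzb (n + 1) f g q = 1 / 2 * md (n - 1) f q +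
      -Complex.I / 2 * md (n - 1) g q + 1 / 2 * md (n + 1) f q +
      Complex.I / 2 * md (n + 1) g q := by
    unfold dz dzb; ring
  rw [e, h, Md0.md_def]
  refine integral_congr_ae (Eventually.of_forall fun θ => ?_)
  simp only [XX, (Md.shift n θ).1, (Md.shift n θ).2]
  push_cast
  rw [(Md.re_im (vel θ)).1, (Md.re_im (vel θ)).2]
  ring

theorem md_YY {f g : Ph × Z → ℝ} (hf : Bd f) (hg : Bd g) (n : ℤ) (q : ℂ × Z) :
    md n (YY f g) q = Complex.I * (dz (n - 1) f g q - dzb (n + 1) f g q) := by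
  have h := Md.comb hf hg (n - 1) (n + 1) q (Complex.I / 2) (1 / 2) (-Complex.I / 2) (1 / 2)
  have e : Complex.I * (dz (n - 1) f g q - dzb (n + 1) f g q) = Complex.I / 2 * md (n - 1) f q +
      1 / 2 * md (n - 1) g q + -Complex.I / 2 * md (n + 1) f q + 1 / 2 * md (n + 1) g q := by
    unfold dz dzb
    linear_combination (-(md (n - 1) g q) / 2 - md (n + 1) g q / 2) * Complex.I_mul_I
  rw [e, h, Md0.md_def]
  refine integral_congr_ae (Eventually.of_forall fun θ => ?_)
  simp only [YY, (Md.shift n θ).1, (Md.shift n θ).2]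
  push_cast
  rw [(Md.re_im (vel θ)).1, (Md.re_im (vel θ)).2]
  ring

theorem Md.fourier_sub (n : ℤ) (b θ : UnitAddCircle) :
    fourier n (b - θ) = fourier n b * conj (fourier n θ) := by
  rw [← fourier_neg, fourier_apply, fourier_apply, fourier_apply, ← Circle.coe_mul,
    ← AddCircle.toCircle_add, smul_sub, neg_smul, sub_eq_add_neg]

omit [MeasurableSpace Z] in
theorem md_sym {f : Ph × Z → ℝ} (hs : Sym v f) (n : ℤ) (i : Fin 3) {x : ℂ} (hx : x ∈ side v i)
    (ζ : Z) : md n f (x, ζ) = fourier (-n) (bet v i) * conj (md n f (x, ζ)) := by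
  conv_lhs => rw [Md0.md_def, ← integral_sub_left_eq_self _ _ (bet v i)]
  rw [Md0.md_def, ← integral_conj, ← integral_const_mul]
  refine integral_congr_ae (Eventually.of_forall fun θ => ?_)
  simp only [hs i x hx θ ζ, Md.fourier_sub, map_mul, Complex.conj_ofReal]
  ring

omit [MeasurableSpace Z] in
theorem md_zero_im (f : Ph × Z → ℝ) (q : ℂ × Z) : (md 0 f q).im = 0 := by
  rw [Md0.md_def]
  simp only [neg_zero, fourier_zero, one_mul]
  rw [integral_complex_ofReal]
  exact Complex.ofReal_im _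

theorem Md.mp : MeasurePreserving
    (fun p : (ℂ × Z) × UnitAddCircle => (((p.1.1, p.2), p.1.2) : Ph × Z))
    ((mB v ν).prod AddCircle.haarAddCircle) (mW v ν) := by
  have h1 := measurePreserving_prodAssoc (volume.restrict (table v)) ν
    (AddCircle.haarAddCircle (T := 1))
  have h2 := (MeasurePreserving.id (volume.restrict (table v))).prod
    (Measure.measurePreserving_swap (μ := ν) (ν := AddCircle.haarAddCircle (T := 1)))
  have h3 := (measurePreserving_prodAssoc (volume.restrict (table v))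
    (AddCircle.haarAddCircle (T := 1)) ν).symm
  exact (h3.comp h2).comp h1

/-- Fubini in the direction variable -/
theorem Md.fubini {g : Ph × Z → ℝ} (hg : Bd g) :
    Integrable (fun q : ℂ × Z => ∫ θ, g ((q.1, θ), q.2) ∂AddCircle.haarAddCircle) (mB v ν) ∧
    ∫ w, g w ∂(mW v ν) = ∫ q, ∫ θ, g ((q.1, θ), q.2) ∂AddCircle.haarAddCircle ∂(mB v ν) := by
  have hm := Md.mp (v := v) ν
  have hi : Integrable (fun p : (ℂ × Z) × UnitAddCircle => g ((p.1.1, p.2), p.1.2))
      ((mB v ν).prod AddCircle.haarAddCircle) := (hg.comp hm.measurable).integrable _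
  refine ⟨hi.integral_prod_left, ?_⟩
  rw [← hm.map_eq, integral_map hm.measurable.aemeasurable hg.1.aestronglyMeasurable,
    integral_prod _ hi]

theorem md_L1 {f : Ph × Z → ℝ} (hf : Bd f) (n : ℤ) :
    ∫ q, ‖md n f q‖ ∂(mB v ν) ≤ ∫ w, |f w| ∂(mW v ν) := by
  obtain ⟨h1, h2⟩ := Md.fubini (v := v) ν hf.abs
  rw [h2]
  refine integral_mono_of_nonneg (Eventually.of_forall fun _ => norm_nonneg _) h1
    (Eventually.of_forall fun q => ?_)
  simp only [Md0.md_def]
  refine (norm_integral_le_integral_norm _).trans (le_of_eq ?_)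
  refine integral_congr_ae (Eventually.of_forall fun θ => ?_)
  simp only [norm_mul, Md0.norm_fourier, one_mul, Complex.norm_real, Real.norm_eq_abs]

omit [MeasurableSpace Z] in
theorem Md.prod (a b : Ph × Z → ℝ) (n m : ℤ) (x : ℂ) (ζ : Z) :
    md n a (x, ζ) * conj (md m b (x, ζ)) =
      ∫ p : UnitAddCircle × UnitAddCircle, fourier (-n) p.1 * conj (fourier (-m) p.2) *
        ((a ((x, p.1), ζ) * b ((x, p.2), ζ) : ℝ) : ℂ)
        ∂(AddCircle.haarAddCircle.prod AddCircle.haarAddCircle) := by
  rw [Md0.md_def, Md0.md_def, ← integral_conj, ← integral_prod_mul]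
  refine integral_congr_ae (Eventually.of_forall fun p => ?_)
  simp only [map_mul, Complex.conj_ofReal]
  push_cast
  ring

theorem Md.int_aux {X : Type} [MeasurableSpace X] (μ : Measure X) [IsFiniteMeasure μ] (n m : ℤ)
    {π : X → UnitAddCircle × UnitAddCircle} (hπ : Measurable π) {g : X → ℝ} (hg : Bd g) :
    Integrable (fun y => fourier (-n) (π y).1 * conj (fourier (-m) (π y).2) * (g y : ℂ)) μ := by
  refine (hg.integrable μ).ofReal.bdd_mul (c := 1) ?_ (Eventually.of_forall fun y => ?_)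
  · have : Continuous fun p : UnitAddCircle × UnitAddCircle =>
        fourier (-n) p.1 * conj (fourier (-m) p.2) :=
      ((map_continuous (fourier (-n))).comp continuous_fst).mul
        (Complex.continuous_conj.comp ((map_continuous (fourier (-m))).comp continuous_snd))
    exact (this.measurable.comp hπ).aestronglyMeasurable
  · rw [norm_mul, Complex.norm_conj, Md0.norm_fourier, Md0.norm_fourier, one_mul]

theorem md_skew {a a' b b' : Ph × Z → ℝ} (ha : Bd a) (ha' : Bd a') (hb : Bd b) (hb' : Bd b')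
    (h : Sk ν a a' b b') (n m : ℤ) (x : ℂ) :
    ∫ ζ, (md n a' (x, ζ) * conj (md m b (x, ζ)) + md n a (x, ζ) * conj (md m b' (x, ζ))) ∂ν = 0 := by
  have e : ∀ ζ, md n a' (x, ζ) * conj (md m b (x, ζ)) + md n a (x, ζ) * conj (md m b' (x, ζ)) =
      ∫ p : UnitAddCircle × UnitAddCircle, fourier (-n) p.1 * conj (fourier (-m) p.2) *
        ((a' ((x, p.1), ζ) * b ((x, p.2), ζ) + a ((x, p.1), ζ) * b' ((x, p.2), ζ) : ℝ) : ℂ)
        ∂(AddCircle.haarAddCircle.prod AddCircle.haarAddCircle) := by
    intro ζ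
    have m1 : Measurable fun p : UnitAddCircle × UnitAddCircle => (((x, p.1), ζ) : Ph × Z) := by
      fun_prop
    have m2 : Measurable fun p : UnitAddCircle × UnitAddCircle => (((x, p.2), ζ) : Ph × Z) := by
      fun_prop
    rw [Md.prod, Md.prod, ← integral_add
      (Md.int_aux _ n m (π := fun p => p) measurable_id ((ha'.comp m1).mul (hb.comp m2)))
      (Md.int_aux _ n m (π := fun p => p) measurable_id ((ha.comp m1).mul (hb'.comp m2)))]
    refine integral_congr_ae (Eventually.of_forall fun p => ?_)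
    push_cast
    ring
  simp only [e]
  have m1 : Measurable fun y : Z × (UnitAddCircle × UnitAddCircle) =>
      (((x, y.2.1), y.1) : Ph × Z) := by fun_prop
  have m2 : Measurable fun y : Z × (UnitAddCircle × UnitAddCircle) =>
      (((x, y.2.2), y.1) : Ph × Z) := by fun_prop
  rw [integral_integral_swap (Md.int_aux _ n m measurable_snd
    (((ha'.comp m1).mul (hb.comp m2)).add ((ha.comp m1).mul (hb'.comp m2))))]
  refine (integral_congr_ae (Eventually.of_forall fun p => ?_)).trans (integral_zero _ _)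
  rw [integral_const_mul, integral_complex_ofReal, h (x, p.1) (x, p.2)]
  simp

end Vale.Agent.P099
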