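import Vale.Agent.P099.Cv1
import Vale.Agent.P099.Md
import Vale.Agent.P099.Ker
import Vale.Agent.P099.Ext

open MeasureTheory Set Filter Topology
open scoped ComplexConjugate

namespace Vale.Agent.P099

variable {v : Fin 3 → ℂ} {Z : Type} [MeasurableSpace Z] (ν : Measure Z) [IsProbabilityMeasure ν]

theorem cv3_md {k : ℂ → ℝ} (hk : Continuous k) (hi : Integrable k) {G : Ph × Z → ℝ} (hG : Bd G)
    (n : ℤ) (x : ℂ) (ζ : Z) :
    md n (cv k G) (x, ζ) = ∫ y, k (x - y) • md n G (y, ζ) := by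
  obtain ⟨hm, C, hC⟩ := hG
  have hI : Integrable (Function.uncurry fun (t : UnitAddCircle) (y : ℂ) =>
      k (x - y) • (fourier (-n) t • ((G ((y, t), ζ) : ℝ) : ℂ)))
      ((AddCircle.haarAddCircle : Measure UnitAddCircle).prod volume) := by
    have h1 : Integrable (fun p : UnitAddCircle × ℂ => (1 : ℝ) * (|k (x - p.2)| * C))
        ((AddCircle.haarAddCircle : Measure UnitAddCircle).prod volume) :=
      Integrable.mul_prod (f := fun _ : UnitAddCircle => (1 : ℝ))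
        (g := fun y : ℂ => |k (x - y)| * C) (integrable_const _)
        ((hi.comp_sub_left x).abs.mul_const C)
    refine h1.mono' ?_ (Eventually.of_forall fun p => ?_)
    · refine Measurable.aestronglyMeasurable ?_
      have a1 : Measurable fun p : UnitAddCircle × ℂ => k (x - p.2) :=
        (hk.comp (continuous_const.sub continuous_snd)).measurable
      have a2 : Measurable fun p : UnitAddCircle × ℂ => (fourier (-n) p.1 : ℂ) :=
        ((fourier (-n)).continuous.comp continuous_fst).measurable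
      have a3 : Measurable fun p : UnitAddCircle × ℂ => ((G ((p.2, p.1), ζ) : ℝ) : ℂ) :=
        Complex.measurable_ofReal.comp
          (hm.comp ((measurable_snd.prodMk measurable_fst).prodMk measurable_const))
      exact a1.smul (a2.smul a3)
    · simp only [Function.uncurry, norm_smul, one_mul, Real.norm_eq_abs, Complex.norm_real]
      have : ‖(fourier (-n) p.1 : ℂ)‖ = 1 := Circle.norm_coe _
      rw [this, one_mul]
      exact mul_le_mul_of_nonneg_left (hC _) (abs_nonneg _)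
  have e := integral_integral_swap hI
  simp only [md, fourierCoeff, cv]
  calc ∫ t : UnitAddCircle, fourier (-n) t • ((∫ y, k (x - y) * G ((y, t), ζ) : ℝ) : ℂ)
        ∂AddCircle.haarAddCircle
      = ∫ t : UnitAddCircle, (∫ y, k (x - y) • (fourier (-n) t • ((G ((y, t), ζ) : ℝ) : ℂ)))
        ∂AddCircle.haarAddCircle := by
        refine integral_congr_ae (Eventually.of_forall fun t => ?_)
        simp only
        rw [← integral_complex_ofReal, ← integral_smul]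
        refine integral_congr_ae (Eventually.of_forall fun y => ?_)
        simp only [smul_eq_mul, Complex.real_smul, Complex.ofReal_mul]
        ring
    _ = _ := by
        rw [e]
        refine integral_congr_ae (Eventually.of_forall fun y => ?_)
        simp only
        rw [integral_smul]

theorem cv3_loc {G : Ph × Z → ℝ} (hG : Bd G) (n : ℤ) (ζ : Z) :
    LocallyIntegrable (fun y : ℂ => md n G (y, ζ)) volume := by
  obtain ⟨C, hC⟩ := hG.2
  have hm : Measurable fun y : ℂ => md n G (y, ζ) :=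
    (measurable_md hG n).comp (measurable_id.prodMk measurable_const)
  exact (locallyIntegrable_const C).mono hm.aestronglyMeasurable
    (Eventually.of_forall fun y => (norm_md_le hC n _).trans (le_abs_self C))

theorem nice_cv {σ c : ℝ} {k : ℂ → ℝ} (hk : IsKer σ c k) {G : Ph × Z → ℝ} (hG : Bd G) :
    Nice (cv k G) (cv (d1 k) G) (cv (d2 k) G) := by
  obtain ⟨c0, c1, c2, i0, i1, i2⟩ := hk.cont
  refine ⟨hG.cv c0 i0, hG.cv c1 i1, hG.cv c2 i2, fun n ζ => ?_⟩
  have hl := cv3_loc hG n ζ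
  set L : ℂ →L[ℝ] ℝ →L[ℝ] ℂ := (ContinuousLinearMap.lsmul ℝ ℝ : ℝ →L[ℝ] ℂ →L[ℝ] ℂ).flip with hL
  have e : ∀ κ : ℂ → ℝ, Continuous κ → Integrable κ → ∀ x, md n (cv κ G) (x, ζ) =
      convolution (fun y : ℂ => md n G (y, ζ)) κ L volume x := by
    intro κ h1 h2 x
    rw [cv3_md h1 h2 hG, convolution_def]
    rfl
  have e0 : (fun x : ℂ => md n (cv k G) (x, ζ)) =
      convolution (fun y : ℂ => md n G (y, ζ)) k L volume := funext (e k c0 i0)
  have hs1 : ContDiff ℝ 1 k := hk.smooth.of_le (by norm_num)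
  have hd : ∀ x u : ℂ, fderiv ℝ (fun x : ℂ => md n (cv k G) (x, ζ)) x u =
      convolution (fun y : ℂ => md n G (y, ζ)) (fun a => fderiv ℝ k a u) L volume x := by
    intro x u
    rw [e0, (hk.cs.hasFDerivAt_convolution_right L hl hs1 x).fderiv,
      convolution_precompR_apply L hl (hk.cs.fderiv ℝ) (hs1.continuous_fderiv (by norm_num))]
  refine ⟨?_, fun x => ⟨?_, ?_⟩⟩
  · rw [e0]
    exact hk.cs.contDiff_convolution_right L hl (n := 2) (hk.smooth.of_le (by norm_num))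
  · rw [hd, e _ c1 i1]
    rfl
  · rw [hd, e _ c2 i2]
    rfl

theorem cv3_bd {X : Type} [MeasurableSpace X] {ι : Type} (s : Finset ι) (c : ℝ) {φ : ι → X → ℝ}
    (h : ∀ j ∈ s, Bd (φ j)) : Bd fun w => ∑ j ∈ s, c * φ j w :=
  Bd.sum s (f := fun j w => c * φ j w) fun j hj => (Bd.const c).mul (h j hj)

theorem cv3_md_avg {ι : Type} (s : Finset ι) (c : ℝ) {φ : ι → Ph × Z → ℝ}
    (h : ∀ j ∈ s, Bd (φ j)) (n : ℤ) (q : ℂ × Z) :
    md n (fun w => ∑ j ∈ s, c * φ j w) q = ∑ j ∈ s, (c : ℂ) * md n (φ j) q := by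
  rw [md_sum s (f := fun j w => c * φ j w) fun j hj => (Bd.const c).mul (h j hj)]
  exact Finset.sum_congr rfl fun j _ => md_const_mul c (φ j) n q

theorem Nice.avg {ι : Type} (s : Finset ι) (c : ℝ) {φ φ₁ φ₂ : ι → Ph × Z → ℝ}
    (h : ∀ j ∈ s, Nice (φ j) (φ₁ j) (φ₂ j)) :
    Nice (fun w => ∑ j ∈ s, c * φ j w) (fun w => ∑ j ∈ s, c * φ₁ j w)
      (fun w => ∑ j ∈ s, c * φ₂ j w) := by
  have b0 : ∀ j ∈ s, Bd (φ j) := fun j hj => (h j hj).1
  have b1 : ∀ j ∈ s, Bd (φ₁ j) := fun j hj => (h j hj).2.1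
  have b2 : ∀ j ∈ s, Bd (φ₂ j) := fun j hj => (h j hj).2.2.1
  refine ⟨cv3_bd s c b0, cv3_bd s c b1, cv3_bd s c b2, fun n ζ => ?_⟩
  have e0 : (fun x : ℂ => md n (fun w => ∑ j ∈ s, c * φ j w) (x, ζ)) =
      fun x : ℂ => ∑ j ∈ s, (c : ℂ) * md n (φ j) (x, ζ) :=
    funext fun x => cv3_md_avg s c b0 n _
  have sm : ∀ j ∈ s, ContDiff ℝ 2 fun x : ℂ => md n (φ j) (x, ζ) :=
    fun j hj => ((h j hj).2.2.2 n ζ).1
  have hd : ∀ x u : ℂ, fderiv ℝ (fun x : ℂ => md n (fun w => ∑ j ∈ s, c * φ j w) (x, ζ)) x u =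
      ∑ j ∈ s, (c : ℂ) * fderiv ℝ (fun x : ℂ => md n (φ j) (x, ζ)) x u := by
    intro x u
    have : HasFDerivAt (fun x : ℂ => ∑ j ∈ s, (c : ℂ) * md n (φ j) (x, ζ))
        (∑ j ∈ s, (c : ℂ) • fderiv ℝ (fun x : ℂ => md n (φ j) (x, ζ)) x) x :=
      HasFDerivAt.fun_sum fun j hj =>
        (((sm j hj).differentiable (by norm_num)) x).hasFDerivAt.const_mul (c : ℂ)
    rw [e0, this.fderiv]
    simp
  refine ⟨?_, fun x => ⟨?_, ?_⟩⟩
  · rw [e0]
    exact ContDiff.sum fun j hj => contDiff_const.mul (sm j hj)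
  · rw [hd, cv3_md_avg s c b1]
    exact Finset.sum_congr rfl fun j hj => by rw [(((h j hj).2.2.2 n ζ).2 x).1]
  · rw [hd, cv3_md_avg s c b2]
    exact Finset.sum_congr rfl fun j hj => by rw [(((h j hj).2.2.2 n ζ).2 x).2]

omit [MeasurableSpace Z] in
theorem cv3_sym {ι : Type} (s : Finset ι) (c : ℝ) {φ : ι → Ph × Z → ℝ}
    (h : ∀ j ∈ s, Sym v (φ j)) : Sym v fun w => ∑ j ∈ s, c * φ j w := by
  intro i x hx θ ζ
  exact Finset.sum_congr rfl fun j hj => by rw [h j hj i x hx θ ζ]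

theorem cv3_lin {ι : Type} (s : Finset ι) (c : ℝ) {F F' : Ph × Z → ℝ} {a a' : ι → Ph × Z → ℝ}
    (h : ∀ j ∈ s, Lin ν F F' (a j) (a' j)) (ha : ∀ j ∈ s, Bd (a j)) (ha' : ∀ j ∈ s, Bd (a' j)) :
    Lin ν F F' (fun w => ∑ j ∈ s, c * a j w) (fun w => ∑ j ∈ s, c * a' j w) := by
  intro b b' hb hb' hs p p'
  have m : ∀ r : Ph, Measurable fun ζ : Z => (r, ζ) := fun r => measurable_const.prodMk measurable_id
  have e : ∀ ζ : Z, (∑ j ∈ s, c * a' j (p, ζ)) * b (p', ζ) + (∑ j ∈ s, c * a j (p, ζ)) * b' (p', ζ)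
      = ∑ j ∈ s, c * (a' j (p, ζ) * b (p', ζ) + a j (p, ζ) * b' (p', ζ)) := by
    intro ζ
    rw [Finset.sum_mul, Finset.sum_mul, ← Finset.sum_add_distrib]
    exact Finset.sum_congr rfl fun j _ => by ring
  simp only [e]
  rw [integral_finset_sum]
  · refine Finset.sum_eq_zero fun j hj => ?_
    rw [integral_const_mul, h j hj b b' hb hb' hs p p', mul_zero]
  · intro j hj
    exact ((Bd.const c).mul ((((ha' j hj).comp (m p)).mul (hb.comp (m p'))).add
      (((ha j hj).comp (m p)).mul (hb'.comp (m p'))))).integrable ν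

theorem Pack.avg {ι : Type} (s : Finset ι) (c : ℝ) {F F' : Ph × Z → ℝ}
    {φ φ₁ φ₂ Ψ Ψ₁ Ψ₂ : ι → Ph × Z → ℝ}
    (h : ∀ j ∈ s, Pack v ν F F' (φ j) (φ₁ j) (φ₂ j) (Ψ j) (Ψ₁ j) (Ψ₂ j)) :
    Pack v ν F F' (fun w => ∑ j ∈ s, c * φ j w) (fun w => ∑ j ∈ s, c * φ₁ j w)
      (fun w => ∑ j ∈ s, c * φ₂ j w) (fun w => ∑ j ∈ s, c * Ψ j w)
      (fun w => ∑ j ∈ s, c * Ψ₁ j w) (fun w => ∑ j ∈ s, c * Ψ₂ j w) := by
  refine ⟨Nice.avg s c fun j hj => (h j hj).1, Nice.avg s c fun j hj => (h j hj).2.1,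
    cv3_sym s c fun j hj => (h j hj).2.2.1, cv3_sym s c fun j hj => (h j hj).2.2.2.1,
    cv3_lin ν s c (fun j hj => (h j hj).2.2.2.2.1) (fun j hj => (h j hj).1.1)
      (fun j hj => (h j hj).2.1.1),
    cv3_lin ν s c (fun j hj => (h j hj).2.2.2.2.2.1) (fun j hj => (h j hj).1.2.1)
      (fun j hj => (h j hj).2.1.2.1),
    cv3_lin ν s c (fun j hj => (h j hj).2.2.2.2.2.2) (fun j hj => (h j hj).1.2.2.1)
      (fun j hj => (h j hj).2.1.2.2.1)⟩

end Vale.Agent.P099
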