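import Mathlib

open MeasureTheory Set

namespace Vale.Agent.P099

/-- Phase space: position in the plane and direction angle (in full turns). -/
abbrev Ph : Type := ℂ × UnitAddCircle

/-- The unit velocity vector `exp (2 π i θ)` of a direction. -/
noncomputable def vel (θ : UnitAddCircle) : ℂ := (AddCircle.toCircle θ : ℂ)

/-- The open triangle. -/
def table (v : Fin 3 → ℂ) : Set ℂ := interior (convexHull ℝ (range v))

/-- The open side opposite to vertex `i`. -/
def side (v : Fin 3 → ℂ) (i : Fin 3) : Set ℂ := openSegment ℝ (v (i + 1)) (v (i + 2))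

/-- Specular reflection at a wall with direction `e`: tangential part kept, normal part reversed. -/
def IsReflection (e a b : ℂ) : Prop :=
  inner ℝ b e = inner ℝ a e ∧ inner ℝ b (Complex.I * e) = -inner ℝ a (Complex.I * e)

/-- `γ` is a billiard motion near time `τ`. -/
def TrajAt (v : Fin 3 → ℂ) (γ : ℝ → Ph) (τ : ℝ) : Prop :=
  ∃ ε : ℝ, 0 < ε ∧ ∃ θ : UnitAddCircle,
    (∀ t ∈ Ico τ (τ + ε), γ t = ((γ τ).1 + (t - τ) • vel (γ τ).2, (γ τ).2)) ∧
    (∀ t ∈ Ioo (τ - ε) τ, γ t = ((γ τ).1 + (t - τ) • vel θ, θ)) ∧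
    (∀ t ∈ Ioo (τ - ε) (τ + ε), t ≠ τ → (γ t).1 ∈ table v) ∧
    (((γ τ).1 ∈ table v ∧ θ = (γ τ).2) ∨
      ∃ i, (γ τ).1 ∈ side v i ∧ IsReflection (v (i + 2) - v (i + 1)) (vel θ) (vel (γ τ).2))

/-- A billiard trajectory defined for all times (it never meets a vertex). -/
def IsTraj (v : Fin 3 → ℂ) (γ : ℝ → Ph) : Prop := ∀ τ, TrajAt v γ τ

open Classical in
/-- The billiard flow; points without a global trajectory are left fixed. -/
noncomputable def flow (v : Fin 3 → ℂ) (t : ℝ) (p : Ph) : Ph :=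
  if h : ∃ γ, IsTraj v γ ∧ γ 0 = p then h.choose t else p

/-- Normalized area times uniform direction. -/
noncomputable def mu (v : Fin 3 → ℂ) : Measure Ph :=
  (volume (table v))⁻¹ • (volume.restrict (table v)).prod AddCircle.haarAddCircle

/-- Ergodicity of a flow. -/
def FlowErgodic {X : Type} [MeasurableSpace X] (Φ : ℝ → X → X) (μ : Measure X) : Prop :=
  ∀ A : Set X, MeasurableSet A → (∀ t : ℝ, μ (symmDiff (Φ t ⁻¹' A) A) = 0) → μ A = 0 ∨ μ A = 1

/-- All three angles are rational multiples of `π`. -/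
def RationalTriangle (v : Fin 3 → ℂ) : Prop :=
  ∀ i : Fin 3, ∃ q : ℚ, EuclideanGeometry.angle (v (i + 1)) (v i) (v (i + 2)) = q * Real.pi

end Vale.Agent.P099
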