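import Vale.Agent.P099.Cv1
import Vale.Agent.P099.Ker

open MeasureTheory Set Filter Topology
open scoped ComplexConjugate Convolution

namespace Vale.Agent.P099

variable {v : Fin 3 → ℂ} {Z : Type} [MeasurableSpace Z] (ν : Measure Z) [IsProbabilityMeasure ν]

theorem der_int {k : ℂ → ℝ} (hk : Integrable k) {a : ℂ → ℝ} (ha : Bd a) (x : ℂ) :
    Integrable (fun y => k (x - y) * a y) := by
  obtain ⟨hm, C, hC⟩ := ha
  exact (hk.comp_sub_left x).mul_bdd hm.aestronglyMeasurable
    (Eventually.of_forall fun y => by rw [Real.norm_eq_abs]; exact hC y)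

theorem der_has {σ c : ℝ} {k : ℂ → ℝ} (hk : IsKer σ c k) {a : ℂ → ℝ} (ha : Bd a) (x e : ℂ) :
    HasDerivAt (fun t : ℝ => ∫ y, k (x + t • e - y) * a y)
      (e.re * (∫ y, d1 k (x - y) * a y) + e.im * ∫ y, d2 k (x - y) * a y) 0 := by
  obtain ⟨-, -, -, -, i1, i2⟩ := hk.cont
  have hl : LocallyIntegrable a volume := by
    obtain ⟨hm, C, hC⟩ := ha
    refine (locallyIntegrable_const C).mono hm.aestronglyMeasurable
      (Eventually.of_forall fun y => ?_)
    rw [Real.norm_eq_abs, Real.norm_eq_abs]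
    exact (hC y).trans (le_abs_self C)
  have h1 : ContDiff ℝ 1 k := hk.smooth.of_le (by norm_num)
  have h2 := hk.cs.hasFDerivAt_convolution_right (ContinuousLinearMap.mul ℝ ℝ) hl h1
    (x + (0 : ℝ) • e)
  have h3 : HasDerivAt (fun t : ℝ => x + t • e) e 0 := by
    simpa using ((hasDerivAt_id (0 : ℝ)).smul_const e).const_add x
  have h4 := h2.comp_hasDerivAt (0 : ℝ) h3
  rw [convolution_precompR_apply _ hl (hk.cs.fderiv ℝ) (h1.continuous_fderiv one_ne_zero)] at h4
  have h5 : (fun t : ℝ => ∫ y, k (x + t • e - y) * a y) =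
      (a ⋆[ContinuousLinearMap.mul ℝ ℝ, volume] k) ∘ fun t : ℝ => x + t • e := by
    funext t
    simp only [Function.comp, convolution_def, ContinuousLinearMap.mul_apply', mul_comm]
  rw [h5]
  refine h4.congr_deriv ?_
  rw [← integral_const_mul, ← integral_const_mul, ← integral_add
    ((der_int i1 ha x).const_mul _) ((der_int i2 ha x).const_mul _), convolution_def]
  refine integral_congr_ae (Eventually.of_forall fun y => ?_)
  have h6 : e = e.re • (1 : ℂ) + e.im • Complex.I := by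
    apply Complex.ext <;> simp
  have h7 : fderiv ℝ k (x - y) e = e.re * d1 k (x - y) + e.im * d2 k (x - y) := by
    conv_lhs => rw [h6]
    rw [map_add, map_smul, map_smul]
    rfl
  simp only [ContinuousLinearMap.mul_apply', zero_smul, add_zero, h7]
  ring

theorem der_one {σ c : ℝ} {k : ℂ → ℝ} (hk : IsKer σ c k) {a a' g : ℂ → ℝ} (ha : Bd a)
    (ha' : Bd a') (hg : Bd g) (U : Set ℂ) (x e : ℂ) (C h : ℝ)
    (hx : ∀ y, ‖x - y‖ < σ → y ∈ U)
    (H : ∀ᵐ y, y ∈ U → |a (y + h • e) - a y - h * a' y| ≤ h * g y + C * h ^ 2) :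
    |(∫ y, k (x + h • e - y) * a y) - (∫ y, k (x - y) * a y) - h * ∫ y, k (x - y) * a' y| ≤
      h * (∫ y, k (x - y) * g y) + C * h ^ 2 := by
  obtain ⟨-, -, -, i0, -, -⟩ := hk.cont
  have hb : Bd (fun y => a (y + h • e)) := ha.comp (measurable_add_const _)
  have e1 : ∫ y, k (x + h • e - y) * a y = ∫ y, k (x - y) * a (y + h • e) := by
    rw [← integral_add_right_eq_self (fun y => k (x + h • e - y) * a y) (h • e)]
    simp only [add_sub_add_right_eq_sub]
  have e2 : ∫ y, k (x - y) * (C * h ^ 2) = C * h ^ 2 := by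
    rw [integral_mul_const, integral_sub_left_eq_self k volume x, hk.int, one_mul]
  have j1 := der_int i0 hb x
  have j2 := der_int i0 ha x
  have j3 := (der_int i0 ha' x).const_mul h
  have j4 := (der_int i0 hg x).const_mul h
  have j5 := der_int i0 (Bd.const (X := ℂ) (C * h ^ 2)) x
  have j6 : Integrable (fun y => k (x - y) * a (y + h • e) - k (x - y) * a y) := j1.sub j2
  rw [e1, ← e2, ← integral_const_mul, ← integral_const_mul, ← integral_sub j1 j2,
    ← integral_sub j6 j3, ← integral_add j4 j5, ← Real.norm_eq_abs]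
  refine norm_integral_le_of_norm_le (j4.add j5) ?_
  filter_upwards [H] with y hy
  rw [Real.norm_eq_abs]
  by_cases h1 : ‖x - y‖ < σ
  · have h2 := hy (hx y h1)
    have h3 := hk.nonneg (x - y)
    have h4 : k (x - y) * a (y + h • e) - k (x - y) * a y - h * (k (x - y) * a' y) =
        k (x - y) * (a (y + h • e) - a y - h * a' y) := by ring
    rw [h4, abs_mul, abs_of_nonneg h3]
    nlinarith [mul_le_mul_of_nonneg_left h2 h3]
  · simp [hk.supp _ (not_lt.mp h1)]

theorem der_lim {f : ℝ → ℝ} {D I J C h₀ : ℝ} (hf : HasDerivAt f D 0) (h0 : 0 < h₀)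
    (H : ∀ n : ℕ, |f (h₀ / (n + 2)) - f 0 - h₀ / (n + 2) * I| ≤
      h₀ / (n + 2) * J + C * (h₀ / (n + 2)) ^ 2) : |D - I| ≤ J := by
  have hp : ∀ n : ℕ, 0 < h₀ / (n + 2) := fun n => by positivity
  have t0 : Tendsto (fun n : ℕ => h₀ / ((n : ℝ) + 2)) atTop (𝓝 0) :=
    tendsto_const_nhds.div_atTop
      (tendsto_atTop_add_const_right _ _ tendsto_natCast_atTop_atTop)
  have t1 : Tendsto (fun n : ℕ => h₀ / ((n : ℝ) + 2)) atTop (𝓝[>] 0) :=
    tendsto_nhdsWithin_iff.mpr ⟨t0, Eventually.of_forall hp⟩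
  have t2 := ((hf.tendsto_slope_zero_right.comp t1).sub_const I).abs
  have t3 := (t0.const_mul C).const_add J
  rw [mul_zero, add_zero] at t3
  refine le_of_tendsto_of_tendsto' t2 t3 fun n => ?_
  have h1 := H n
  have h2 := hp n
  simp only [Function.comp, zero_add, smul_eq_mul]
  generalize h₀ / ((n : ℝ) + 2) = t at h1 h2
  have h3 : t⁻¹ * (f t - f 0) - I = (f t - f 0 - t * I) / t := by field_simp
  rw [h3, abs_div, abs_of_pos h2, div_le_iff₀ h2]
  nlinarith

theorem der_cv {σ c : ℝ} {k : ℂ → ℝ} (hk : IsKer σ c k) {G G' g : Ph × Z → ℝ} (hG : Bd G)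
    (hG' : Bd G') (hg : Bd g) (U : Set ℂ)
    (h : Dv (mW0 ν) {w | w.1.1 ∈ U} (fun h w => (free h w.1, w.2)) G G' g) :
    ∀ᵐ w ∂(mW0 ν), (∀ y, ‖w.1.1 - y‖ < σ → y ∈ U) →
      |XX (cv (d1 k) G) (cv (d2 k) G) w - cv k G' w| ≤ cv k g w := by
  obtain ⟨C, h₀, h0, H⟩ := h
  have hin : ∀ n : ℕ, h₀ / ((n : ℝ) + 2) ∈ Ioo 0 h₀ := by
    intro n
    have hn : (0 : ℝ) ≤ n := Nat.cast_nonneg n
    refine ⟨by positivity, ?_⟩
    rw [div_lt_iff₀ (by positivity)]
    nlinarith
  have H1 := ae_all_iff.mpr fun n : ℕ => H _ (hin n)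
  have mp := measurePreserving_prodAssoc (volume : Measure ℂ)
    (AddCircle.haarAddCircle : Measure UnitAddCircle) ν
  have mp2 := (mp.symm _).comp (Measure.measurePreserving_swap
    (μ := (AddCircle.haarAddCircle : Measure UnitAddCircle).prod ν) (ν := (volume : Measure ℂ)))
  have H2 := Measure.ae_ae_of_ae_prod (mp2.quasiMeasurePreserving.ae H1)
  have q := (Measure.quasiMeasurePreserving_snd (μ := (volume : Measure ℂ))
    (ν := (AddCircle.haarAddCircle : Measure UnitAddCircle).prod ν)).comp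
      mp.quasiMeasurePreserving
  filter_upwards [q.ae H2] with w hw hx
  obtain ⟨⟨x, θ⟩, ζ⟩ := w
  have hm : Measurable (fun y : ℂ => (((y, θ), ζ) : Ph × Z)) := by fun_prop
  have hd := der_has hk (hG.comp hm) x (vel θ)
  refine der_lim (C := C) hd h0 fun n => ?_
  simp only [zero_smul, add_zero]
  refine der_one hk (hG.comp hm) (hG'.comp hm) (hg.comp hm) U x (vel θ) C _ hx ?_
  filter_upwards [hw] with y hy hU
  exact hy n hU

end Vale.Agent.P099
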