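import Vale.Agent.P099.Geo3

open MeasureTheory Set Filter Topology
open scoped ComplexConjugate

namespace Vale.Agent.P099

variable {v : Fin 3 → ℂ}

/-- collapsing map of the unit square onto the triangle -/
noncomputable def divPhi (v : Fin 3 → ℂ) (z : ℝ × ℝ) : ℂ :=
  v 0 + z.1 • (v 1 - v 0) + (z.1 * z.2) • (v 2 - v 1)

noncomputable def divPhi' (v : Fin 3 → ℂ) (z : ℝ × ℝ) : ℝ × ℝ →L[ℝ] ℂ :=
  (ContinuousLinearMap.fst ℝ ℝ ℝ).smulRight (v 1 - v 0 + z.2 • (v 2 - v 1)) +
    (ContinuousLinearMap.snd ℝ ℝ ℝ).smulRight (z.1 • (v 2 - v 1))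

/-- `u ↦ det (u, w)` -/
noncomputable def divL (w : ℂ) : ℂ →L[ℝ] ℝ := w.im • Complex.reCLM - w.re • Complex.imCLM

theorem divL_apply (w u : ℂ) : divL w u = w.im * u.re - w.re * u.im := by
  simp [divL]

theorem div_hasF (z : ℝ × ℝ) : HasFDerivAt (divPhi v) (divPhi' v z) z := by
  have h1 : HasFDerivAt (fun z : ℝ × ℝ => z.1) (ContinuousLinearMap.fst ℝ ℝ ℝ) z :=
    hasFDerivAt_fst
  have h2 : HasFDerivAt (fun z : ℝ × ℝ => z.2) (ContinuousLinearMap.snd ℝ ℝ ℝ) z :=
    hasFDerivAt_snd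
  have h3 := ((h1.smul_const (v 1 - v 0)).const_add (v 0)).add
    ((h1.mul h2).smul_const (v 2 - v 1))
  refine HasFDerivAt.congr_fderiv h3 ?_
  ext <;> simp [divPhi']

theorem div_cont : Continuous (divPhi v) := by
  unfold divPhi
  fun_prop

theorem div_lam (i : Fin 3) (z : ℝ × ℝ) : lam v i (divPhi v z) =
    (1 - z.1) * lam v i (v 0) + z.1 * (1 - z.2) * lam v i (v 1) + z.1 * z.2 * lam v i (v 2) := by
  unfold divPhi
  rw [lam_add_smul, lam_add_smul, ← lam_sub, ← lam_sub]
  ring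

theorem div_lam0 (z : ℝ × ℝ) : lam v 0 (divPhi v z) = (1 - z.1) * lam v 0 (v 0) := by
  rw [div_lam, lam_vert 0 1 (by decide), lam_vert 0 2 (by decide)]
  ring

theorem div_lam1 (z : ℝ × ℝ) : lam v 1 (divPhi v z) = z.1 * (1 - z.2) * lam v 1 (v 1) := by
  rw [div_lam, lam_vert 1 0 (by decide), lam_vert 1 2 (by decide)]
  ring

theorem div_lam2 (z : ℝ × ℝ) : lam v 2 (divPhi v z) = z.1 * z.2 * lam v 2 (v 2) := by
  rw [div_lam, lam_vert 2 0 (by decide), lam_vert 2 1 (by decide)]
  ring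

theorem div_image (hv : AffineIndependent ℝ v) :
    divPhi v '' (Ioo 0 1 ×ˢ Ioo 0 1) = table v := by
  have p0 := lam_self_pos hv 0
  have p1 := lam_self_pos hv 1
  have p2 := lam_self_pos hv 2
  ext x
  constructor
  · rintro ⟨z, ⟨⟨a1, a2⟩, b1, b2⟩, rfl⟩
    rw [mem_table hv]
    have a3 : 0 < 1 - z.1 := by linarith
    have b3 : 0 < 1 - z.2 := by linarith
    intro i
    fin_cases i
    · show 0 < lam v 0 _
      rw [div_lam0]
      positivity
    · show 0 < lam v 1 _
      rw [div_lam1]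
      positivity
    · show 0 < lam v 2 _
      rw [div_lam2]
      positivity
  · intro hx
    rw [mem_table hv] at hx
    obtain ⟨h1, h2⟩ := bary hv x
    rw [Fin.sum_univ_three] at h1 h2
    have q0 := div_pos (hx 0) p0
    have q1 := div_pos (hx 1) p1
    have q2 := div_pos (hx 2) p2
    generalize lam v 0 x / lam v 0 (v 0) = a at h1 h2 q0
    generalize lam v 1 x / lam v 1 (v 1) = b at h1 h2 q1
    generalize lam v 2 x / lam v 2 (v 2) = c at h1 h2 q2
    have hbc : 0 < b + c := by linarith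
    refine ⟨(b + c, c / (b + c)), ⟨⟨hbc, by linarith⟩, by positivity, ?_⟩, ?_⟩
    · rw [div_lt_one hbc]
      linarith
    · have h3 : (b + c) * (c / (b + c)) = c := by field_simp
      have h4 : a = 1 - (b + c) := by linarith
      rw [h2, h4]
      simp only [divPhi, h3]
      module

theorem div_inj (hv : AffineIndependent ℝ v) : InjOn (divPhi v) (Ioo 0 1 ×ˢ Ioo 0 1) := by
  intro z hz z' _ he
  have p0 := lam_self_pos hv 0
  have p2 := lam_self_pos hv 2
  have h0 := div_lam0 (v := v) z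
  have h2 := div_lam2 (v := v) z
  rw [he, div_lam0] at h0
  rw [he, div_lam2] at h2
  have h3 : z'.1 = z.1 := by
    have := mul_right_cancel₀ p0.ne' h0
    linarith
  have h4 := mul_right_cancel₀ p2.ne' h2
  rw [h3] at h4
  exact Prod.ext h3.symm (mul_left_cancel₀ hz.1.1.ne' h4).symm

theorem div_change (hv : AffineIndependent ℝ v) (F : ℂ → ℝ) :
    ∫ x in table v, F x = ∫ z in Ioo (0 : ℝ) 1 ×ˢ Ioo (0 : ℝ) 1,
      |z.1 * det3 v| * F (divPhi v z) := by
  have hmp := Complex.volume_preserving_equiv_real_prod.symm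
  rw [← hmp.setIntegral_preimage_emb (MeasurableEquiv.measurableEmbedding _) F (table v)]
  have him : Complex.measurableEquivRealProd.symm ⁻¹' table v =
      (fun z => Complex.equivRealProdCLM (divPhi v z)) '' (Ioo 0 1 ×ˢ Ioo 0 1) := by
    rw [← div_image hv]
    ext y
    constructor
    · rintro ⟨z, hz, he⟩
      refine ⟨z, hz, ?_⟩
      simp only [he]
      rfl
    · rintro ⟨z, hz, rfl⟩
      exact ⟨z, hz, rfl⟩
  rw [him, integral_image_eq_integral_abs_det_fderiv_smul volume
    (measurableSet_Ioo.prod measurableSet_Ioo)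
    (f := fun z => Complex.equivRealProdCLM (divPhi v z))
    (f' := fun z => (Complex.equivRealProdCLM : ℂ →L[ℝ] ℝ × ℝ).comp (divPhi' v z))
    (fun z _ => ((Complex.equivRealProdCLM : ℂ →L[ℝ] ℝ × ℝ).hasFDerivAt.comp z
      (div_hasF z)).hasFDerivWithinAt)
    (fun z hz z' hz' he => div_inj hv hz hz' (Complex.equivRealProdCLM.injective he))]
  refine setIntegral_congr_fun (measurableSet_Ioo.prod measurableSet_Ioo) fun z _ => ?_
  have hd : ((Complex.equivRealProdCLM : ℂ →L[ℝ] ℝ × ℝ).comp (divPhi' v z)).det =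
      z.1 * det3 v := by
    have h1 : (Complex.equivRealProdCLM : ℂ →L[ℝ] ℝ × ℝ).comp (divPhi' v z) =
        (Matrix.toLin (.finTwoProd ℝ) (.finTwoProd ℝ)
          !![(v 1 - v 0 + z.2 • (v 2 - v 1)).re, (z.1 • (v 2 - v 1)).re;
            (v 1 - v 0 + z.2 • (v 2 - v 1)).im, (z.1 • (v 2 - v 1)).im]).toContinuousLinearMap := by
      rw [Matrix.toLin_finTwoProd_toContinuousLinearMap]
      ext <;> simp [divPhi']
    rw [h1]
    simp only [LinearMap.det_toContinuousLinearMap, LinearMap.det_toLin, Matrix.det_fin_two_of]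
    simp [det3]
    ring
  simp only [hd, smul_eq_mul]
  rfl

theorem div_lin (G : ℂ →L[ℝ] ℂ) (a : ℂ) : G a = a.re • G 1 + a.im • G Complex.I := by
  rw [← map_smul, ← map_smul, ← map_add]
  congr 1
  apply Complex.ext <;> simp

theorem div_tan (hv : AffineIndependent ℝ v) (i : Fin 3) (u : ℂ) (h : ncp v i u = 0) :
    divL (v (i + 2) - v (i + 1)) u = 0 := by
  have h1 := nrm_norm hv i
  rw [divL_apply]
  unfold ncp at h
  unfold nrm at h h1
  generalize Real.sign (det3 v) / ‖v (i + 2) - v (i + 1)‖ = r at h h1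
  generalize v (i + 2) - v (i + 1) = e at h h1
  have hr : r ≠ 0 := by
    rintro rfl
    simp at h1
  apply mul_left_cancel₀ hr
  simp at h
  linarith

theorem div_square (hv : AffineIndependent ℝ v) {g : ℂ → ℂ} (hg : ContDiff ℝ 1 g)
    (ht : ∀ i, ∀ x ∈ side v i, ncp v i (g x) = 0) :
    ∫ z in Icc ((0 : ℝ), (0 : ℝ)) (1, 1), z.1 * det3 v *
      ((fderiv ℝ g (divPhi v z) 1).re + (fderiv ℝ g (divPhi v z) Complex.I).im) = 0 := by
  have p0 := lam_self_pos hv 0
  have p1 := lam_self_pos hv 1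
  have p2 := lam_self_pos hv 2
  have hgc := hg.continuous
  have hG := hg.continuous_fderiv (by norm_num)
  have hΦ := div_cont (v := v)
  have hP : ∀ z, HasFDerivAt (fun z => g (divPhi v z))
      ((fderiv ℝ g (divPhi v z)).comp (divPhi' v z)) z := fun z =>
    (hg.differentiable (by norm_num) _).hasFDerivAt.comp z (div_hasF z)
  have hA : ∀ (w : ℂ) (z : ℝ × ℝ), HasFDerivAt (fun z => divL w (g (divPhi v z)))
      ((divL w).comp ((fderiv ℝ g (divPhi v z)).comp (divPhi' v z))) z := fun w z =>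
    (divL w).hasFDerivAt.comp z (hP z)
  have h1 : ∀ z : ℝ × ℝ, HasFDerivAt (fun z : ℝ × ℝ => z.1) (ContinuousLinearMap.fst ℝ ℝ ℝ) z :=
    fun z => hasFDerivAt_fst
  have h2 : ∀ z : ℝ × ℝ, HasFDerivAt (fun z : ℝ × ℝ => z.2) (ContinuousLinearMap.snd ℝ ℝ ℝ) z :=
    fun z => hasFDerivAt_snd
  have hf := fun z => (h1 z).mul (hA (v 2 - v 1) z)
  have hk := fun z => ((hA (v 1 - v 0) z).add ((h2 z).mul (hA (v 2 - v 1) z))).neg
  have key := integral_divergence_prod_Icc_of_hasFDerivAt_of_le _ _ _ _ ((0 : ℝ), (0 : ℝ)) (1, 1)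
    ⟨zero_le_one, zero_le_one⟩
    (fun z _ => (hf z).continuousAt.continuousWithinAt)
    (fun z _ => (hk z).continuousAt.continuousWithinAt) (fun z _ => hf z) (fun z _ => hk z)
  have hid : ∀ z : ℝ × ℝ,
      (z.1 • (divL (v 2 - v 1)).comp ((fderiv ℝ g (divPhi v z)).comp (divPhi' v z)) +
        divL (v 2 - v 1) (g (divPhi v z)) • ContinuousLinearMap.fst ℝ ℝ ℝ) (1, 0) +
      (-((divL (v 1 - v 0)).comp ((fderiv ℝ g (divPhi v z)).comp (divPhi' v z)) +
        (z.2 • (divL (v 2 - v 1)).comp ((fderiv ℝ g (divPhi v z)).comp (divPhi' v z)) +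
        divL (v 2 - v 1) (g (divPhi v z)) • ContinuousLinearMap.snd ℝ ℝ ℝ))) (0, 1) =
      z.1 * det3 v *
        ((fderiv ℝ g (divPhi v z) 1).re + (fderiv ℝ g (divPhi v z) Complex.I).im) := by
    intro z
    have e1 : divPhi' v z (1, 0) = v 1 - v 0 + z.2 • (v 2 - v 1) := by simp [divPhi']
    have e2 : divPhi' v z (0, 1) = z.1 • (v 2 - v 1) := by simp [divPhi']
    simp only [ContinuousLinearMap.add_apply, ContinuousLinearMap.neg_apply,
      ContinuousLinearMap.smul_apply, ContinuousLinearMap.comp_apply, e1, e2,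
      ContinuousLinearMap.coe_fst', ContinuousLinearMap.coe_snd', smul_eq_mul]
    rw [div_lin _ (v 1 - v 0 + z.2 • (v 2 - v 1)), div_lin _ (z.1 • (v 2 - v 1))]
    simp only [divL_apply]
    simp [det3]
    ring
  simp only [hid] at key
  rw [key (Continuous.continuousOn (by fun_prop)).integrableOn_Icc]
  have hae : ∀ F : ℝ → ℝ, (∀ t ∈ Ioo (0 : ℝ) 1, F t = 0) → ∫ t in (0 : ℝ)..1, F t = 0 := by
    intro F hF
    rw [intervalIntegral.integral_of_le zero_le_one, integral_Ioc_eq_integral_Ioo]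
    exact setIntegral_eq_zero_of_forall_eq_zero hF
  rw [hae, hae, hae, hae]
  · norm_num
  · intro t _
    simp
  · intro t ht'
    have hm : divPhi v (1, t) ∈ side v 0 := by
      rw [mem_side hv]
      have b3 : 0 < 1 - t := by linarith [ht'.2]
      have b4 := ht'.1
      refine ⟨by rw [div_lam0]; simp, fun j hj => ?_⟩
      fin_cases j
      · exact absurd rfl hj
      · show 0 < lam v 1 _
        rw [div_lam1]
        positivity
      · show 0 < lam v 2 _
        rw [div_lam2]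
        positivity
    have := div_tan hv 0 _ (ht 0 _ hm)
    simpa using this
  · intro t ht'
    have hm : divPhi v (t, 0) ∈ side v 2 := by
      rw [mem_side hv]
      have b3 : 0 < 1 - t := by linarith [ht'.2]
      have b4 := ht'.1
      refine ⟨by rw [div_lam2]; simp, fun j hj => ?_⟩
      fin_cases j
      · show 0 < lam v 0 _
        rw [div_lam0]
        positivity
      · show 0 < lam v 1 _
        rw [div_lam1]
        simp only [sub_zero]
        positivity
      · exact absurd rfl hj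
    have := div_tan hv 2 _ (ht 2 _ hm)
    simpa using this
  · intro t ht'
    have hm : divPhi v (t, 1) ∈ side v 1 := by
      rw [mem_side hv]
      have b3 : 0 < 1 - t := by linarith [ht'.2]
      have b4 := ht'.1
      refine ⟨by rw [div_lam1]; simp, fun j hj => ?_⟩
      fin_cases j
      · show 0 < lam v 0 _
        rw [div_lam0]
        positivity
      · exact absurd rfl hj
      · show 0 < lam v 2 _
        rw [div_lam2]
        positivity
    have h3 : divL (v 0 - v 2) (g (divPhi v (t, 1))) = 0 := div_tan hv 1 _ (ht 1 _ hm)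
    simp only [divL_apply, Complex.sub_re, Complex.sub_im] at h3
    simp only [Pi.neg_apply, Pi.add_apply, Pi.mul_apply, divL_apply, Complex.sub_re,
      Complex.sub_im]
    linarith

/-- divergence theorem for a field tangent to the sides -/
theorem div_zero (hv : AffineIndependent ℝ v) {g : ℂ → ℂ} (hg : ContDiff ℝ 1 g)
    (ht : ∀ i, ∀ x ∈ side v i, ncp v i (g x) = 0) :
    ∫ x in table v, ((fderiv ℝ g x 1).re + (fderiv ℝ g x Complex.I).im) = 0 := by
  have h1 := div_square hv hg ht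
  have h2 : (Icc ((0 : ℝ), (0 : ℝ)) (1, 1) : Set (ℝ × ℝ)) =ᵐ[volume]
      (Ioo (0 : ℝ) 1 ×ˢ Ioo (0 : ℝ) 1 : Set (ℝ × ℝ)) := by
    rw [Icc_prod_eq, Measure.volume_eq_prod]
    have h0 : (Icc (0 : ℝ) 1 : Set ℝ) =ᵐ[volume] Ioo (0 : ℝ) 1 := Ioo_ae_eq_Icc.symm
    exact Measure.set_prod_ae_eq h0 h0
  rw [setIntegral_congr_set h2] at h1
  rw [div_change hv]
  have hd := det3_ne hv
  have h3 := congrArg (fun t => |det3 v| / det3 v * t) h1
  simp only [mul_zero] at h3
  refine Eq.trans ?_ h3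
  rw [← integral_const_mul]
  refine setIntegral_congr_fun (measurableSet_Ioo.prod measurableSet_Ioo) fun z hz => ?_
  simp only [abs_mul, abs_of_pos hz.1.1]
  field_simp

end Vale.Agent.P099
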