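import Vale.Agent.P099.Meas

open MeasureTheory Set Filter Topology
open scoped ComplexConjugate

namespace Vale.Agent.P099

variable {v : Fin 3 → ℂ} {Z : Type} [MeasurableSpace Z] (ν : Measure Z) [IsProbabilityMeasure ν]

theorem ext0_ms : MeasurableSet {w : Ph × Z | w.1.1 ∈ table v} :=
  measurable_fst.fst isOpen_table.measurableSet

omit [MeasurableSpace Z] in
theorem ext0_in (f : Ph × Z → ℝ) {w : Ph × Z} (hw : w.1.1 ∈ table v) : indQ v f w = f w :=
  indicator_of_mem (s := {w : Ph × Z | w.1.1 ∈ table v}) hw f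

omit [MeasurableSpace Z] in
theorem ext0_out (f : Ph × Z → ℝ) {w : Ph × Z} (hw : w.1.1 ∉ table v) : indQ v f w = 0 :=
  indicator_of_notMem (s := {w : Ph × Z | w.1.1 ∈ table v}) hw f

omit [MeasurableSpace Z] in
theorem ext0_mir (hv : AffineIndependent ℝ v) (f : Ph × Z → ℝ) {w : Ph × Z} {i : Fin 3}
    (h : 0 ≤ lam v i w.1.1) : indQ v f (mirP v i w.1, w.2) = 0 := by
  refine ext0_out f fun h1 => ?_
  have h2 : 0 < lam v i (mir v i w.1.1) := (mem_table hv _).1 h1 i
  rw [lam_mir hv] at h2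
  linarith

omit [MeasurableSpace Z] in
theorem ext0_abs {f : Ph × Z → ℝ} {B : ℝ} (hB : ∀ w, |f w| ≤ B) (w : Ph × Z) :
    |indQ v f w| ≤ B := by
  by_cases h : w.1.1 ∈ table v
  · rw [ext0_in f h]
    exact hB w
  · rw [ext0_out f h, abs_zero]
    exact (abs_nonneg _).trans (hB w)

theorem ext0_bd {f : Ph × Z → ℝ} (hf : Bd f) : Bd (indQ v f) :=
  ⟨hf.1.indicator ext0_ms, hf.2.imp fun _ h => ext0_abs h⟩

theorem Bd.ext {f : Ph × Z → ℝ} (hf : Bd f) : Bd (ext v f) :=
  (ext0_bd hf).add (Bd.sum _ fun i _ => (ext0_bd hf).comp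
    (((measurable_mirP i).comp measurable_fst).prodMk measurable_snd))

omit [MeasurableSpace Z] in
theorem ext0_tri (f : Ph × Z → ℝ) (w : Ph × Z) :
    |ext v f w| ≤ |indQ v f w| + ∑ i, |indQ v f (mirP v i w.1, w.2)| :=
  (abs_add_le _ _).trans (add_le_add le_rfl (Finset.abs_sum_le_sum_abs _ _))

omit [MeasurableSpace Z] in
theorem abs_ext_le {f : Ph × Z → ℝ} {B : ℝ} (hB : ∀ w, |f w| ≤ B) (w : Ph × Z) :
    |ext v f w| ≤ 4 * B := by
  have h := ext0_tri (v := v) f w
  rw [Fin.sum_univ_three] at h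
  linarith [ext0_abs (v := v) hB w, ext0_abs (v := v) hB (mirP v 0 w.1, w.2),
    ext0_abs (v := v) hB (mirP v 1 w.1, w.2), ext0_abs (v := v) hB (mirP v 2 w.1, w.2)]

omit [MeasurableSpace Z] in
theorem ext_nonneg {f : Ph × Z → ℝ} (hB : ∀ w, 0 ≤ f w) (w : Ph × Z) : 0 ≤ ext v f w :=
  add_nonneg (indicator_nonneg (fun w _ => hB w) _)
    (Finset.sum_nonneg fun _ _ => indicator_nonneg (fun w _ => hB w) _)

omit [MeasurableSpace Z] in
theorem ext_sub (f g : Ph × Z → ℝ) (w : Ph × Z) :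
    ext v (fun w => f w - g w) w = ext v f w - ext v g w := by
  have h : ∀ w, indQ v (fun w => f w - g w) w = indQ v f w - indQ v g w := fun w => by
    by_cases h : w.1.1 ∈ table v
    · simp only [ext0_in _ h]
    · simp only [ext0_out _ h, sub_zero]
  simp only [ext, h, Finset.sum_sub_distrib]
  ring

omit [MeasurableSpace Z] in
theorem ext_of_table (hv : AffineIndependent ℝ v) (f : Ph × Z → ℝ) {w : Ph × Z}
    (hw : w.1.1 ∈ table v) : ext v f w = f w := by
  rw [ext, ext0_in f hw, Finset.sum_eq_zero fun i _ => ext0_mir hv f ((mem_table hv _).1 hw i).le,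
    add_zero]

omit [MeasurableSpace Z] in
/-- beyond side `i`, with the other two lines far -/
theorem ext_of_out (hv : AffineIndependent ℝ v) (f : Ph × Z → ℝ) {w : Ph × Z} (i : Fin 3)
    (h1 : lam v i w.1.1 < 0) (h2 : ∀ j, j ≠ i → 2 * |lam v i w.1.1| < lam v j w.1.1) :
    mir v i w.1.1 ∈ table v ∧ ext v f w = f (mirP v i w.1, w.2) := by
  have h3 : mir v i w.1.1 ∈ table v := by
    refine (mem_table hv _).2 fun j => ?_
    by_cases hj : j = i
    · rw [hj, lam_mir hv]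
      linarith
    · have h4 := lam_lip hv j (mir v i w.1.1) w.1.1
      rw [norm_mir_sub_self hv] at h4
      linarith [(abs_le.1 h4).1, h2 j hj]
  refine ⟨h3, ?_⟩
  rw [ext, ext0_out f fun h => absurd ((mem_table hv _).1 h i) (not_lt.2 h1.le), zero_add,
    Finset.sum_eq_single i (fun j _ hj => ext0_mir hv f
      (by linarith [h2 j hj, abs_nonneg (lam v i w.1.1)])) (by simp)]
  exact ext0_in f h3

omit [MeasurableSpace Z] in
theorem ext_of_line (hv : AffineIndependent ℝ v) (f : Ph × Z → ℝ) {w : Ph × Z} (i : Fin 3)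
    (h1 : lam v i w.1.1 = 0) (h2 : ∀ j, j ≠ i → 0 < lam v j w.1.1) : ext v f w = 0 := by
  rw [ext, ext0_out f fun h => absurd ((mem_table hv _).1 h i) (not_lt.2 h1.le), zero_add]
  refine Finset.sum_eq_zero fun j _ => ext0_mir hv f ?_
  by_cases hj : j = i
  · rw [hj, h1]
  · exact (h2 j hj).le

theorem ext0_int {f : Ph × Z → ℝ} (hf : Bd f) : Integrable (indQ v f) (mW0 ν) := by
  rw [indQ, integrable_indicator_iff ext0_ms, IntegrableOn, ← mW_eq]
  exact hf.integrable _

theorem integrable_ext (hv : AffineIndependent ℝ v) {f : Ph × Z → ℝ} (hf : Bd f) :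
    Integrable (ext v f) (mW0 ν) :=
  (ext0_int ν hf).add (integrable_finsetSum _ fun i _ =>
    (mp_mirW ν hv i).integrable_comp_of_integrable (ext0_int ν hf))

theorem int_ext_le (hv : AffineIndependent ℝ v) {f : Ph × Z → ℝ} (hf : Bd f) :
    ∫ w, |ext v f w| ∂(mW0 ν) ≤ 4 * ∫ w, |f w| ∂(mW v ν) := by
  have i0 := (ext0_int (v := v) ν hf).abs
  have i1 : ∀ i, Integrable (fun w : Ph × Z => |indQ v f (mirP v i w.1, w.2)|) (mW0 ν) :=
    fun i => (mp_mirW ν hv i).integrable_comp_of_integrable i0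
  have e0 : ∫ w, |indQ v f w| ∂(mW0 ν) = ∫ w, |f w| ∂(mW v ν) := by
    rw [mW_eq, ← integral_indicator ext0_ms]
    refine integral_congr_ae (ae_of_all _ fun w => ?_)
    by_cases h : w.1.1 ∈ table v
    · simp only [ext0_in f h]
      exact (ext0_in (fun w => |f w|) h).symm
    · simp only [ext0_out f h, abs_zero]
      exact (ext0_out (fun w => |f w|) h).symm
  have e1 : ∀ i, ∫ w, |indQ v f (mirP v i w.1, w.2)| ∂(mW0 ν) = ∫ w, |f w| ∂(mW v ν) := by
    intro i
    rw [← e0]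
    conv_rhs => rw [← (mp_mirW ν hv i).map_eq]
    exact (integral_map (mp_mirW ν hv i).measurable.aemeasurable
      (ext0_bd hf).abs.1.aestronglyMeasurable).symm
  refine (integral_mono (integrable_ext ν hv hf).abs
    (i0.add (integrable_finsetSum _ fun i _ => i1 i)) (ext0_tri f)).trans (le_of_eq ?_)
  simp only [Pi.add_apply]
  rw [integral_add i0 (integrable_finsetSum _ fun i _ => i1 i),
    integral_finsetSum _ fun i _ => i1 i, e0]
  simp only [e1, Fin.sum_univ_three]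
  ring

omit [MeasurableSpace Z] in
theorem ext_vanish (hv : AffineIndependent ℝ v) : ∃ s₀, 0 < s₀ ∧ ∀ s, s ≤ s₀ →
    ∀ f : Ph × Z → ℝ, (∀ w, rr v w.1.1 < s → f w = 0) →
      ∀ w, rr v w.1.1 < s → ext v f w = 0 := by
  obtain ⟨s₀, h0, h⟩ := exists_s0 hv
  refine ⟨s₀, h0, fun s hs f hf w hw => ?_⟩
  have h1 : ∀ w : Ph × Z, (w.1.1 ∈ table v → rr v w.1.1 < s) → indQ v f w = 0 := fun w hw => by
    by_cases h2 : w.1.1 ∈ table v
    · rw [ext0_in f h2, hf w (hw h2)]
    · exact ext0_out f h2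
  rw [ext, h1 w fun _ => hw, zero_add]
  exact Finset.sum_eq_zero fun i _ => h1 _ (h s hs i _ hw)

end Vale.Agent.P099
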