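import Vale.Agent.P099.Geo3

open MeasureTheory Set Filter Topology
open scoped ComplexConjugate

namespace Vale.Agent.P099

variable {v : Fin 3 → ℂ}

noncomputable def FrX.G (S : Set ℂ) (W : ℂ → ℂ) : ℂ → ENNReal :=
  S.indicator fun y => ENNReal.ofReal (‖fderiv ℝ W y 1‖ + ‖fderiv ℝ W y Complex.I‖)

theorem FrX.cont {W : ℂ → ℂ} (hW : ContDiff ℝ 1 W) :
    Continuous fun y => ‖fderiv ℝ W y 1‖ + ‖fderiv ℝ W y Complex.I‖ := by
  have h := hW.continuous_fderiv (by simp)
  exact (h.clm_apply continuous_const).norm.add (h.clm_apply continuous_const).norm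

theorem FrX.meas {S : Set ℂ} (hS : MeasurableSet S) {W : ℂ → ℂ} (hW : ContDiff ℝ 1 W) :
    Measurable (FrX.G S W) :=
  (FrX.cont hW).measurable.ennreal_ofReal.indicator hS

theorem FrX.norm_le (L : ℂ →L[ℝ] ℂ) (e : ℂ) : ‖L e‖ ≤ ‖e‖ * (‖L 1‖ + ‖L Complex.I‖) := by
  have h : e = e.re • (1 : ℂ) + e.im • Complex.I := by
    apply Complex.ext <;> simp
  calc ‖L e‖ = ‖e.re • L 1 + e.im • L Complex.I‖ := by
        conv_lhs => rw [h, map_add, map_smul, map_smul]
    _ ≤ ‖e.re • L 1‖ + ‖e.im • L Complex.I‖ := norm_add_le _ _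
    _ ≤ ‖e‖ * ‖L 1‖ + ‖e‖ * ‖L Complex.I‖ := by
        rw [norm_smul, norm_smul]
        gcongr
        · exact Complex.abs_re_le_norm e
        · exact Complex.abs_im_le_norm e
    _ = _ := by ring

theorem FrX.seg {W : ℂ → ℂ} (hW : ContDiff ℝ 1 W) (S : Set ℂ) (x e : ℂ) (a : ℝ) (h0 : 0 ≤ a)
    (h1 : a ≤ 1) (hS : ∀ t ∈ Ioo 0 a, x + t • e ∈ S) :
    ‖W (x + a • e) - W x‖ₑ ≤
      ENNReal.ofReal ‖e‖ * ∫⁻ t in Ioo (0 : ℝ) 1, FrX.G S W (x + t • e) := by
  have hd : ∀ t : ℝ, HasDerivAt (fun t : ℝ => W (x + t • e)) (fderiv ℝ W (x + t • e) e) t := by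
    intro t
    have h2 : HasDerivAt (fun t : ℝ => x + t • e) e t := by
      simpa using ((hasDerivAt_id t).smul_const e).const_add x
    exact ((hW.differentiable (by simp)) _).hasFDerivAt.comp_hasDerivAt t h2
  have hc : Continuous fun t : ℝ => fderiv ℝ W (x + t • e) e :=
    ((hW.continuous_fderiv (by simp)).comp (by fun_prop)).clm_apply continuous_const
  have hi := intervalIntegral.integral_eq_sub_of_hasDerivAt (a := 0) (b := a)
    (fun t _ => hd t) (hc.intervalIntegrable _ _)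
  simp only [zero_smul, add_zero] at hi
  rw [← hi, intervalIntegral.integral_of_le h0, integral_Ioc_eq_integral_Ioo,
    ← lintegral_const_mul' _ _ ENNReal.ofReal_ne_top]
  refine (enorm_integral_le_lintegral_enorm _).trans ?_
  refine le_trans ?_ (lintegral_mono_set (Ioo_subset_Ioo_right h1))
  refine setLIntegral_mono' measurableSet_Ioo fun t ht => ?_
  rw [FrX.G, indicator_of_mem (hS t ht), ← ENNReal.ofReal_mul (norm_nonneg _), ← ofReal_norm]
  exact ENNReal.ofReal_le_ofReal (FrX.norm_le _ _)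

theorem FrX.fub {G : ℂ → ENNReal} (hG : Measurable G) (e : ℂ) :
    ∫⁻ x, ∫⁻ t in Ioo (0 : ℝ) 1, G (x + t • e) = ∫⁻ x, G x := by
  have hm : Measurable (Function.uncurry fun (x : ℂ) (t : ℝ) => G (x + t • e)) :=
    hG.comp (f := fun q : ℂ × ℝ => q.1 + q.2 • e) (by fun_prop)
  rw [lintegral_lintegral_swap hm.aemeasurable]
  simp only [lintegral_add_right_eq_self]
  simp

theorem FrX.conv {W : ℂ → ℂ} (hW : ContDiff ℝ 1 W) {f : ℂ → ℂ} (hf : Continuous f) {C : ℝ}
    (hC : 0 ≤ C) (h : ∫⁻ x in table v, ‖f x‖ₑ ≤ ENNReal.ofReal C * ∫⁻ x, FrX.G (table v) W x) :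
    ∫ x in table v, ‖f x‖ ≤
      C * ∫ x in table v, (‖fderiv ℝ W x 1‖ + ‖fderiv ℝ W x Complex.I‖) := by
  have hi := integrableOn_table (v := v) (FrX.cont hW)
  have hn : 0 ≤ ∫ x in table v, (‖fderiv ℝ W x 1‖ + ‖fderiv ℝ W x Complex.I‖) :=
    integral_nonneg fun x => by positivity
  rw [FrX.G, lintegral_indicator isOpen_table.measurableSet,
    ← ofReal_integral_eq_lintegral_ofReal hi (Eventually.of_forall fun x => by positivity),
    ← ENNReal.ofReal_mul hC, ← ofReal_integral_norm_eq_lintegral_enorm (integrableOn_table hf)] at h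
  exact (ENNReal.ofReal_le_ofReal_iff (mul_nonneg hC hn)).1 h

theorem friedrichs (hv : AffineIndependent ℝ v) : ∃ C : ℝ, 0 ≤ C ∧ ∀ (i : Fin 3) (W : ℂ → ℂ),
    ContDiff ℝ 1 W → (∀ x ∈ side v i, W x = 0) →
      ∫ x in table v, ‖W x‖ ≤
        C * ∫ x in table v, (‖fderiv ℝ W x 1‖ + ‖fderiv ℝ W x Complex.I‖) := by
  refine ⟨∑ j : Fin 3, ‖v (j + 1) - v j‖, Finset.sum_nonneg fun j _ => norm_nonneg _,
    fun i W hW h0 => ?_⟩
  refine FrX.conv hW hW.continuous (Finset.sum_nonneg fun j _ => norm_nonneg _) ?_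
  set e : ℂ := v (i + 1) - v i with he
  have hG := FrX.meas (isOpen_table (v := v)).measurableSet hW
  have hle : ‖e‖ ≤ ∑ j : Fin 3, ‖v (j + 1) - v j‖ :=
    Finset.single_le_sum (f := fun j : Fin 3 => ‖v (j + 1) - v j‖) (fun j _ => norm_nonneg _)
      (Finset.mem_univ i)
  have hne : i + 1 ≠ i := by fin_cases i <;> decide
  have hi : ncp v i e = -lam v i (v i) := by
    rw [he, ← lam_sub, lam_vert i _ hne, zero_sub]
  have hj : ∀ j, j ≠ i → 0 ≤ ncp v j e := by
    intro j hj
    rw [he, ← lam_sub, lam_vert j i hj.symm, sub_zero]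
    by_cases h : i + 1 = j
    · rw [h]; exact (lam_self_pos hv j).le
    · rw [lam_vert j _ h]
  have key : ∀ x ∈ table v, ‖W x‖ₑ ≤
      ENNReal.ofReal ‖e‖ * ∫⁻ t in Ioo (0 : ℝ) 1, FrX.G (table v) W (x + t • e) := by
    intro x hx
    have hp := (mem_table hv x).1 hx
    have hh := lam_self_pos hv i
    set a : ℝ := lam v i x / lam v i (v i) with ha
    have ha0 : 0 < a := div_pos (hp i) hh
    have ha1 : a ≤ 1 := by
      rw [← (bary hv x).1]
      exact Finset.single_le_sum (f := fun j : Fin 3 => lam v j x / lam v j (v j))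
        (fun j _ => (div_pos (hp j) (lam_self_pos hv j)).le) (Finset.mem_univ i)
    have hoth : ∀ t : ℝ, 0 ≤ t → ∀ j, j ≠ i → 0 < lam v j (x + t • e) := by
      intro t ht j hji
      rw [lam_add_smul]
      exact add_pos_of_pos_of_nonneg (hp j) (mul_nonneg ht (hj j hji))
    have hax : a * lam v i (v i) = lam v i x := by rw [ha]; field_simp
    have hz : W (x + a • e) = 0 := by
      refine h0 _ ((mem_side hv i _).2 ⟨?_, hoth a ha0.le⟩)
      rw [lam_add_smul, hi]; linarith
    have := FrX.seg hW (table v) x e a ha0.le ha1 fun t ht => (mem_table hv _).2 fun j => by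
      by_cases hji : j = i
      · subst hji
        rw [lam_add_smul, hi]
        nlinarith [ht.2]
      · exact hoth t ht.1.le j hji
    rwa [hz, zero_sub, enorm_neg] at this
  calc ∫⁻ x in table v, ‖W x‖ₑ
      ≤ ∫⁻ x in table v, ENNReal.ofReal ‖e‖ *
          ∫⁻ t in Ioo (0 : ℝ) 1, FrX.G (table v) W (x + t • e) :=
        setLIntegral_mono' isOpen_table.measurableSet key
    _ ≤ ∫⁻ x, ENNReal.ofReal ‖e‖ * ∫⁻ t in Ioo (0 : ℝ) 1, FrX.G (table v) W (x + t • e) :=
        setLIntegral_le_lintegral _ _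
    _ = ENNReal.ofReal ‖e‖ * ∫⁻ x, FrX.G (table v) W x := by
        rw [lintegral_const_mul' _ _ ENNReal.ofReal_ne_top, FrX.fub hG]
    _ ≤ _ := by gcongr

theorem poincare (hv : AffineIndependent ℝ v) : ∃ C : ℝ, 0 ≤ C ∧ ∀ W : ℂ → ℂ,
    ContDiff ℝ 1 W → ∫ x in table v, ‖W x - ⨍ y in table v, W y‖ ≤
      C * ∫ x in table v, (‖fderiv ℝ W x 1‖ + ‖fderiv ℝ W x Complex.I‖) := by
  obtain ⟨R, hR, hb⟩ := table_bdd v
  have hQ0 := volume_table_ne_zero hv
  have hQt := volume_table_ne_top (v := v)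
  set D : ENNReal := (volume (table v))⁻¹ * (ENNReal.ofReal (2 * R) *
    volume (Metric.closedBall (0 : ℂ) (2 * R))) with hD
  have hDt : D ≠ ⊤ :=
    ENNReal.mul_ne_top (ENNReal.inv_ne_top.2 hQ0)
      (ENNReal.mul_ne_top ENNReal.ofReal_ne_top measure_closedBall_lt_top.ne)
  refine ⟨D.toReal, ENNReal.toReal_nonneg, fun W hW => ?_⟩
  refine FrX.conv hW (hW.continuous.sub continuous_const) ENNReal.toReal_nonneg ?_
  rw [ENNReal.ofReal_toReal hDt]
  have hG := FrX.meas (isOpen_table (v := v)).measurableSet hW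
  set Φ : ℂ → ℂ → ENNReal := fun x a => ∫⁻ t in Ioo (0 : ℝ) 1, FrX.G (table v) W (x + t • a)
    with hΦ
  have hΦm : Measurable (Function.uncurry Φ) :=
    Measurable.lintegral_prod_right' (f := fun q : (ℂ × ℂ) × ℝ =>
      FrX.G (table v) W (q.1.1 + q.2 • q.1.2)) (hG.comp (by fun_prop))
  have key : ∀ x ∈ table v, ‖W x - ⨍ y in table v, W y‖ₑ ≤ (volume (table v))⁻¹ *
      (ENNReal.ofReal (2 * R) * ∫⁻ a in Metric.closedBall (0 : ℂ) (2 * R), Φ x a) := by
    intro x hx
    have : IsFiniteMeasure (volume.restrict (table v)) := isFiniteMeasure_restrict.2 hQt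
    have hr : (volume (table v)).toReal ≠ 0 := ENNReal.toReal_ne_zero.2 ⟨hQ0, hQt⟩
    have e1 : W x - ⨍ y in table v, W y =
        (volume (table v)).toReal⁻¹ • ∫ y in table v, (W x - W y) := by
      rw [integral_sub (integrable_const _) (integrableOn_table hW.continuous), setAverage_eq,
        smul_sub, setIntegral_const, smul_smul]
      simp only [Measure.real]
      rw [inv_mul_cancel₀ hr, one_smul]
    have e2 : ‖(volume (table v)).toReal⁻¹‖ₑ = (volume (table v))⁻¹ := by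
      rw [← ofReal_norm, Real.norm_of_nonneg (by positivity), ← ENNReal.toReal_inv,
        ENNReal.ofReal_toReal (ENNReal.inv_ne_top.2 hQ0)]
    rw [e1, enorm_smul, e2]
    gcongr
    refine (enorm_integral_le_lintegral_enorm _).trans ?_
    calc ∫⁻ y in table v, ‖W x - W y‖ₑ
        ≤ ∫⁻ y in table v, (Metric.closedBall (0 : ℂ) (2 * R)).indicator
            (fun a => ENNReal.ofReal (2 * R) * Φ x a) (y - x) := by
          refine setLIntegral_mono' isOpen_table.measurableSet fun y hy => ?_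
          have hn : ‖y - x‖ ≤ 2 * R := by
            have := norm_sub_le y x
            linarith [hb x (table_sub_hull hx), hb y (table_sub_hull hy)]
          rw [indicator_of_mem (by simpa using hn), enorm_sub_rev]
          have := FrX.seg hW (table v) x (y - x) 1 zero_le_one le_rfl fun t ht =>
            convex_table.add_smul_sub_mem hx hy ⟨ht.1.le, ht.2.le⟩
          rw [one_smul, add_sub_cancel] at this
          refine this.trans ?_
          gcongr
      _ ≤ ∫⁻ y, (Metric.closedBall (0 : ℂ) (2 * R)).indicator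
            (fun a => ENNReal.ofReal (2 * R) * Φ x a) (y - x) := setLIntegral_le_lintegral _ _
      _ = _ := by
          rw [lintegral_sub_right_eq_self, lintegral_indicator measurableSet_closedBall,
            lintegral_const_mul' _ _ ENNReal.ofReal_ne_top]
  calc ∫⁻ x in table v, ‖W x - ⨍ y in table v, W y‖ₑ
      ≤ ∫⁻ x in table v, (volume (table v))⁻¹ *
        (ENNReal.ofReal (2 * R) * ∫⁻ a in Metric.closedBall (0 : ℂ) (2 * R), Φ x a) :=
        setLIntegral_mono' isOpen_table.measurableSet key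
    _ ≤ ∫⁻ x, (volume (table v))⁻¹ *
        (ENNReal.ofReal (2 * R) * ∫⁻ a in Metric.closedBall (0 : ℂ) (2 * R), Φ x a) :=
        setLIntegral_le_lintegral _ _
    _ = D * ∫⁻ x, FrX.G (table v) W x := by
        rw [lintegral_const_mul' _ _ (ENNReal.inv_ne_top.2 hQ0),
          lintegral_const_mul' _ _ ENNReal.ofReal_ne_top,
          lintegral_lintegral_swap hΦm.aemeasurable]
        simp only [hΦ, FrX.fub hG]
        rw [setLIntegral_const, hD]
        ring

end Vale.Agent.P099
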