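import Vale.Agent.P099.Basic

open MeasureTheory Set Filter Topology
open scoped ComplexConjugate

namespace Vale.Agent.P099

variable {v : Fin 3 → ℂ}

theorem det3_ne (hv : AffineIndependent ℝ v) : det3 v ≠ 0 := by
  intro h
  rw [affineIndependent_iff_linearIndependent_vsub ℝ v (0 : Fin 3)] at hv
  have key := Fintype.linearIndependent_iff.1 hv
  unfold det3 at h
  simp only [map_sub, Complex.mul_im, Complex.sub_re, Complex.sub_im, Complex.conj_re,
    Complex.conj_im] at h
  have hsum : ∀ g : {x : Fin 3 // x ≠ 0} → ℂ, ∑ i, g i = g ⟨1, by decide⟩ + g ⟨2, by decide⟩ := by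
    intro g
    have : (Finset.univ : Finset {x : Fin 3 // x ≠ 0}) = {⟨1, by decide⟩, ⟨2, by decide⟩} := by
      decide
    rw [this, Finset.sum_pair (by decide)]
  have aux : ∀ a b : ℝ, a • (v 1 - v 0) + b • (v 2 - v 0) = 0 → a = 0 ∧ b = 0 := by
    intro a b hab
    have := key (fun i => if i.1 = 1 then a else b) (by
      rw [hsum]; simpa using hab)
    exact ⟨by simpa using this ⟨1, by decide⟩, by simpa using this ⟨2, by decide⟩⟩
  have h1 := aux (v 2 - v 0).re (-(v 1 - v 0).re) (by
    apply Complex.ext <;> simp <;> linarith)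
  have h2 := aux (v 2 - v 0).im (-(v 1 - v 0).im) (by
    apply Complex.ext <;> simp <;> linarith)
  have h3 := aux 1 0 (by
    have e1 := h1.2
    have e2 := h2.2
    apply Complex.ext <;> simp at e1 e2 ⊢ <;> linarith)
  exact one_ne_zero h3.1

theorem geo0_edge_ne (hv : AffineIndependent ℝ v) (i : Fin 3) : v (i + 2) - v (i + 1) ≠ 0 := by
  intro h
  have h1 := hv.injective (sub_eq_zero.1 h)
  revert h1
  fin_cases i <;> decide

theorem geo0_sign (hv : AffineIndependent ℝ v) : |Real.sign (det3 v)| = 1 := by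
  rcases lt_or_gt_of_ne (det3_ne hv) with h | h
  · rw [Real.sign_of_neg h]; simp
  · rw [Real.sign_of_pos h]; simp

theorem nrm_norm (hv : AffineIndependent ℝ v) (i : Fin 3) : ‖nrm v i‖ = 1 := by
  have h := norm_ne_zero_iff.2 (geo0_edge_ne hv i)
  unfold nrm
  rw [norm_mul, norm_mul, Complex.norm_I, Complex.norm_real, Real.norm_eq_abs, abs_div,
    geo0_sign hv, abs_norm]
  field_simp

theorem nrm_sq (hv : AffineIndependent ℝ v) (i : Fin 3) :
    (nrm v i).re ^ 2 + (nrm v i).im ^ 2 = 1 := by
  have h := nrm_norm hv i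
  have h2 := Complex.sq_norm (nrm v i)
  rw [h, Complex.normSq_apply] at h2
  linarith

theorem geo0_lam (i : Fin 3) (x : ℂ) : lam v i x = (Real.sign (det3 v) / ‖v (i + 2) - v (i + 1)‖) *
    (conj (v (i + 2) - v (i + 1)) * (x - v (i + 1))).im := by
  unfold lam nrm
  generalize Real.sign (det3 v) / ‖v (i + 2) - v (i + 1)‖ = c
  simp
  ring

theorem lam_self_pos (hv : AffineIndependent ℝ v) (i : Fin 3) : 0 < lam v i (v i) := by
  have h := norm_pos_iff.2 (geo0_edge_ne hv i)
  have e : (conj (v (i + 2) - v (i + 1)) * (v i - v (i + 1))).im = det3 v := by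
    unfold det3
    fin_cases i <;> simp <;> ring
  rw [geo0_lam, e, div_mul_eq_mul_div]
  exact div_pos (Real.sign_mul_pos_of_ne_zero _ (det3_ne hv)) h

theorem lam_vert (i j : Fin 3) (h : j ≠ i) : lam v i (v j) = 0 := by
  have : j = i + 1 ∨ j = i + 2 := by
    revert h; fin_cases i <;> fin_cases j <;> decide
  rw [geo0_lam]
  rcases this with rfl | rfl
  · simp
  · rw [mul_comm (conj _), Complex.mul_conj]; simp

theorem lam_add_smul (i : Fin 3) (x e : ℂ) (t : ℝ) :
    lam v i (x + t • e) = lam v i x + t * ncp v i e := by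
  unfold lam ncp
  simp
  ring

theorem lam_sub (i : Fin 3) (x y : ℂ) : lam v i x - lam v i y = ncp v i (x - y) := by
  unfold lam ncp
  simp
  ring

theorem abs_ncp_le (hv : AffineIndependent ℝ v) (i : Fin 3) (e : ℂ) : |ncp v i e| ≤ ‖e‖ := by
  unfold ncp
  refine (Complex.abs_re_le_norm _).trans ?_
  rw [norm_mul, Complex.norm_conj, nrm_norm hv, mul_one]

theorem lam_lip (hv : AffineIndependent ℝ v) (i : Fin 3) (x y : ℂ) :
    |lam v i x - lam v i y| ≤ ‖x - y‖ := by
  rw [lam_sub]; exact abs_ncp_le hv i _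

theorem continuous_lam (i : Fin 3) : Continuous (lam v i) := by
  unfold lam; fun_prop

theorem continuous_ncp (i : Fin 3) : Continuous (ncp v i) := by
  unfold ncp; fun_prop

theorem continuous_mir (i : Fin 3) : Continuous (mir v i) := by
  have := continuous_lam (v := v) i
  unfold mir; fun_prop

theorem ncp_nrm (hv : AffineIndependent ℝ v) (i : Fin 3) : ncp v i (nrm v i) = 1 := by
  have := nrm_sq hv i
  unfold ncp
  simp
  linarith

theorem lam_mir (hv : AffineIndependent ℝ v) (i : Fin 3) (x : ℂ) :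
    lam v i (mir v i x) = -lam v i x := by
  unfold mir
  rw [sub_eq_add_neg, ← neg_smul, lam_add_smul, ncp_nrm hv]
  ring

theorem mir_mir (hv : AffineIndependent ℝ v) (i : Fin 3) (x : ℂ) : mir v i (mir v i x) = x := by
  conv_lhs => unfold mir
  rw [show lam v i (x - (2 * lam v i x) • nrm v i) = -lam v i x from lam_mir hv i x]
  simp

theorem mir_fix (i : Fin 3) (x : ℂ) (h : lam v i x = 0) : mir v i x = x := by
  unfold mir; simp [h]

theorem mir_sub_mir (i : Fin 3) (x y : ℂ) :
    mir v i x - mir v i y = (x - y) - (2 * ncp v i (x - y)) • nrm v i := by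
  rw [← lam_sub]
  unfold mir
  module

theorem geo0_refl (hv : AffineIndependent ℝ v) (i : Fin 3) (e : ℂ) :
    e - (2 * ncp v i e) • nrm v i = -(nrm v i) ^ 2 * conj e := by
  have h := nrm_sq hv i
  unfold ncp
  apply Complex.ext
  · simp [pow_two]
    linear_combination (-e.re) * h
  · simp [pow_two]
    linear_combination (-e.im) * h

theorem norm_mir_sub_mir (hv : AffineIndependent ℝ v) (i : Fin 3) (x y : ℂ) :
    ‖mir v i x - mir v i y‖ = ‖x - y‖ := by
  rw [mir_sub_mir, geo0_refl hv, norm_mul, norm_neg, norm_pow, nrm_norm hv, Complex.norm_conj]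
  simp

theorem norm_mir_sub_self (hv : AffineIndependent ℝ v) (i : Fin 3) (x : ℂ) :
    ‖mir v i x - x‖ = 2 * |lam v i x| := by
  unfold mir
  rw [sub_sub_cancel_left, norm_neg, norm_smul, nrm_norm hv, Real.norm_eq_abs, abs_mul]
  simp

end Vale.Agent.P099
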