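import Vale.Agent.P099.Geo0

open MeasureTheory Set Filter Topology
open scoped ComplexConjugate

namespace Vale.Agent.P099

variable {v : Fin 3 → ℂ}

theorem norm_vel (θ : UnitAddCircle) : ‖vel θ‖ = 1 := by
  unfold vel; exact Circle.norm_coe _

theorem vel_eq_fourier (θ : UnitAddCircle) : vel θ = fourier 1 θ := fourier_one.symm

theorem continuous_vel : Continuous vel := by
  have : vel = fun θ => fourier 1 θ := funext vel_eq_fourier
  rw [this]
  exact (fourier 1).continuous

theorem vel_injective : Function.Injective vel := by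
  intro a b h
  exact AddCircle.injective_toCircle one_ne_zero (Circle.coe_injective h)

theorem vel_add (a b : UnitAddCircle) : vel (a + b) = vel a * vel b := by
  unfold vel
  rw [AddCircle.toCircle_add]; simp

theorem vel_mul_conj (a : UnitAddCircle) : vel a * conj (vel a) = 1 := by
  rw [Complex.mul_conj, Complex.normSq_eq_norm_sq, norm_vel]; simp

theorem vel_sub (a b : UnitAddCircle) : vel (a - b) = vel a * conj (vel b) := by
  have h := vel_add (a - b) b
  rw [sub_add_cancel] at h
  rw [h, mul_assoc, vel_mul_conj, mul_one]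

theorem vel_bet0 (hv : AffineIndependent ℝ v) (i : Fin 3) : vel (bet v i) = -(nrm v i) ^ 2 := by
  have h1 : ‖-(nrm v i) ^ 2‖ = 1 := by rw [norm_neg, norm_pow, nrm_norm hv]; simp
  have h2 := Complex.norm_mul_exp_arg_mul_I (-(nrm v i) ^ 2)
  rw [h1] at h2
  unfold vel bet
  rw [AddCircle.toCircle_apply_mk, Circle.coe_exp]
  have : 2 * Real.pi / 1 * (Complex.arg (-(nrm v i) ^ 2) / (2 * Real.pi)) =
      Complex.arg (-(nrm v i) ^ 2) := by
    field_simp
  rw [this]
  simpa using h2

theorem vel_bet (hv : AffineIndependent ℝ v) (i : Fin 3) (θ : UnitAddCircle) :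
    vel (bet v i - θ) = vel θ - (2 * ncp v i (vel θ)) • nrm v i := by
  rw [vel_sub, vel_bet0 hv, geo0_refl hv]

theorem ncp_sub_smul (i : Fin 3) (a b : ℂ) (t : ℝ) :
    ncp v i (a - t • b) = ncp v i a - t * ncp v i b := by
  unfold ncp; simp; ring

theorem ncp_vel_bet (hv : AffineIndependent ℝ v) (i : Fin 3) (θ : UnitAddCircle) :
    ncp v i (vel (bet v i - θ)) = -ncp v i (vel θ) := by
  rw [vel_bet hv, ncp_sub_smul, ncp_nrm hv]; ring

theorem isReflection_iff (hv : AffineIndependent ℝ v) (i : Fin 3) (a b : UnitAddCircle) :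
    IsReflection (v (i + 2) - v (i + 1)) (vel a) (vel b) ↔ a = bet v i - b := by
  rw [← vel_injective.eq_iff, vel_sub, vel_bet0 hv]
  have he := geo0_edge_ne hv i
  have hn : ‖v (i + 2) - v (i + 1)‖ ≠ 0 := norm_ne_zero_iff.2 he
  have hs : Real.sign (det3 v) ^ 2 = 1 := by rw [← sq_abs, geo0_sign hv]; simp
  have hnrm : -(nrm v i) ^ 2 * conj (v (i + 2) - v (i + 1)) = v (i + 2) - v (i + 1) := by
    unfold nrm
    generalize v (i + 2) - v (i + 1) = e at hn ⊢
    have h1 : e * conj e = ((‖e‖ ^ 2 : ℝ) : ℂ) := by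
      rw [Complex.mul_conj, Complex.normSq_eq_norm_sq]
    have h2 : ((Real.sign (det3 v) / ‖e‖ : ℝ) : ℂ) ^ 2 * ((‖e‖ ^ 2 : ℝ) : ℂ) = 1 := by
      rw [← Complex.ofReal_pow, ← Complex.ofReal_mul, div_pow, hs]
      rw [one_div, inv_mul_cancel₀ (pow_ne_zero 2 hn)]; simp
    have hI : Complex.I ^ 2 = -1 := Complex.I_sq
    linear_combination (-((Real.sign (det3 v) / ‖e‖ : ℝ) : ℂ) ^ 2 * e ^ 2 * conj e) * hI +
      (((Real.sign (det3 v) / ‖e‖ : ℝ) : ℂ) ^ 2 * e) * h1 + e * h2
  generalize -(nrm v i) ^ 2 = ω at hnrm ⊢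
  generalize v (i + 2) - v (i + 1) = e at he hnrm ⊢
  generalize vel a = x
  generalize vel b = y
  have hce : conj e ≠ 0 := by simpa using he
  have h1 : x = ω * conj y ↔ x * conj e = e * conj y := by
    constructor
    · intro h; rw [h]; linear_combination (conj y) * hnrm
    · intro h
      apply mul_right_cancel₀ hce
      linear_combination h - (conj y) * hnrm
  rw [h1]
  unfold IsReflection
  simp only [Complex.inner, Complex.ext_iff]
  simp
  constructor
  · rintro ⟨h2, h3⟩; constructor <;> linarith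
  · rintro ⟨h2, h3⟩; constructor <;> linarith

theorem mirP_mirP (hv : AffineIndependent ℝ v) (i : Fin 3) (p : Ph) :
    mirP v i (mirP v i p) = p := by
  unfold mirP
  simp [mir_mir hv]

theorem mirP_free (hv : AffineIndependent ℝ v) (i : Fin 3) (h : ℝ) (p : Ph) :
    mirP v i (free h p) = free h (mirP v i p) := by
  unfold mirP free
  simp only [Prod.mk.injEq, and_true]
  rw [vel_bet hv]
  unfold mir
  rw [lam_add_smul]
  module

theorem free_free (s t : ℝ) (p : Ph) : free s (free t p) = free (s + t) p := by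
  unfold free
  simp only [Prod.mk.injEq, and_true]
  module

theorem free_zero (p : Ph) : free 0 p = p := by
  unfold free; simp

theorem norm_free_sub (h : ℝ) (p : Ph) : ‖(free h p).1 - p.1‖ = |h| := by
  unfold free
  simp [norm_vel]

end Vale.Agent.P099
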