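import Vale.Agent.P099.Geo1

open MeasureTheory Set Filter Topology
open scoped ComplexConjugate

namespace Vale.Agent.P099

variable {v : Fin 3 → ℂ}

theorem geo2_lam (i : Fin 3) (x : ℂ) : lam v i x = Real.sign (det3 v) / ‖v (i + 2) - v (i + 1)‖ *
    ((x - v (i + 1)) * conj (Complex.I * (v (i + 2) - v (i + 1)))).re := by
  rw [lam, nrm, mul_assoc, map_mul, Complex.conj_ofReal, mul_left_comm, Complex.re_ofReal_mul]

theorem geo2_ratio (hv : AffineIndependent ℝ v) (i : Fin 3) (x : ℂ) : lam v i x / lam v i (v i) =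
    ((x - v (i + 1)) * conj (Complex.I * (v (i + 2) - v (i + 1)))).re / det3 v := by
  have h := (lam_self_pos hv i).ne'
  rw [geo2_lam] at h
  rw [geo2_lam, geo2_lam, mul_div_mul_left _ _ (left_ne_zero_of_mul h)]
  congr 1
  fin_cases i <;> simp [det3] <;> ring

theorem geo2_sum {M : Type} [AddCommMonoid M] (f : Fin 3 → M) (i : Fin 3) :
    ∑ j, f j = f i + f (i + 1) + f (i + 2) := by
  fin_cases i <;> simp [Fin.sum_univ_three] <;> abel

theorem geo2_cases : ∀ i j : Fin 3, j ≠ i → j = i + 1 ∨ j = i + 2 := by decide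

theorem geo2_ne : ∀ i : Fin 3, i + 1 ≠ i ∧ i + 2 ≠ i ∧ i + 1 ≠ i + 2 := by decide

theorem geo2_seg (j : Fin 3) (x y : ℂ) {a b : ℝ} (h : a + b = 1) :
    lam v j (a • x + b • y) = a * lam v j x + b * lam v j y := by
  have h1 : a • x + b • y = x + b • (y - x) := by
    rw [show a = 1 - b by linarith]
    module
  rw [h1, lam_add_smul, ← lam_sub, show a = 1 - b by linarith]
  ring

theorem geo2_cpt (v : Fin 3 → ℂ) : IsCompact (convexHull ℝ (range v)) :=
  (finite_range v).isCompact_convexHull ℝ

theorem geo2_hull (hv : AffineIndependent ℝ v) (i : Fin 3) :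
    convexHull ℝ (range v) ⊆ {x | 0 ≤ lam v i x} := by
  refine convexHull_min ?_ fun x hx y hy a b ha hb hab => ?_
  · rintro _ ⟨j, rfl⟩
    by_cases h : j = i
    · rw [h]; exact (lam_self_pos hv i).le
    · exact (lam_vert i j h).ge
  · show 0 ≤ lam v i (a • x + b • y)
    rw [geo2_seg i x y hab]
    exact add_nonneg (mul_nonneg ha hx) (mul_nonneg hb hy)

/-- barycentric coordinates are `lam v i x / lam v i (v i)` -/
theorem bary (hv : AffineIndependent ℝ v) (x : ℂ) :
    ∑ i, lam v i x / lam v i (v i) = 1 ∧ x = ∑ i, (lam v i x / lam v i (v i)) • v i := by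
  have h := det3_ne hv
  simp only [geo2_ratio hv, Fin.sum_univ_three]
  refine ⟨?_, Complex.ext ?_ ?_⟩ <;> simp <;> field_simp <;> simp [det3] <;> ring

theorem mem_table (hv : AffineIndependent ℝ v) (x : ℂ) :
    x ∈ table v ↔ ∀ i, 0 < lam v i x := by
  constructor
  · intro hx i
    obtain ⟨ε, hε, hb⟩ := Metric.mem_nhds_iff.1 (mem_interior_iff_mem_nhds.1 hx)
    have h1 : x + (-(ε / 2)) • nrm v i ∈ Metric.ball x ε := by
      rw [mem_ball_iff_norm, add_sub_cancel_left, norm_smul, nrm_norm hv, norm_neg,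
        Real.norm_of_nonneg (by linarith)]
      linarith
    have h2 : 0 ≤ lam v i (x + (-(ε / 2)) • nrm v i) := geo2_hull hv i (hb h1)
    have h3 : ncp v i (nrm v i) = 1 := by
      rw [ncp, Complex.mul_conj, Complex.ofReal_re, Complex.normSq_eq_norm_sq, nrm_norm hv, one_pow]
    rw [lam_add_smul, h3] at h2
    linarith
  · intro hx
    have h1 : IsOpen {x | ∀ i, 0 < lam v i x} := by
      rw [setOf_forall]
      exact isOpen_iInter_of_finite fun i => isOpen_lt continuous_const (continuous_lam i)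
    refine interior_maximal (fun y hy => ?_) h1 hx
    rw [(bary hv y).2]
    exact (convex_convexHull ℝ _).sum_mem (fun i _ => (div_pos (hy i) (lam_self_pos hv i)).le)
      (bary hv y).1 fun i _ => subset_convexHull ℝ _ (mem_range_self i)

theorem mem_side (hv : AffineIndependent ℝ v) (i : Fin 3) (x : ℂ) :
    x ∈ side v i ↔ lam v i x = 0 ∧ ∀ j, j ≠ i → 0 < lam v j x := by
  obtain ⟨n1, n2, n3⟩ := geo2_ne i
  constructor
  · rintro ⟨a, b, ha, hb, hab, rfl⟩
    refine ⟨by rw [geo2_seg _ _ _ hab, lam_vert _ _ n1, lam_vert _ _ n2]; ring, fun j hj => ?_⟩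
    rw [geo2_seg _ _ _ hab]
    rcases geo2_cases i j hj with rfl | rfl
    · rw [lam_vert _ _ n3.symm, mul_zero, add_zero]
      exact mul_pos ha (lam_self_pos hv _)
    · rw [lam_vert _ _ n3, mul_zero, zero_add]
      exact mul_pos hb (lam_self_pos hv _)
  · rintro ⟨h0, h1⟩
    obtain ⟨h2, h3⟩ := bary hv x
    rw [geo2_sum _ i, h0, zero_div] at h2 h3
    rw [zero_smul, zero_add] at h3
    exact ⟨_, _, div_pos (h1 _ n1) (lam_self_pos hv _), div_pos (h1 _ n2) (lam_self_pos hv _),
      by linarith, h3.symm⟩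

theorem isOpen_table : IsOpen (table v) := isOpen_interior

theorem convex_table : Convex ℝ (table v) := (convex_convexHull ℝ _).interior

theorem table_bdd (v : Fin 3 → ℂ) : ∃ R, 0 < R ∧ ∀ x ∈ convexHull ℝ (range v), ‖x‖ ≤ R :=
  (geo2_cpt v).isBounded.exists_pos_norm_le

theorem table_sub_hull : table v ⊆ convexHull ℝ (range v) := interior_subset

theorem volume_table_ne_top : volume (table v) ≠ ⊤ :=
  ((geo2_cpt v).isBounded.subset table_sub_hull).measure_lt_top.ne

theorem volume_table_ne_zero (hv : AffineIndependent ℝ v) : volume (table v) ≠ 0 := by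
  refine (isOpen_table.measure_pos volume ?_).ne'
  exact interior_convexHull_nonempty_iff_affineSpan_eq_top.2
    (hv.affineSpan_eq_top_iff_card_eq_finrank_add_one.2 (by simp))

/-- every continuous function is integrable on the table -/
theorem integrableOn_table {E : Type} [NormedAddCommGroup E] {f : ℂ → E} (hf : Continuous f) :
    IntegrableOn f (table v) :=
  (hf.continuousOn.integrableOn_compact (geo2_cpt v)).mono_set table_sub_hull

end Vale.Agent.P099
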