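import Vale.Agent.P099.Geo2

open MeasureTheory Set Filter Topology
open scoped ComplexConjugate

namespace Vale.Agent.P099

variable {v : Fin 3 → ℂ}

theorem continuous_rr : Continuous (rr v) := by
  unfold rr; fun_prop

theorem rr_le (x : ℂ) (k : Fin 3) : rr v x ≤ ‖x - v k‖ := by
  unfold rr
  fin_cases k
  · exact min_le_left _ _
  · exact (min_le_right _ _).trans (min_le_left _ _)
  · exact (min_le_right _ _).trans (min_le_right _ _)

theorem rr_eq (x : ℂ) : ∃ k : Fin 3, rr v x = ‖x - v k‖ := by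
  unfold rr
  rcases min_choice ‖x - v 0‖ (min ‖x - v 1‖ ‖x - v 2‖) with h | h
  · exact ⟨0, h⟩
  · rcases min_choice ‖x - v 1‖ ‖x - v 2‖ with h' | h'
    · exact ⟨1, h.trans h'⟩
    · exact ⟨2, h.trans h'⟩

theorem rr_lip (x y : ℂ) : rr v x ≤ rr v y + ‖x - y‖ := by
  obtain ⟨k, hk⟩ := rr_eq (v := v) y
  have h1 := rr_le (v := v) x k
  have h2 : ‖x - v k‖ ≤ ‖x - y‖ + ‖y - v k‖ := norm_sub_le_norm_sub_add_norm_sub _ _ _
  linarith

theorem geo3_third (i k : Fin 3) : ∃ j : Fin 3, j ≠ i ∧ k ≠ j := by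
  revert i k; decide

/-- if the two lines other than `i` are far then the vertices are far -/
theorem lt_rr (hv : AffineIndependent ℝ v) (i : Fin 3) (x : ℂ) (a : ℝ)
    (h : ∀ j, j ≠ i → a < lam v j x) : a < rr v x := by
  obtain ⟨k, hk⟩ := rr_eq (v := v) x
  obtain ⟨j, hj, hkj⟩ := geo3_third i k
  have h1 := lam_lip hv j x (v k)
  rw [lam_vert j k hkj, sub_zero] at h1
  have := h j hj
  have := le_abs_self (lam v j x)
  linarith

theorem rr_pos_of_PM (hv : AffineIndependent ℝ v) (p : Ph) (hp : p ∈ PM v) : 0 < rr v p.1 := by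
  rcases hp with hp | ⟨i, hp, -⟩
  · exact lt_rr hv 0 _ _ fun j _ => (mem_table hv _).1 hp j
  · exact lt_rr hv i _ _ ((mem_side hv i _).1 hp).2

theorem lam_nonneg_of_PM (hv : AffineIndependent ℝ v) (p : Ph) (hp : p ∈ PM v) (i : Fin 3) :
    0 ≤ lam v i p.1 := by
  rcases hp with hp | ⟨j, hp, -⟩
  · exact ((mem_table hv _).1 hp i).le
  · obtain ⟨h1, h2⟩ := (mem_side hv j _).1 hp
    by_cases h : i = j
    · rw [h, h1]
    · exact (h2 i h).le

theorem geo3_pair (hv : AffineIndependent ℝ v) (i j k : Fin 3) (hij : i ≠ j) (hik : i ≠ k)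
    (hjk : j ≠ k) (x : ℂ) : x - v k = (lam v i x / lam v i (v i)) • (v i - v k) +
      (lam v j x / lam v j (v j)) • (v j - v k) := by
  obtain ⟨h1, h2⟩ := bary hv x
  have hu : (Finset.univ : Finset (Fin 3)) = {i, j, k} := by
    revert i j k; decide
  rw [hu, Finset.sum_insert (by simp [hij, hik]), Finset.sum_pair hjk] at h1 h2
  generalize lam v i x / lam v i (v i) = a at h1 h2 ⊢
  generalize lam v j x / lam v j (v j) = b at h1 h2 ⊢
  generalize lam v k x / lam v k (v k) = c at h1 h2 ⊢
  have hc : c = 1 - a - b := by linarith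
  rw [h2, hc]
  module

theorem exists_kite (hv : AffineIndependent ℝ v) : ∃ K, Kite v K := by
  obtain ⟨D, hD⟩ : ∃ D : ℝ, ∀ i k, ‖v i - v k‖ / lam v i (v i) ≤ D := by
    obtain ⟨D, hD⟩ := (Set.finite_range
      fun q : Fin 3 × Fin 3 => ‖v q.1 - v q.2‖ / lam v q.1 (v q.1)).bddAbove
    exact ⟨D, fun i k => hD ⟨(i, k), rfl⟩⟩
  have hD0 : 0 ≤ D := le_trans (div_nonneg (norm_nonneg _) (lam_self_pos hv 0).le) (hD 0 0)
  refine ⟨20 * D + 1, by linarith, fun x η hη hx hr => ?_⟩
  have two : ∀ i j, i ≠ j → lam v i x ≤ 10 * η → lam v j x ≤ 10 * η → False := by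
    intro i j hij hi hj
    obtain ⟨k, hik, hjk⟩ : ∃ k, i ≠ k ∧ j ≠ k := by
      obtain ⟨k, h1, h2⟩ := geo3_third i j
      exact ⟨k, h1.symm, h2⟩
    have e := geo3_pair hv i j k hij hik hjk x
    have b : ∀ l, lam v l x ≤ 10 * η →
        ‖(lam v l x / lam v l (v l)) • (v l - v k)‖ ≤ 10 * η * D := by
      intro l hl
      have hp := lam_self_pos hv l
      rw [norm_smul, Real.norm_eq_abs, abs_of_nonneg (div_nonneg (hx l) hp.le)]
      have : lam v l x / lam v l (v l) * ‖v l - v k‖ =
          lam v l x * (‖v l - v k‖ / lam v l (v l)) := by ring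
      rw [this]
      exact mul_le_mul hl (hD l k) (div_nonneg (norm_nonneg _) hp.le) (by linarith)
    have h1 := rr_le (v := v) x k
    rw [e] at h1
    have h2 := norm_add_le ((lam v i x / lam v i (v i)) • (v i - v k))
      ((lam v j x / lam v j (v j)) • (v j - v k))
    have := b i hi
    have := b j hj
    nlinarith
  by_cases h0 : ∃ i, lam v i x ≤ 10 * η
  · obtain ⟨i, hi⟩ := h0
    exact ⟨i, fun j hj => lt_of_not_ge fun h => two j i hj h hi⟩
  · push Not at h0
    exact ⟨0, fun j _ => h0 j⟩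

/-- images of points near a vertex that land in the table are near a vertex -/
theorem exists_s0 (hv : AffineIndependent ℝ v) : ∃ s₀, 0 < s₀ ∧ ∀ s, s ≤ s₀ → ∀ (i : Fin 3) (y : ℂ),
    rr v y < s → mir v i y ∈ table v → rr v (mir v i y) < s := by
  refine ⟨min (lam v 0 (v 0)) (min (lam v 1 (v 1)) (lam v 2 (v 2))),
    lt_min (lam_self_pos hv 0) (lt_min (lam_self_pos hv 1) (lam_self_pos hv 2)), ?_⟩
  intro s hs i y hy hm
  have hs' : ∀ k, s ≤ lam v k (v k) := by
    intro k
    fin_cases k
    · exact hs.trans (min_le_left _ _)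
    · exact hs.trans ((min_le_right _ _).trans (min_le_left _ _))
    · exact hs.trans ((min_le_right _ _).trans (min_le_right _ _))
  obtain ⟨k, hk⟩ := rr_eq (v := v) y
  by_cases hki : k = i
  · subst hki
    have h1 := (mem_table hv _).1 hm k
    rw [lam_mir hv] at h1
    have h2 := lam_lip hv k y (v k)
    have h3 := neg_abs_le (lam v k y - lam v k (v k))
    have := hs' k
    linarith
  · have h1 := norm_mir_sub_mir hv i y (v k)
    rw [mir_fix i (v k) (lam_vert i k hki)] at h1
    have := rr_le (v := v) (mir v i y) k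
    linarith

/-- if only line `i` is close, `fold` only uses the reflection `i` -/
theorem fold_of_far (i : Fin 3) (p : Ph) (h : ∀ j, j ≠ i → 0 < lam v j p.1) :
    (Out v i p → fold v p = mirP v i p) ∧ (¬ Out v i p → fold v p = p) := by
  have no : ∀ j, j ≠ i → ¬ Out v j p := by
    intro j hj ho
    have := h j hj
    rcases ho with ho | ho
    · linarith
    · linarith [ho.1]
  unfold fold
  fin_cases i
  · have n1 := no 1 (by decide)
    have n2 := no 2 (by decide)
    constructor <;> intro ho <;> simp_all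
  · have n1 := no 0 (by decide)
    have n2 := no 2 (by decide)
    constructor <;> intro ho <;> simp_all
  · have n1 := no 0 (by decide)
    have n2 := no 1 (by decide)
    constructor <;> intro ho <;> simp_all

end Vale.Agent.P099
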