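import Vale.Agent.P099.Loc

open MeasureTheory Set Filter Topology
open scoped ComplexConjugate

namespace Vale.Agent.P099

variable {v : Fin 3 → ℂ}

theorem globA_glue (hv : AffineIndependent ℝ v) {γ γ' : ℝ → Ph} {a b a' b' c : ℝ}
    (h : ∀ τ ∈ Ioo a b, TrajAt v γ τ) (h' : ∀ τ ∈ Ioo a' b', TrajAt v γ' τ)
    (hc : c ∈ Ioo a b) (hc' : c ∈ Ioo a' b') (he : γ c = γ' c) :
    ∃ γ'' : ℝ → Ph, (∀ τ ∈ Ioo a b', TrajAt v γ'' τ) ∧ (∀ t, t ≤ c → γ'' t = γ t) ∧
      ∀ t, c ≤ t → γ'' t = γ' t := by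
  have hE : EqOn γ γ' (Ioo (max a a') (min b b')) := by
    refine traj_unique hv (τ₀ := c) (fun τ hτ => h τ ⟨?_, ?_⟩) (fun τ hτ => h' τ ⟨?_, ?_⟩)
      ⟨max_lt hc.1 hc'.1, lt_min hc.2 hc'.2⟩ he
    · exact lt_of_le_of_lt (le_max_left _ _) hτ.1
    · exact lt_of_lt_of_le hτ.2 (min_le_left _ _)
    · exact lt_of_le_of_lt (le_max_right _ _) hτ.1
    · exact lt_of_lt_of_le hτ.2 (min_le_right _ _)
  refine ⟨fun t => if t < c then γ t else γ' t, ?_, ?_, ?_⟩
  · intro τ hτ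
    rcases lt_or_ge τ c with h1 | h1
    · refine (h τ ⟨hτ.1, h1.trans hc.2⟩).congr ?_
      filter_upwards [Iio_mem_nhds h1] with t ht
      rw [if_pos (mem_Iio.mp ht)]
    · refine (h' τ ⟨lt_of_lt_of_le hc'.1 h1, hτ.2⟩).congr ?_
      have h2 : max a a' < τ := lt_of_lt_of_le (max_lt hc.1 hc'.1) h1
      filter_upwards [Ioi_mem_nhds h2] with t ht
      by_cases h3 : t < c
      · rw [if_pos h3]
        exact (hE ⟨ht, h3.trans (lt_min hc.2 hc'.2)⟩).symm
      · rw [if_neg h3]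
  · intro t ht
    rcases ht.lt_or_eq with h1 | h1
    · simp only [if_pos h1]
    · subst h1
      simp only [lt_irrefl, if_false, he]
  · intro t ht
    simp only [if_neg (not_lt.mpr ht)]

theorem globA_piece (hv : AffineIndependent ℝ v) {K : ℝ} (hK : Kite v K) {q : Ph}
    (hq : q ∈ PM v) {h : ℝ} (hh : 0 < h) (hr : 2 * K * h < rr v q.1) (c : ℝ) :
    ∀ τ ∈ Ioo (c - 2 * h) (c + 2 * h), TrajAt v (fun t => step v (t + -c) q) τ := by
  intro τ hτ
  have h1 := step_traj hv hK hq (η := 2 * h) (by positivity) (by linarith) (τ + -c)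
    ⟨by linarith [hτ.1], by linarith [hτ.2]⟩
  exact h1.shift

theorem globA_fwd (hv : AffineIndependent ℝ v) {K : ℝ} (hK : Kite v K) {p : Ph}
    (hp : p ∈ PM v) {h : ℝ} (hh : 0 < h) (k : ℕ) (hs : p ∈ Safe v K h (k + 1)) :
    ∃ γ : ℝ → Ph, γ 0 = p ∧ (∀ τ ∈ Ioo (-(2 * h)) ((k + 2) * h), TrajAt v γ τ) ∧
      γ ((k + 1) * h) = (step v h)^[k + 1] p := by
  induction k with
  | zero =>
    have h0 : 2 * K * h < rr v p.1 := by
      have := hs 0 (by norm_num)
      rwa [abs_of_pos hh] at this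
    refine ⟨fun t => step v (t + -0) p, ?_, ?_, ?_⟩
    · simp only [neg_zero, add_zero]
      exact step_zero hv hp
    · intro τ hτ
      refine globA_piece hv hK hp hh h0 0 τ ⟨by linarith [hτ.1], ?_⟩
      have := hτ.2
      push_cast at this
      linarith
    · simp
  | succ k ih =>
    obtain ⟨γ, h0, h1, h2⟩ := ih (fun j hj => hs j (by omega))
    have hk : (0 : ℝ) ≤ k := Nat.cast_nonneg k
    have hc : ((k : ℝ) + 1) * h ∈ Ioo (-(2 * h)) ((k + 2) * h) :=
      ⟨by nlinarith, by nlinarith⟩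
    have hq : (step v h)^[k + 1] p ∈ PM v := h2 ▸ (h1 _ hc).mem_PM hv
    have hr : 2 * K * h < rr v ((step v h)^[k + 1] p).1 := by
      have := hs (k + 1) (by omega)
      rwa [abs_of_pos hh] at this
    obtain ⟨γ2, g1, g2, g3⟩ := globA_glue hv h1 (globA_piece hv hK hq hh hr ((k + 1) * h)) hc
      ⟨by linarith, by linarith⟩ (by
        simp only [add_neg_cancel]
        rw [step_zero hv hq, h2])
    refine ⟨γ2, ?_, ?_, ?_⟩
    · rw [g2 0 (by positivity), h0]
    · intro τ hτ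
      refine g1 τ ⟨hτ.1, ?_⟩
      have := hτ.2
      push_cast at this
      linarith
    · rw [g3 _ (by push_cast; nlinarith), Function.iterate_succ_apply' _ (k + 1)]
      congr 1
      push_cast
      ring

theorem globA_bwd (hv : AffineIndependent ℝ v) {K : ℝ} (hK : Kite v K) {p : Ph}
    (hp : p ∈ PM v) {h : ℝ} (hh : 0 < h) (k : ℕ) (hs : p ∈ Safe v K (-h) (k + 1)) :
    ∃ γ : ℝ → Ph, γ 0 = p ∧ (∀ τ ∈ Ioo (-((k + 2) * h)) (2 * h), TrajAt v γ τ) ∧
      γ (-((k + 1) * h)) = (step v (-h))^[k + 1] p := by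
  induction k with
  | zero =>
    have h0 : 2 * K * h < rr v p.1 := by
      have := hs 0 (by norm_num)
      rwa [abs_neg, abs_of_pos hh] at this
    refine ⟨fun t => step v (t + -0) p, ?_, ?_, ?_⟩
    · simp only [neg_zero, add_zero]
      exact step_zero hv hp
    · intro τ hτ
      refine globA_piece hv hK hp hh h0 0 τ ⟨?_, by linarith [hτ.2]⟩
      have := hτ.1
      push_cast at this
      linarith
    · simp
  | succ k ih =>
    obtain ⟨γ, h0, h1, h2⟩ := ih (fun j hj => hs j (by omega))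
    have hk : (0 : ℝ) ≤ k := Nat.cast_nonneg k
    have hc : -(((k : ℝ) + 1) * h) ∈ Ioo (-((k + 2) * h)) (2 * h) :=
      ⟨by nlinarith, by nlinarith⟩
    have hq : (step v (-h))^[k + 1] p ∈ PM v := h2 ▸ (h1 _ hc).mem_PM hv
    have hr : 2 * K * h < rr v ((step v (-h))^[k + 1] p).1 := by
      have := hs (k + 1) (by omega)
      rwa [abs_neg, abs_of_pos hh] at this
    obtain ⟨γ2, g1, g2, g3⟩ := globA_glue hv (globA_piece hv hK hq hh hr (-((k + 1) * h))) h1
      ⟨by linarith, by linarith⟩ hc (by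
        simp only [add_neg_cancel]
        rw [step_zero hv hq, h2])
    refine ⟨γ2, ?_, ?_, ?_⟩
    · rw [g3 0 (by nlinarith), h0]
    · intro τ hτ
      refine g1 τ ⟨?_, hτ.2⟩
      have := hτ.1
      push_cast at this
      linarith
    · rw [g2 _ (by push_cast; nlinarith), Function.iterate_succ_apply' _ (k + 1)]
      congr 1
      push_cast
      ring

theorem good_of_safe (hv : AffineIndependent ℝ v) {K : ℝ} (hK : Kite v K) {p : Ph}
    (hp : p ∈ PM v) (h : ∀ N : ℕ, ∃ n : ℕ, 0 < n ∧ p ∈ Safe v K (1 / n) (N * n) ∧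
      p ∈ Safe v K (-(1 / n)) (N * n)) : p ∈ Good v := by
  have key : ∀ N : ℕ, ∃ γ : ℝ → Ph, γ 0 = p ∧
      ∀ τ ∈ Ioo (-((N : ℝ) + 1)) ((N : ℝ) + 1), TrajAt v γ τ := by
    intro N
    obtain ⟨n, hn, h1, h2⟩ := h (N + 1)
    have hn' : (0 : ℝ) < n := Nat.cast_pos.mpr hn
    have hh : (0 : ℝ) < 1 / n := by positivity
    obtain ⟨k, hk⟩ : ∃ k, (N + 1) * n = k + 1 :=
      Nat.exists_eq_succ_of_ne_zero (Nat.mul_pos (Nat.succ_pos N) hn).ne'
    rw [hk] at h1 h2
    have hk' : ((N : ℝ) + 1) * n = k + 1 := by exact_mod_cast hk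
    have hk2 : (N : ℝ) + 1 ≤ (k + 2) * (1 / n) := by
      rw [mul_one_div, le_div_iff₀ hn']
      linarith
    have hk0 : (0 : ℝ) ≤ k := Nat.cast_nonneg k
    obtain ⟨γ1, a0, a1, -⟩ := globA_fwd hv hK hp hh k h1
    obtain ⟨γ2, b0, b1, -⟩ := globA_bwd hv hK hp hh k h2
    obtain ⟨γ, g1, g2, -⟩ := globA_glue hv b1 a1 (c := 0)
      ⟨by nlinarith, by linarith⟩ ⟨by linarith, by nlinarith⟩ (by rw [a0, b0])
    refine ⟨γ, by rw [g2 0 le_rfl, b0], fun τ hτ => g1 τ ⟨?_, ?_⟩⟩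
    · linarith [hτ.1]
    · linarith [hτ.2]
  choose Γ h0 hT using key
  have hcomp : ∀ N M : ℕ, N ≤ M → EqOn (Γ N) (Γ M) (Ioo (-((N : ℝ) + 1)) ((N : ℝ) + 1)) := by
    intro N M hNM
    have h1 : (N : ℝ) ≤ M := Nat.cast_le.mpr hNM
    have h2 : (0 : ℝ) ≤ N := Nat.cast_nonneg N
    refine traj_unique hv (τ₀ := 0) (hT N) (fun τ hτ => hT M τ ⟨?_, ?_⟩)
      ⟨by linarith, by linarith⟩ (by rw [h0, h0])
    · linarith [hτ.1]
    · linarith [hτ.2]
  refine ⟨fun t => Γ ⌈|t|⌉₊ t, fun τ => ?_, h0 _⟩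
  have hτ := Nat.le_ceil |τ|
  have h1 : TrajAt v (Γ (⌈|τ|⌉₊ + 1)) τ := by
    refine hT _ τ ⟨?_, ?_⟩
    · push_cast
      linarith [neg_abs_le τ]
    · push_cast
      linarith [le_abs_self τ]
  refine h1.congr ?_
  filter_upwards [Ioo_mem_nhds (show τ - 1 < τ by linarith) (show τ < τ + 1 by linarith)]
    with t ht
  have h2 : |t| ≤ |τ| + 1 := by
    rw [abs_le]
    constructor
    · linarith [ht.1, neg_abs_le τ]
    · linarith [ht.2, le_abs_self τ]
  have h3 : ⌈|t|⌉₊ ≤ ⌈|τ|⌉₊ + 1 := by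
    rw [Nat.ceil_le]
    push_cast
    linarith
  have h4 := Nat.le_ceil |t|
  refine (hcomp _ _ h3 ⟨?_, ?_⟩).symm
  · linarith [neg_abs_le t]
  · linarith [le_abs_self t]

theorem safe_of_good (hv : AffineIndependent ℝ v) {K : ℝ} (hK : Kite v K) {p : Ph}
    (hp : p ∈ Good v) (T : ℝ) : ∃ δ, 0 < δ ∧ ∀ (h : ℝ) (k : ℕ), |h| < δ → k * |h| ≤ T →
      p ∈ Safe v K h k ∧ flow v (k * h) p = (step v h)^[k] p := by
  have hc : Continuous (fun s : ℝ => (flow v s p).1) := by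
    refine LipschitzWith.continuous (K := 1) (LipschitzWith.of_dist_le_mul fun s t => ?_)
    rw [dist_eq_norm, Real.dist_eq, NNReal.coe_one, one_mul]
    exact flow_lip p t s
  obtain ⟨s0, -, hs0⟩ := (isCompact_Icc (a := -|T|) (b := |T|)).exists_isMinOn
    ⟨0, ⟨by linarith [abs_nonneg T], abs_nonneg T⟩⟩ (continuous_rr.comp hc).continuousOn
  have hm : 0 < rr v (flow v s0 p).1 :=
    rr_pos_of_PM hv _ (good_sub_PM hv (flow_mem_good hp s0))
  set m := rr v (flow v s0 p).1 with hmdef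
  have hK1 : 1 ≤ K := hK.1
  refine ⟨m / (2 * K), by positivity, fun h k hh hk => ?_⟩
  have hh' : 2 * K * |h| < m := by
    rw [lt_div_iff₀ (by positivity)] at hh
    linarith
  have hb : ∀ j ≤ k, 2 * K * |h| < rr v (flow v (j * h) p).1 := by
    intro j hj
    have h1 : (j : ℝ) ≤ k := Nat.cast_le.mpr hj
    have h2 : |(j : ℝ) * h| ≤ |T| := by
      rw [abs_mul, Nat.abs_cast]
      have := le_abs_self T
      nlinarith [abs_nonneg h]
    exact lt_of_lt_of_le hh' (hs0 (abs_le.mp h2))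
  have hi : ∀ j ≤ k, flow v (j * h) p = (step v h)^[j] p := by
    intro j
    induction j with
    | zero =>
      intro _
      simp [flow_zero]
    | succ j ih =>
      intro hj
      have h1 := hb j (by omega)
      rw [Function.iterate_succ_apply', ← ih (by omega),
        ← flow_eq_step hv hK (flow_mem_good hp _) (by nlinarith [abs_nonneg h]), flow_add hv]
      congr 1
      push_cast
      ring
  refine ⟨fun j hj => ?_, hi k le_rfl⟩
  rw [← hi j hj.le]
  exact hb j hj.le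

end Vale.Agent.P099
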