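import Vale.Agent.P099.Meas

open MeasureTheory Set Filter Topology
open scoped ComplexConjugate

namespace Vale.Agent.P099

variable {v : Fin 3 → ℂ}

theorem os_lam_meas (i : Fin 3) : Measurable (fun p : Ph => lam v i p.1) :=
  (continuous_lam i).measurable.comp measurable_fst

theorem os_rr_meas : Measurable (fun p : Ph => rr v p.1) :=
  continuous_rr.measurable.comp measurable_fst

theorem os_cases (hv : AffineIndependent ℝ v) {K : ℝ} (hK : Kite v K) (h : ℝ) {B : Set Ph}
    {p : Ph} (hp : p.1 ∈ table v) (hr : K * |h| < rr v p.1) (hB : step v h p ∈ B)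
    (hne : ∀ i, lam v i (free h p).1 ≠ 0) :
    (free h p ∈ B ∧ (free h p).1 ∈ table v) ∨ ∃ i, mirP v i (free h p) ∈ B ∧
      (mirP v i (free h p)).1 ∈ table v ∧ lam v i (mirP v i p).1 < 0 ∧
        ∀ j, j ≠ i → 0 < lam v j (mirP v i p).1 := by
  have hp' := (mem_table hv _).1 hp
  rcases eq_or_ne h 0 with rfl | h0
  · left
    unfold step at hB
    rw [free_zero] at hB ⊢
    rw [(fold_of_far 0 p (fun j _ => hp' j)).2 (by
      unfold Out
      have := hp' 0
      rintro (h | h)
      · linarith
      · linarith [h.1])] at hB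
    exact ⟨hB, hp⟩
  have hη : 0 < |h| := abs_pos.2 h0
  obtain ⟨i, hi⟩ := hK.2 p.1 |h| hη (fun i => (hp' i).le) hr
  have hlip : ∀ j, |lam v j (free h p).1 - lam v j p.1| ≤ |h| := fun j => by
    have := lam_lip hv j (free h p).1 p.1
    rwa [norm_free_sub] at this
  have hfar : ∀ j, j ≠ i → 9 * |h| < lam v j (free h p).1 := fun j hj => by
    have := abs_le.1 (hlip j)
    linarith [hi j hj]
  have hf := fold_of_far (v := v) i (free h p) (fun j hj => by linarith [hfar j hj])
  unfold step at hB
  rcases lt_or_gt_of_ne (hne i) with hlt | hgt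
  · right
    have hli := abs_le.1 (hlip i)
    have hpi := hp' i
    refine ⟨i, ?_, ?_, ?_, ?_⟩
    · rwa [hf.1 (Or.inl hlt)] at hB
    · rw [mem_table hv]
      intro j
      rcases eq_or_ne j i with rfl | hj
      · show 0 < lam v j (mir v j (free h p).1)
        rw [lam_mir hv]
        linarith
      · show 0 < lam v j (mir v i (free h p).1)
        have t1 := lam_lip hv j (mir v i (free h p).1) (free h p).1
        rw [norm_mir_sub_self hv, abs_of_neg hlt] at t1
        have t2 := abs_le.1 t1
        linarith [hfar j hj]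
    · show lam v i (mir v i p.1) < 0
      rw [lam_mir hv]
      linarith
    · intro j hj
      show 0 < lam v j (mir v i p.1)
      have t1 := lam_lip hv j (mir v i p.1) p.1
      rw [norm_mir_sub_self hv, abs_of_pos hpi] at t1
      have t2 := abs_le.1 t1
      linarith [hi j hj]
  · left
    rw [hf.2 (by
      unfold Out
      rintro (h | h)
      · linarith
      · linarith [h.1])] at hB
    refine ⟨hB, (mem_table hv _).2 fun j => ?_⟩
    rcases eq_or_ne j i with rfl | hj
    · exact hgt
    · linarith [hfar j hj]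

theorem one_step (hv : AffineIndependent ℝ v) {K : ℝ} (hK : Kite v K) (h : ℝ) {B : Set Ph}
    (hB : MeasurableSet B) : mQ v {p | K * |h| < rr v p.1 ∧ step v h p ∈ B} ≤ mQ v B := by
  have hQ : MeasurableSet {p : Ph | p.1 ∈ table v} :=
    measurable_fst isOpen_table.measurableSet
  have hfm : Measurable (free (-h)) := (mp_free (-h)).measurable
  obtain ⟨B0, hB0⟩ : ∃ B0 : Set Ph, B0 = (B ∩ {p : Ph | p.1 ∈ table v}) ∩
      free (-h) ⁻¹' {p : Ph | p.1 ∈ table v} := ⟨_, rfl⟩
  obtain ⟨C, hC⟩ : ∃ C : Fin 3 → Set Ph, ∀ i, C i = (B ∩ {p : Ph | p.1 ∈ table v}) ∩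
      free (-h) ⁻¹' ({p : Ph | lam v i p.1 < 0} ∩ ⋂ j, {p : Ph | j ≠ i → 0 < lam v j p.1}) :=
    ⟨_, fun _ => rfl⟩
  have mB0 : MeasurableSet B0 := by
    rw [hB0]; exact (hB.inter hQ).inter (hfm hQ)
  have mC : ∀ i, MeasurableSet (C i) := fun i => by
    rw [hC]
    refine (hB.inter hQ).inter (hfm (MeasurableSet.inter
      (measurableSet_lt (os_lam_meas i) measurable_const) (MeasurableSet.iInter fun j => ?_)))
    by_cases hj : j = i
    · simp [hj]
    · simpa [hj] using measurableSet_lt measurable_const (os_lam_meas (v := v) j)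
  have dC : Pairwise (Function.onFun Disjoint C) := by
    intro i j hij
    refine Set.disjoint_left.2 fun q hi hj => ?_
    rw [hC] at hi hj
    have t1 : lam v i (free (-h) q).1 < 0 := hi.2.1
    have t2 : 0 < lam v i (free (-h) q).1 := mem_iInter.1 hj.2.2 i hij
    linarith
  have d0 : Disjoint B0 (⋃ i, C i) := by
    refine Set.disjoint_left.2 fun q h0 hi => ?_
    obtain ⟨i, hi⟩ := mem_iUnion.1 hi
    rw [hC] at hi
    rw [hB0] at h0
    have t1 : lam v i (free (-h) q).1 < 0 := hi.2.1
    have t2 := (mem_table hv _).1 h0.2 i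
    linarith
  have hae : ∀ᵐ p ∂m0, ∀ i, lam v i (free h p).1 ≠ 0 :=
    (mp_free h).quasiMeasurePreserving.ae (ae_lam_ne hv)
  rw [mQ_eq, Measure.restrict_apply' hQ, Measure.restrict_apply' hQ]
  calc m0 ({p | K * |h| < rr v p.1 ∧ step v h p ∈ B} ∩ {p : Ph | p.1 ∈ table v})
      ≤ m0 (free h ⁻¹' B0 ∪ ⋃ i, (mirP v i ∘ free h) ⁻¹' C i) := by
        refine measure_mono_ae ?_
        filter_upwards [hae] with p hne hp
        rcases os_cases hv hK h hp.2 hp.1.1 hp.1.2 hne with h1 | ⟨i, h1, h2, h3, h4⟩
        · left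
          rw [hB0]
          refine ⟨h1, ?_⟩
          show (free (-h) (free h p)).1 ∈ table v
          rw [free_free, neg_add_cancel, free_zero]
          exact hp.2
        · right
          refine mem_iUnion.2 ⟨i, ?_⟩
          rw [hC]
          refine ⟨⟨h1, h2⟩, ?_⟩
          have e : free (-h) ((mirP v i ∘ free h) p) = mirP v i p := by
            rw [Function.comp_apply, mirP_free hv, free_free, neg_add_cancel, free_zero]
          rw [mem_preimage, e]
          exact ⟨h3, mem_iInter.2 h4⟩
    _ ≤ m0 (free h ⁻¹' B0) + ∑' i, m0 ((mirP v i ∘ free h) ⁻¹' C i) :=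
        (measure_union_le _ _).trans (add_le_add le_rfl (measure_iUnion_le _))
    _ = m0 B0 + ∑' i, m0 (C i) := by
        rw [(mp_free h).measure_preimage mB0.nullMeasurableSet]
        congr 1
        refine tsum_congr fun i => ?_
        exact ((mp_mirP hv i).comp (mp_free h)).measure_preimage (mC i).nullMeasurableSet
    _ = m0 (B0 ∪ ⋃ i, C i) := by
        rw [measure_union d0 (MeasurableSet.iUnion mC), measure_iUnion dC mC]
    _ ≤ m0 (B ∩ {p : Ph | p.1 ∈ table v}) := by
        refine measure_mono (union_subset ?_ (iUnion_subset fun i => ?_))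
        · rw [hB0]; exact inter_subset_left
        · rw [hC]; exact inter_subset_left

theorem measurableSet_safe (K h : ℝ) (k : ℕ) : MeasurableSet (Safe v K h k) := by
  have : Safe v K h k = ⋂ j, ⋂ _ : j < k, (step v h)^[j] ⁻¹' {p | 2 * K * |h| < rr v p.1} := by
    ext p
    simp [Safe]
  rw [this]
  exact MeasurableSet.iInter fun j => MeasurableSet.iInter fun _ =>
    ((measurable_step h).iterate j) (measurableSet_lt measurable_const os_rr_meas)

theorem safe_iter_le (hv : AffineIndependent ℝ v) {K : ℝ} (hK : Kite v K) (h : ℝ) (k : ℕ)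
    {B : Set Ph} (hB : MeasurableSet B) :
    mQ v (Safe v K h k ∩ (step v h)^[k] ⁻¹' B) ≤ mQ v B := by
  induction k generalizing B with
  | zero => exact measure_mono inter_subset_right
  | succ k ih =>
    have hm : MeasurableSet {p : Ph | K * |h| < rr v p.1 ∧ step v h p ∈ B} :=
      (measurableSet_lt measurable_const os_rr_meas).inter (measurable_step h hB)
    refine le_trans (measure_mono ?_) ((ih hm).trans (one_step hv hK h hB))
    rintro p ⟨h1, h2⟩
    refine ⟨fun j hj => h1 j (Nat.lt_succ_of_lt hj), ?_, ?_⟩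
    · have t1 := h1 k (Nat.lt_succ_self k)
      have t2 : 0 ≤ K * |h| := mul_nonneg (by linarith [hK.1]) (abs_nonneg h)
      linarith
    · rwa [mem_preimage, Function.iterate_succ_apply'] at h2

theorem safe_compl_le (hv : AffineIndependent ℝ v) {K : ℝ} (hK : Kite v K) (h : ℝ) (k : ℕ) :
    mQ v (Safe v K h k)ᶜ ≤ ENNReal.ofReal (k * (48 * K ^ 2 * h ^ 2)) := by
  induction k with
  | zero => simp [Safe]
  | succ k ih =>
    have hm : MeasurableSet {p : Ph | rr v p.1 ≤ 2 * K * |h|} :=
      measurableSet_le os_rr_meas measurable_const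
    have hsub : (Safe v K h (k + 1))ᶜ ⊆ (Safe v K h k)ᶜ ∪
        (Safe v K h k ∩ (step v h)^[k] ⁻¹' {p : Ph | rr v p.1 ≤ 2 * K * |h|}) := by
      intro p hp
      by_cases h1 : p ∈ Safe v K h k
      · right
        refine ⟨h1, ?_⟩
        by_contra h2
        apply hp
        intro j hj
        rcases Nat.lt_succ_iff_lt_or_eq.1 hj with hj | rfl
        · exact h1 j hj
        · exact not_le.1 h2
      · exact Or.inl h1
    refine (measure_mono hsub).trans ((measure_union_le _ _).trans ?_)
    refine (add_le_add ih ((safe_iter_le hv hK h k hm).trans (mQ_rr_le _))).trans ?_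
    rw [← ENNReal.ofReal_add (by positivity) (by positivity)]
    apply le_of_eq
    congr 1
    rw [mul_pow, sq_abs]
    push_cast
    ring

end Vale.Agent.P099
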