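import Vale.Agent.P099.GlobA
import Vale.Agent.P099.OneStep

open MeasureTheory Set Filter Topology
open scoped ComplexConjugate

namespace Vale.Agent.P099

variable {v : Fin 3 → ℂ}

theorem globB_good_iff (hv : AffineIndependent ℝ v) {K : ℝ} (hK : Kite v K) (p : Ph) :
    p ∈ Good v ↔ p ∈ PM v ∧ ∀ N : ℕ, ∃ n : ℕ, 0 < n ∧ p ∈ Safe v K (1 / n) (N * n) ∧
      p ∈ Safe v K (-(1 / n)) (N * n) := by
  constructor
  · intro hp
    refine ⟨good_sub_PM hv hp, fun N => ?_⟩
    obtain ⟨δ, hδ, hs⟩ := safe_of_good hv hK hp N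
    obtain ⟨n, hn⟩ := exists_nat_one_div_lt hδ
    have hpos : (0:ℝ) < ((n + 1 : ℕ) : ℝ) := by positivity
    have h1 : |(1 / ((n + 1 : ℕ) : ℝ))| = 1 / ((n + 1 : ℕ) : ℝ) := abs_of_pos (by positivity)
    have h2 : 1 / ((n + 1 : ℕ) : ℝ) < δ := by push_cast; exact hn
    have h3 : ((N * (n + 1) : ℕ) : ℝ) * (1 / ((n + 1 : ℕ) : ℝ)) ≤ N := by
      rw [Nat.cast_mul, mul_assoc, mul_one_div_cancel hpos.ne', mul_one]
    refine ⟨n + 1, Nat.succ_pos n, (hs _ _ (by rw [h1]; exact h2) (by rw [h1]; exact h3)).1,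
      (hs _ _ (by rw [abs_neg, h1]; exact h2) (by rw [abs_neg, h1]; exact h3)).1⟩
  · rintro ⟨h1, h2⟩
    exact good_of_safe hv hK h1 h2

theorem globB_ev (hv : AffineIndependent ℝ v) {K : ℝ} (hK : Kite v K) {p : Ph} (hp : p ∈ Good v)
    (t : ℝ) : ∀ᶠ n : ℕ in atTop, p ∈ Safe v K (t / ((n + 1 : ℕ) : ℝ)) (n + 1) ∧
      flow v t p = (step v (t / ((n + 1 : ℕ) : ℝ)))^[n + 1] p := by
  obtain ⟨δ, hδ, hs⟩ := safe_of_good hv hK hp |t|
  have ht : Tendsto (fun n : ℕ => |t| / ((n + 1 : ℕ) : ℝ)) atTop (𝓝 0) :=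
    tendsto_const_nhds.div_atTop
      (tendsto_natCast_atTop_atTop.comp (tendsto_add_atTop_nat 1))
  filter_upwards [ht.eventually (gt_mem_nhds hδ)] with n hn
  have hpos : (0:ℝ) < ((n + 1 : ℕ) : ℝ) := by positivity
  have h1 : |t / ((n + 1 : ℕ) : ℝ)| = |t| / ((n + 1 : ℕ) : ℝ) := by
    rw [abs_div, abs_of_pos hpos]
  have h2 := hs (t / ((n + 1 : ℕ) : ℝ)) (n + 1) (by rw [h1]; exact hn)
    (by rw [h1, mul_div_cancel₀ _ hpos.ne'])
  rw [mul_div_cancel₀ _ hpos.ne'] at h2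
  exact h2

theorem globB_meas_iter (c : ℝ) (k : ℕ) :
    Measurable (fun q : ℝ × Ph => (step v (q.1 / c))^[k] q.2) := by
  induction k with
  | zero => exact measurable_snd
  | succ k ih =>
    simp only [Function.iterate_succ_apply']
    have h1 : Measurable (fun q : ℝ × Ph => ((q.1 / c, (step v (q.1 / c))^[k] q.2) : ℝ × Ph)) :=
      (measurable_fst.div_const c).prodMk ih
    have h2 := (measurable_step2 (v := v)).comp h1
    simpa only [Function.comp_def] using h2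

theorem measurableSet_good (hv : AffineIndependent ℝ v) : MeasurableSet (Good v) := by
  obtain ⟨K, hK⟩ := exists_kite hv
  have : Good v = PM v ∩ ⋂ N : ℕ, ⋃ n : ℕ, ⋃ _ : 0 < n,
      (Safe v K (1 / n) (N * n) ∩ Safe v K (-(1 / n)) (N * n)) := by
    ext p
    rw [globB_good_iff hv hK]
    simp only [mem_inter_iff, mem_iInter, mem_iUnion, exists_prop]
  rw [this]
  exact measurableSet_PM.inter (MeasurableSet.iInter fun N => MeasurableSet.iUnion fun n =>
    MeasurableSet.iUnion fun _ => (measurableSet_safe _ _ _).inter (measurableSet_safe _ _ _))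

theorem ae_good (hv : AffineIndependent ℝ v) : ∀ᵐ p ∂(mQ v), p ∈ Good v := by
  obtain ⟨K, hK⟩ := exists_kite hv
  have h1 : ∀ N : ℕ, ∀ᵐ p ∂(mQ v), ∃ n : ℕ, 0 < n ∧ p ∈ Safe v K (1 / n) (N * n) ∧
      p ∈ Safe v K (-(1 / n)) (N * n) := by
    intro N
    rw [ae_iff]
    have hle : ∀ n : ℕ, mQ v {p | ¬ ∃ n : ℕ, 0 < n ∧ p ∈ Safe v K (1 / n) (N * n) ∧
        p ∈ Safe v K (-(1 / n)) (N * n)} ≤
        ENNReal.ofReal (2 * (N * (48 * K ^ 2)) / ((n + 1 : ℕ) : ℝ)) := by
      intro n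
      have hpos : (0:ℝ) < ((n + 1 : ℕ) : ℝ) := by positivity
      have hsub : {p | ¬ ∃ n : ℕ, 0 < n ∧ p ∈ Safe v K (1 / n) (N * n) ∧
          p ∈ Safe v K (-(1 / n)) (N * n)} ⊆
          (Safe v K (1 / ((n + 1 : ℕ) : ℝ)) (N * (n + 1)))ᶜ ∪
            (Safe v K (-(1 / ((n + 1 : ℕ) : ℝ))) (N * (n + 1)))ᶜ := by
        intro p hp
        by_contra hc
        simp only [mem_union, mem_compl_iff, not_or, not_not] at hc
        exact hp ⟨n + 1, Nat.succ_pos n, hc.1, hc.2⟩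
      have e : ((N * (n + 1) : ℕ) : ℝ) * (48 * K ^ 2 * (1 / ((n + 1 : ℕ) : ℝ)) ^ 2) =
          (N * (48 * K ^ 2)) / ((n + 1 : ℕ) : ℝ) := by
        rw [Nat.cast_mul]; field_simp
      have hnn : 0 ≤ (N * (48 * K ^ 2)) / ((n + 1 : ℕ) : ℝ) := by positivity
      refine (measure_mono hsub).trans ((measure_union_le _ _).trans ?_)
      refine (add_le_add (safe_compl_le hv hK _ _) (safe_compl_le hv hK _ _)).trans ?_
      rw [neg_sq, e, ← ENNReal.ofReal_add hnn hnn]
      apply le_of_eq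
      congr 1
      ring
    have ht : Tendsto (fun n : ℕ => ENNReal.ofReal (2 * (N * (48 * K ^ 2)) / ((n + 1 : ℕ) : ℝ)))
        atTop (𝓝 0) := by
      rw [← ENNReal.ofReal_zero]
      exact ENNReal.tendsto_ofReal (tendsto_const_nhds.div_atTop
        (tendsto_natCast_atTop_atTop.comp (tendsto_add_atTop_nat 1)))
    exact le_antisymm (ge_of_tendsto' ht hle) zero_le
  filter_upwards [ae_all_iff.2 h1, ae_table (v := v)] with p hp ht
  exact (globB_good_iff hv hK p).2 ⟨Or.inl ht, hp⟩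

theorem measurable_flow2 (hv : AffineIndependent ℝ v) :
    Measurable (fun q : ℝ × Ph => flow v q.1 q.2) := by
  classical
  obtain ⟨K, hK⟩ := exists_kite hv
  have hG : MeasurableSet {q : ℝ × Ph | q.2 ∈ Good v} :=
    measurable_snd (measurableSet_good hv)
  refine measurable_of_tendsto_metrizable
    (f := fun (n : ℕ) (q : ℝ × Ph) => if q.2 ∈ Good v then
      (step v (q.1 / ((n + 1 : ℕ) : ℝ)))^[n + 1] q.2 else q.2) (fun n => ?_) ?_
  · exact Measurable.ite hG (globB_meas_iter _ _) measurable_snd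
  · rw [tendsto_pi_nhds]
    intro q
    by_cases hq : q.2 ∈ Good v
    · simp only [if_pos hq]
      refine tendsto_const_nhds.congr' ?_
      filter_upwards [globB_ev hv hK hq q.1] with n hn
      exact hn.2
    · simp only [if_neg hq, flow_of_not_good hq]
      exact tendsto_const_nhds

theorem measurable_flow (hv : AffineIndependent ℝ v) (t : ℝ) : Measurable (flow v t) := by
  have h : Measurable (fun p : Ph => ((t, p) : ℝ × Ph)) := measurable_const.prodMk measurable_id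
  exact (measurable_flow2 hv).comp h

theorem globB_le (hv : AffineIndependent ℝ v) (t : ℝ) {B : Set Ph} (hB : MeasurableSet B) :
    mQ v (flow v t ⁻¹' B) ≤ mQ v B := by
  obtain ⟨K, hK⟩ := exists_kite hv
  let A : ℕ → Set Ph := fun N => ⋂ n : ℕ, ⋂ _ : N ≤ n,
    (Safe v K (t / ((n + 1 : ℕ) : ℝ)) (n + 1) ∩ (step v (t / ((n + 1 : ℕ) : ℝ)))^[n + 1] ⁻¹' B)
  have hmono : Monotone A := by
    intro a b hab p hp
    simp only [A, mem_iInter] at hp ⊢
    exact fun n hn => hp n (hab.trans hn)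
  have h1 : mQ v (flow v t ⁻¹' B) ≤ mQ v (⋃ N, A N) := by
    refine measure_mono_ae ?_
    filter_upwards [ae_good hv] with p hp hpB
    obtain ⟨N, hN⟩ := eventually_atTop.1 (globB_ev hv hK hp t)
    refine mem_iUnion.2 ⟨N, ?_⟩
    simp only [A, mem_iInter]
    intro n hn
    refine ⟨(hN n hn).1, ?_⟩
    rw [mem_preimage, ← (hN n hn).2]
    exact hpB
  refine h1.trans ?_
  rw [hmono.measure_iUnion]
  refine iSup_le fun N => ?_
  refine le_trans (measure_mono ?_) (safe_iter_le hv hK (t / ((N + 1 : ℕ) : ℝ)) (N + 1) hB)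
  intro p hp
  simp only [A, mem_iInter] at hp
  exact hp N le_rfl

theorem mp_flow (hv : AffineIndependent ℝ v) (t : ℝ) :
    MeasurePreserving (flow v t) (mQ v) (mQ v) := by
  refine ⟨measurable_flow hv t, ?_⟩
  ext B hB
  rw [Measure.map_apply (measurable_flow hv t) hB]
  refine le_antisymm (globB_le hv t hB) ?_
  have h1 := globB_le hv t hB.compl
  rw [preimage_compl, measure_compl (measurable_flow hv t hB) (measure_ne_top _ _),
    measure_compl hB (measure_ne_top _ _)] at h1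
  exact (ENNReal.sub_le_sub_iff_left (measure_mono (subset_univ _)) (measure_ne_top _ _)).1 h1

end Vale.Agent.P099
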