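import Vale.Agent.P099.Div

open MeasureTheory Set Filter Topology
open scoped ComplexConjugate

namespace Vale.Agent.P099

variable {v : Fin 3 → ℂ}

theorem jac_fd {u z : ℂ → ℂ} {x : ℂ} (hu : DifferentiableAt ℝ u x)
    (hz : DifferentiableAt ℝ z x) (e : ℂ) :
    fderiv ℝ (fun y => conj (u y) * z y) x e =
      conj (fderiv ℝ u x e) * z x + conj (u x) * fderiv ℝ z x e := by
  have h1 : HasFDerivAt (fun y => conj (u y))
      ((Complex.conjCLE : ℂ →L[ℝ] ℂ).comp (fderiv ℝ u x)) x :=
    (Complex.conjCLE : ℂ →L[ℝ] ℂ).hasFDerivAt.comp x hu.hasFDerivAt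
  have h2 := h1.mul hz.hasFDerivAt
  have h3 : HasFDerivAt (fun y => conj (u y) * z y) _ x := h2
  rw [h3.fderiv]
  simp
  ring

theorem jac_cd_conj {u : ℂ → ℂ} (hu : ContDiff ℝ 1 u) : ContDiff ℝ 1 (fun y => conj (u y)) :=
  (Complex.conjCLE : ℂ →L[ℝ] ℂ).contDiff.comp hu

theorem jac_side {w : ℂ → ℂ} (hw : Differentiable ℝ w) {p q c : ℂ}
    (h : ∀ x ∈ openSegment ℝ p q, w x = c * conj (w x)) {x : ℂ} (hx : x ∈ openSegment ℝ p q) :
    fderiv ℝ w x (q - p) = c * conj (fderiv ℝ w x (q - p)) := by
  rw [openSegment_eq_image'] at hx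
  obtain ⟨t, ht, rfl⟩ := hx
  have hl : HasDerivAt (fun s : ℝ => p + s • (q - p)) (q - p) t := by
    simpa using ((hasDerivAt_id t).smul_const (q - p)).const_add p
  have h1 : HasDerivAt (fun s : ℝ => w (p + s • (q - p)))
      (fderiv ℝ w (p + t • (q - p)) (q - p)) t :=
    (hw (p + t • (q - p))).hasFDerivAt.comp_hasDerivAt t hl
  have h2 : HasDerivAt (fun s : ℝ => conj (w (p + s • (q - p))))
      (conj (fderiv ℝ w (p + t • (q - p)) (q - p))) t :=
    (Complex.conjCLE : ℂ →L[ℝ] ℂ).hasFDerivAt.comp_hasDerivAt t h1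
  have h3 := h2.const_mul c
  have h4 : (fun s : ℝ => w (p + s • (q - p))) =ᶠ[𝓝 t]
      fun s : ℝ => c * conj (w (p + s • (q - p))) := by
    filter_upwards [isOpen_Ioo.mem_nhds ht] with s hs
    apply h
    rw [openSegment_eq_image']
    exact ⟨s, hs, rfl⟩
  exact h1.unique (h3.congr_of_eventuallyEq h4)



theorem jac_zero (hv : AffineIndependent ℝ v) {w : ℂ → ℂ} (hw : ContDiff ℝ 2 w)
    (ht : ∀ i, ∃ c : ℂ, ∀ x ∈ side v i, w x = c * conj (w x)) :
    ∫ x in table v, (conj (fderiv ℝ w x 1) * fderiv ℝ w x Complex.I).im = 0 := by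
  have hd : Differentiable ℝ w := hw.differentiable (by norm_num)
  have hD : ContDiff ℝ 1 (fderiv ℝ w) := hw.fderiv_right (m := 1) (by norm_num)
  have hw1 : ContDiff ℝ 1 w := hw.of_le (by norm_num)
  have ha : ContDiff ℝ 1 (fun x => fderiv ℝ w x 1) := hD.clm_apply contDiff_const
  have hb : ContDiff ℝ 1 (fun x => fderiv ℝ w x Complex.I) := hD.clm_apply contDiff_const
  have hA : ContDiff ℝ 1 (fun x => conj (w x) * fderiv ℝ w x 1) := (jac_cd_conj hw1).mul ha
  have hB : ContDiff ℝ 1 (fun x => conj (w x) * fderiv ℝ w x Complex.I) :=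
    (jac_cd_conj hw1).mul hb
  obtain ⟨L, hL⟩ : ∃ L : ℂ →L[ℝ] ℂ, ∀ z, L z = (z.im : ℂ) :=
    ⟨Complex.ofRealCLM.comp Complex.imCLM, fun z => rfl⟩
  obtain ⟨g, hg⟩ : ∃ g : ℂ → ℂ, g = fun x => L (conj (w x) * fderiv ℝ w x Complex.I) -
      L (conj (w x) * fderiv ℝ w x 1) * Complex.I := ⟨_, rfl⟩
  have hgc : ContDiff ℝ 1 g := by
    rw [hg]
    exact (L.contDiff.comp hB).sub ((L.contDiff.comp hA).mul contDiff_const)
  have hgt : ∀ i, ∀ x ∈ side v i, ncp v i (g x) = 0 := by
    intro i x hx
    obtain ⟨c, hc⟩ := ht i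
    have h1 := jac_side hd hc hx
    have h2 := hc x hx
    obtain ⟨e, he⟩ : ∃ e, e = v (i + 2) - v (i + 1) := ⟨_, rfl⟩
    rw [← he] at h1
    have h3 : conj (w x) * fderiv ℝ w x e = conj (conj (w x) * fderiv ℝ w x e) := by
      rw [map_mul, Complex.conj_conj]
      conv_lhs => rw [h1]
      conv_rhs => rw [h2]
      ring
    have h4 : (conj (w x) * fderiv ℝ w x e).im = 0 := by
      have := congrArg Complex.im h3
      rw [Complex.conj_im] at this
      linarith
    have h5 : fderiv ℝ w x e = e.re * fderiv ℝ w x 1 + e.im * fderiv ℝ w x Complex.I := by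
      have : e = e.re • (1 : ℂ) + e.im • Complex.I := by
        apply Complex.ext <;> simp
      conv_lhs => rw [this]
      rw [map_add, map_smul, map_smul]
      simp
    rw [h5] at h4
    unfold ncp nrm
    rw [← he, hg]
    simp only [hL]
    generalize Real.sign (det3 v) / ‖e‖ = r
    generalize fderiv ℝ w x 1 = a at h4 ⊢
    generalize fderiv ℝ w x Complex.I = b at h4 ⊢
    generalize w x = u at h4 ⊢
    simp at h4 ⊢
    linear_combination (-r) * h4
  have key := div_zero hv hgc hgt
  have hpt : ∀ x, (fderiv ℝ g x 1).re + (fderiv ℝ g x Complex.I).im =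
      2 * (conj (fderiv ℝ w x 1) * fderiv ℝ w x Complex.I).im := by
    intro x
    have hAx := (hA.differentiable (by norm_num) x).hasFDerivAt
    have hBx := (hB.differentiable (by norm_num) x).hasFDerivAt
    have h1 := (L.hasFDerivAt.comp x hBx).sub ((L.hasFDerivAt.comp x hAx).mul_const Complex.I)
    have h2 := h1.fderiv
    have h3 := (congrArg (fun f => fderiv ℝ f x) hg).trans h2
    have hs : fderiv ℝ (fun x => fderiv ℝ w x 1) x Complex.I =
        fderiv ℝ (fun x => fderiv ℝ w x Complex.I) x 1 := by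
      have hDx := (hD.differentiable (by norm_num) x)
      rw [fderiv_clm_apply hDx (differentiableAt_const _),
        fderiv_clm_apply hDx (differentiableAt_const _)]
      have := (hw.contDiffAt (x := x)).isSymmSndFDerivAt (by simp)
      simpa using this.eq Complex.I 1
    rw [h3]
    simp only [ContinuousLinearMap.sub_apply, ContinuousLinearMap.comp_apply,
      ContinuousLinearMap.smul_apply, hL, ContinuousLinearMap.smulRight_apply]
    rw [jac_fd (hd x) (ha.differentiable (by norm_num) x),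
      jac_fd (hd x) (hb.differentiable (by norm_num) x),
      jac_fd (hd x) (ha.differentiable (by norm_num) x),
      jac_fd (hd x) (hb.differentiable (by norm_num) x), hs]
    simp
    ring
  simp only [hpt] at key
  rw [integral_const_mul] at key
  linarith

/-- integration by parts with purely imaginary boundary term -/
theorem parts_zero (hv : AffineIndependent ℝ v) {a b : ℂ → ℂ} (ha : ContDiff ℝ 1 a)
    (hb : ContDiff ℝ 1 b)
    (ht : ∀ i, ∀ x ∈ side v i, a x * conj (b x) = -(nrm v i) ^ 2 * conj (a x * conj (b x))) :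
    ∫ x in table v, ((fderiv ℝ a x 1 - Complex.I * fderiv ℝ a x Complex.I) / 2 * conj (b x) +
      a x * conj ((fderiv ℝ b x 1 + Complex.I * fderiv ℝ b x Complex.I) / 2)).re = 0 := by
  have hg : ContDiff ℝ 1 (fun x => conj (b x) * a x) := (jac_cd_conj hb).mul ha
  have hgt : ∀ i, ∀ x ∈ side v i, ncp v i (conj (b x) * a x) = 0 := by
    intro i x hx
    have h1 := ht i x hx
    rw [mul_comm (a x)] at h1
    generalize conj (b x) * a x = u at h1 ⊢
    have h2 : nrm v i * conj (nrm v i) = 1 := by
      rw [Complex.mul_conj, Complex.normSq_eq_norm_sq, nrm_norm hv i]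
      simp
    unfold ncp
    have h3 : u * conj (nrm v i) = -conj (u * conj (nrm v i)) := by
      rw [map_mul, Complex.conj_conj]
      conv_lhs => rw [h1]
      linear_combination (-(nrm v i) * conj u) * h2
    have := congrArg Complex.re h3
    rw [Complex.neg_re, Complex.conj_re] at this
    linarith
  have key := div_zero hv hg hgt
  have hpt : ∀ x, (fderiv ℝ (fun x => conj (b x) * a x) x 1).re +
      (fderiv ℝ (fun x => conj (b x) * a x) x Complex.I).im =
      2 * ((fderiv ℝ a x 1 - Complex.I * fderiv ℝ a x Complex.I) / 2 * conj (b x) +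
      a x * conj ((fderiv ℝ b x 1 + Complex.I * fderiv ℝ b x Complex.I) / 2)).re := by
    intro x
    rw [jac_fd (hb.differentiable (by norm_num) x) (ha.differentiable (by norm_num) x),
      jac_fd (hb.differentiable (by norm_num) x) (ha.differentiable (by norm_num) x)]
    generalize fderiv ℝ a x 1 = a1
    generalize fderiv ℝ a x Complex.I = a2
    generalize fderiv ℝ b x 1 = b1
    generalize fderiv ℝ b x Complex.I = b2
    have h2 : conj ((b1 + Complex.I * b2) / 2) = (conj b1 - Complex.I * conj b2) / 2 := by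
      simp [map_div₀, sub_eq_add_neg, map_ofNat]
    rw [h2]
    simp
    ring
  simp only [hpt] at key
  rw [integral_const_mul] at key
  linarith

end Vale.Agent.P099
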