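import Vale.Agent.P099.Traj

open MeasureTheory Set Filter Topology
open scoped ComplexConjugate

namespace Vale.Agent.P099

variable {v : Fin 3 → ℂ}

theorem loc_pos (hv : AffineIndependent ℝ v) {p : Ph} (hp : p ∈ PM v) {i : Fin 3}
    (h : lam v i p.1 = 0) : 0 < ncp v i (vel p.2) := by
  rcases hp with hp | ⟨j, hj, hc⟩
  · have := (mem_table hv _).1 hp i
    linarith
  · by_cases hij : i = j
    · rw [hij]; exact hc
    · have := ((mem_side hv j _).1 hj).2 i hij
      linarith

theorem step_zero (hv : AffineIndependent ℝ v) {p : Ph} (hp : p ∈ PM v) : step v 0 p = p := by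
  have hno : ∀ i, ¬ Out v i p := by
    intro i ho
    rcases ho with ho | ⟨h1, h2⟩
    · have := lam_nonneg_of_PM hv p hp i
      linarith
    · have := loc_pos hv hp h1
      linarith
  unfold step
  rw [free_zero]
  unfold fold
  rw [if_neg (hno 0), if_neg (hno 1), if_neg (hno 2)]

theorem loc_free_eq (p : Ph) (τ t : ℝ) :
    free t p = ((free τ p).1 + (t - τ) • vel p.2, p.2) := by
  unfold free
  refine Prod.ext ?_ rfl
  simp only
  rw [add_assoc, ← add_smul]
  congr 2
  ring

theorem loc_free {p : Ph} {τ : ℝ} (h : (free τ p).1 ∈ table v) :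
    TrajAt v (fun t => free t p) τ := by
  have hc : Continuous fun t : ℝ => (free t p).1 := by
    unfold free
    fun_prop
  have h1 : ∀ᶠ t in 𝓝 τ, (free t p).1 ∈ table v :=
    hc.continuousAt.eventually_mem (isOpen_table.mem_nhds h)
  obtain ⟨δ, hδ, hb⟩ := Metric.eventually_nhds_iff.1 h1
  refine ⟨δ, hδ, p.2, fun t _ => loc_free_eq p τ t, fun t _ => loc_free_eq p τ t, ?_,
    Or.inl ⟨h, rfl⟩⟩
  intro t ht _
  apply hb
  rw [Real.dist_eq, abs_lt]
  constructor <;> linarith [ht.1, ht.2]

theorem loc_hit (hv : AffineIndependent ℝ v) {γ : ℝ → Ph} {p₁ p₂ : Ph} {τ ε : ℝ} {i : Fin 3}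
    (hε : 0 < ε) (hx : (free τ p₁).1 = (free τ p₂).1) (hs : (free τ p₂).1 ∈ side v i)
    (hθ : p₁.2 = bet v i - p₂.2) (h2 : ∀ t ∈ Ico τ (τ + ε), γ t = free t p₂)
    (h1 : ∀ t ∈ Ioo (τ - ε) τ, γ t = free t p₁)
    (h3 : ∀ t ∈ Ioo (τ - ε) (τ + ε), t ≠ τ → (γ t).1 ∈ table v) : TrajAt v γ τ := by
  have h0 : γ τ = free τ p₂ := h2 τ ⟨le_rfl, by linarith⟩
  refine ⟨ε, hε, p₁.2, ?_, ?_, h3, Or.inr ⟨i, ?_, ?_⟩⟩
  · intro t ht
    rw [h2 t ht, h0]
    exact loc_free_eq p₂ τ t
  · intro t ht
    rw [h1 t ht, h0, ← hx]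
    exact loc_free_eq p₁ τ t
  · rw [h0]; exact hs
  · rw [h0, isReflection_iff hv]
    exact hθ

theorem loc_lam (i : Fin 3) (p : Ph) (t : ℝ) :
    lam v i (free t p).1 = lam v i p.1 + t * ncp v i (vel p.2) := lam_add_smul i _ _ _

theorem step_traj (hv : AffineIndependent ℝ v) {K : ℝ} (hK : Kite v K) {p : Ph} (hp : p ∈ PM v)
    {η : ℝ} (hη : 0 < η) (hr : K * η < rr v p.1) :
    ∀ τ ∈ Ioo (-η) η, TrajAt v (fun t => step v t p) τ := by
  obtain ⟨i, hi⟩ := hK.2 p.1 η hη (lam_nonneg_of_PM hv p hp) hr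
  have ha : 0 ≤ lam v i p.1 := lam_nonneg_of_PM hv p hp i
  have hlip : ∀ j, ∀ t ∈ Ioo (-η) η, lam v j p.1 - η < lam v j (free t p).1 := by
    intro j t ht
    have h1 := lam_lip hv j (free t p).1 p.1
    rw [norm_free_sub] at h1
    have h2 : |t| < η := abs_lt.2 ht
    have := (abs_le.1 h1).1
    linarith
  have hfar : ∀ t ∈ Ioo (-η) η, ∀ j, j ≠ i → 9 * η < lam v j (free t p).1 := by
    intro t ht j hj
    have := hlip j t ht
    have := hi j hj
    linarith
  have hfold := fun t (ht : t ∈ Ioo (-η) η) =>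
    fold_of_far i (free t p) (fun j hj => by have := hfar t ht j hj; linarith)
  set a := lam v i p.1 with ha_def
  set c := ncp v i (vel p.2) with hc_def
  have hl : ∀ t, lam v i (free t p).1 = a + t * c := fun t => loc_lam i p t
  have hout : ∀ t, Out v i (free t p) ↔ (a + t * c < 0 ∨ (a + t * c = 0 ∧ c < 0)) := by
    intro t
    unfold Out
    rw [hl]
    rfl
  have hA : ∀ t ∈ Ioo (-η) η, (a + t * c < 0 ∨ (a + t * c = 0 ∧ c < 0)) →
      step v t p = free t (mirP v i p) := by
    intro t ht h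
    rw [← mirP_free hv]
    exact (hfold t ht).1 ((hout t).2 h)
  have hB : ∀ t ∈ Ioo (-η) η, ¬ (a + t * c < 0 ∨ (a + t * c = 0 ∧ c < 0)) →
      step v t p = free t p := by
    intro t ht h
    exact (hfold t ht).2 (fun h' => h ((hout t).1 h'))
  have hTB : ∀ t ∈ Ioo (-η) η, 0 < a + t * c → (free t p).1 ∈ table v := by
    intro t ht h
    rw [mem_table hv]
    intro j
    by_cases hj : j = i
    · rw [hj, hl]; exact h
    · have := hfar t ht j hj
      linarith
  have hTA : ∀ t ∈ Ioo (-η) η, a + t * c < 0 → (free t (mirP v i p)).1 ∈ table v := by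
    intro t ht h
    rw [← mirP_free hv, mem_table hv]
    intro j
    change 0 < lam v j (mir v i (free t p).1)
    by_cases hj : j = i
    · rw [hj, lam_mir hv, hl]; linarith
    · have h1 := hfar t ht j hj
      have h2 := lam_lip hv j (mir v i (free t p).1) (free t p).1
      have hneg : lam v i (free t p).1 < 0 := by rw [hl]; exact h
      rw [norm_mir_sub_self hv, abs_of_neg hneg] at h2
      have h3 := hlip i t ht
      have := (abs_le.1 h2).1
      linarith
  have hT : ∀ t ∈ Ioo (-η) η, a + t * c ≠ 0 → (step v t p).1 ∈ table v := by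
    intro t ht h
    rcases lt_or_gt_of_ne h with h | h
    · rw [hA t ht (Or.inl h)]; exact hTA t ht h
    · rw [hB t ht (by rintro (h' | ⟨h', _⟩) <;> linarith)]; exact hTB t ht h
  intro τ hτ
  have hnb : Ioo (-η) η ∈ 𝓝 τ := Ioo_mem_nhds hτ.1 hτ.2
  have hcont : Continuous fun t : ℝ => a + t * c := by fun_prop
  rcases lt_trichotomy (a + τ * c) 0 with h | h | h
  · refine (loc_free (hTA τ hτ h)).congr ?_
    filter_upwards [hnb, hcont.continuousAt.eventually_lt continuousAt_const h] with t ht h'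
    exact (hA t ht (Or.inl h')).symm
  · have hc0 : c ≠ 0 := by
      intro hc
      have h1 : a = 0 := by rw [hc] at h; linarith
      have := loc_pos hv hp (i := i) h1
      rw [← hc_def] at this
      linarith
    obtain ⟨ε, hε, hb⟩ := Metric.mem_nhds_iff.1 hnb
    have hin : ∀ t, τ - ε < t → t < τ + ε → t ∈ Ioo (-η) η := by
      intro t h1 h2
      apply hb
      rw [Metric.mem_ball, Real.dist_eq, abs_lt]
      constructor <;> linarith
    have hlin : ∀ t, a + t * c = (t - τ) * c := fun t => by linarith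
    have hs : (free τ p).1 ∈ side v i := by
      rw [mem_side hv]
      refine ⟨by rw [hl]; exact h, fun j hj => ?_⟩
      have := hfar τ hτ j hj
      linarith
    have hx : (free τ (mirP v i p)).1 = (free τ p).1 := by
      rw [← mirP_free hv]
      exact mir_fix i _ (by rw [hl]; exact h)
    have h3 : ∀ t ∈ Ioo (τ - ε) (τ + ε), t ≠ τ → (step v t p).1 ∈ table v := by
      intro t ht hne
      refine hT t (hin t ht.1 ht.2) ?_
      rw [hlin]
      exact mul_ne_zero (sub_ne_zero.2 hne) hc0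
    rcases lt_or_gt_of_ne hc0 with hc | hc
    · refine loc_hit hv (p₁ := p) (p₂ := mirP v i p) (i := i) hε hx.symm (hx ▸ hs) ?_ ?_ ?_ h3
      · change p.2 = bet v i - (bet v i - p.2)
        abel
      · intro t ht
        refine hA t (hin t (by linarith [ht.1]) ht.2) ?_
        rcases eq_or_lt_of_le ht.1 with e | e
        · right; rw [← e]; exact ⟨h, hc⟩
        · left; rw [hlin]; exact mul_neg_of_pos_of_neg (by linarith) hc
      · intro t ht
        refine hB t (hin t ht.1 (by linarith [ht.2])) ?_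
        have : 0 < a + t * c := by
          rw [hlin]; exact mul_pos_of_neg_of_neg (by linarith [ht.2]) hc
        rintro (h' | ⟨h', _⟩) <;> linarith
    · refine loc_hit hv (p₁ := mirP v i p) (p₂ := p) (i := i) hε hx hs rfl ?_ ?_ h3
      · intro t ht
        refine hB t (hin t (by linarith [ht.1]) ht.2) ?_
        have : 0 ≤ a + t * c := by
          rw [hlin]; exact mul_nonneg (by linarith [ht.1]) hc.le
        rintro (h' | ⟨_, h'⟩) <;> linarith
      · intro t ht
        refine hA t (hin t ht.1 (by linarith [ht.2])) (Or.inl ?_)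
        rw [hlin]; exact mul_neg_of_neg_of_pos (by linarith [ht.2]) hc
  · refine (loc_free (hTB τ hτ h)).congr ?_
    filter_upwards [hnb, continuousAt_const.eventually_lt hcont.continuousAt h] with t ht h'
    exact (hB t ht (by rintro (h'' | ⟨h'', _⟩) <;> linarith)).symm

theorem flow_eq_step (hv : AffineIndependent ℝ v) {K : ℝ} (hK : Kite v K) {p : Ph}
    (hp : p ∈ Good v) {h : ℝ} (hr : K * |h| < rr v p.1) : flow v h p = step v h p := by
  have hK0 : 0 < K := lt_of_lt_of_le one_pos hK.1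
  have h1 : |h| < rr v p.1 / K := by rw [lt_div_iff₀ hK0]; linarith
  obtain ⟨η, hη1, hη2⟩ := exists_between h1
  have hη : 0 < η := lt_of_le_of_lt (abs_nonneg h) hη1
  have hr' : K * η < rr v p.1 := by rw [lt_div_iff₀ hK0] at hη2; linarith
  have hPM := good_sub_PM hv hp
  exact traj_unique hv (γ := fun t => flow v t p) (γ' := fun t => step v t p) (τ₀ := 0)
    (fun τ _ => isTraj_flow hp τ) (step_traj hv hK hPM hη hr') ⟨by linarith, hη⟩
    (by rw [flow_zero, step_zero hv hPM]) (abs_lt.1 hη1)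

end Vale.Agent.P099
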