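import Vale.Agent.P099.Core

open MeasureTheory Set Filter Topology
open scoped ComplexConjugate

namespace Vale.Agent.P099

variable {v : Fin 3 → ℂ}

theorem mu_eq : mu v = (volume (table v))⁻¹ • mQ v := rfl

theorem isProb_mu (hv : AffineIndependent ℝ v) : IsProbabilityMeasure (mu v) := by
  constructor
  rw [mu_eq, Measure.smul_apply, mQ_univ, smul_eq_mul]
  exact ENNReal.inv_mul_cancel (volume_table_ne_zero hv) volume_table_ne_top

theorem mu_ac : mu v ≪ mQ v := by
  rw [mu_eq]; exact Measure.smul_absolutelyContinuous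

theorem mQ_ac : mQ v ≪ mu v := by
  rw [mu_eq]
  exact Measure.absolutelyContinuous_smul (ENNReal.inv_ne_zero.2 volume_table_ne_top)

theorem mp_flow_mu (hv : AffineIndependent ℝ v) (t : ℝ) :
    MeasurePreserving (flow v t) (mu v) (mu v) := by
  rw [mu_eq]
  exact (mp_flow hv t).smul_measure _

theorem bd_indicator {X : Type} [MeasurableSpace X] {A : Set X} (hA : MeasurableSet A) :
    Bd (A.indicator (1 : X → ℝ)) := by
  refine ⟨measurable_const.indicator hA, 1, fun w => ?_⟩
  by_cases h : w ∈ A <;> simp [h]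

theorem ind_inv {X : Type} [MeasurableSpace X] {m : Measure X} {A : Set X} {T : X → X}
    (h : m (symmDiff (T ⁻¹' A) A) = 0) :
    ∀ᵐ w ∂m, A.indicator (1 : X → ℝ) (T w) = A.indicator 1 w := by
  have : ∀ᵐ w ∂m, w ∉ symmDiff (T ⁻¹' A) A := measure_eq_zero_iff_ae_notMem.1 h
  filter_upwards [this] with w hw
  rw [mem_symmDiff] at hw
  by_cases h1 : w ∈ A <;> by_cases h2 : T w ∈ A <;> simp_all

/-- an invariant bounded function on the product does not depend on the first variable -/
theorem indep_fst (hv : AffineIndependent ℝ v) (hirr : ¬ RationalTriangle v) {F : Ph × Ph → ℝ}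
    (hF : Bd F)
    (h : ∀ t, ∀ᵐ w ∂((mu v).prod (mu v)), F (flow v t w.1, flow v t w.2) = F w) :
    ∃ c : Ph → ℝ, Measurable c ∧ ∀ᵐ w ∂((mu v).prod (mu v)), F w = c w.2 := by
  haveI := isProb_mu hv
  have hinv : ∀ t, ∀ᵐ w ∂((mQ v).prod (mu v)), F (flow v t w.1, flow v t w.2) = F w := fun t =>
    (mQ_ac.prod Measure.AbsolutelyContinuous.rfl).ae_le (h t)
  obtain ⟨c, hc, hae⟩ := tsm_limit (mQ v) (mu v) (measurable_flow2 hv) (mp_flow_mu hv)
    (flow_add hv) hF fun κ hκ hcs => by
      have hκ' : Continuous (deriv κ) := hκ.continuous_deriv (by norm_num)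
      exact core (mu v) hv hirr (hF.tsm (measurable_flow2 hv) hκ.continuous hcs)
        (hF.tsm (measurable_flow2 hv) hκ' hcs.deriv)
        (tsm_dv (mQ v) (mu v) (measurable_flow2 hv) (mp_flow_mu hv) (flow_add hv)
          (measurable_flow hv) hF hinv hκ hcs)
        (tsm_skew (mu v) (measurable_flow2 hv) (mp_flow_mu hv) (flow_add hv) hF hκ hcs)
  exact ⟨c, hc, (mu_ac.prod Measure.AbsolutelyContinuous.rfl).ae_le hae⟩

theorem weak_mixing (hv : AffineIndependent ℝ v) (hirr : ¬ RationalTriangle v) :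
    FlowErgodic (fun t => Prod.map (flow v t) (flow v t)) ((mu v).prod (mu v)) := by
  haveI := isProb_mu hv
  intro A hA h
  refine zero_one_of_both (mu v) hA
    (indep_fst hv hirr (bd_indicator hA) fun t => ind_inv (h t)) ?_
  refine indep_fst hv hirr (F := fun w => A.indicator (1 : Ph × Ph → ℝ) w.swap)
    ((bd_indicator hA).comp measurable_swap) fun t => ?_
  exact Measure.measurePreserving_swap.quasiMeasurePreserving.ae (ind_inv (h t))

theorem ergodic (hv : AffineIndependent ℝ v) (hirr : ¬ RationalTriangle v) :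
    FlowErgodic (flow v) (mu v) := by
  haveI := isProb_mu hv
  intro A hA h
  have hinv : ∀ t, ∀ᵐ p ∂(mQ v), A.indicator (1 : Ph → ℝ) (flow v t p) = A.indicator 1 p :=
    fun t => mQ_ac.ae_le (ind_inv (h t))
  obtain ⟨c, -, hc⟩ := core (Measure.dirac ()) hv hirr
    (F := fun w : Ph × Unit => A.indicator (1 : Ph → ℝ) w.1) (F' := fun _ => 0)
    ((bd_indicator hA).comp measurable_fst) (Bd.const 0)
    ⟨0, 1, one_pos, fun t _ => by
      have := (Measure.quasiMeasurePreserving_fst (μ := mQ v) (ν := Measure.dirac ())).ae (hinv t)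
      filter_upwards [this] with w hw _
      simp [hw]⟩
    (fun p p' => by simp)
  have h2 : ∀ᵐ p ∂(mQ v), A.indicator (1 : Ph → ℝ) p = c () := by
    have := Measure.ae_ae_of_ae_prod hc
    filter_upwards [this] with p hp
    simpa using hp
  have h3 : ∀ᵐ p ∂(mu v), A.indicator (1 : Ph → ℝ) p = c () := mu_ac.ae_le h2
  by_cases hc0 : c () = 0
  · left
    rw [measure_eq_zero_iff_ae_notMem]
    filter_upwards [h3] with p hp hpA
    simp [hpA, hc0] at hp
  · right
    rw [← prob_compl_eq_zero_iff hA, measure_eq_zero_iff_ae_notMem]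
    filter_upwards [h3] with p hp hpA
    rw [indicator_of_notMem hpA] at hp
    exact hc0 hp.symm

theorem ae_traj (hv : AffineIndependent ℝ v) :
    ∀ᵐ p ∂(mu v), ∃! γ, IsTraj v γ ∧ γ 0 = p := by
  filter_upwards [mu_ac.ae_le (ae_good hv)] with p hp using existsUnique_of_good hv hp

end Vale.Agent.P099
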