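import Vale.Agent.P099.Meas

open MeasureTheory Set Filter Topology
open scoped ComplexConjugate

namespace Vale.Agent.P099

variable {v : Fin 3 → ℂ} {Z : Type} [MeasurableSpace Z] (ν : Measure Z) [IsProbabilityMeasure ν]

omit [MeasurableSpace Z] in
theorem Md0.md_def (n : ℤ) (f : Ph × Z → ℝ) (q : ℂ × Z) : md n f q =
    ∫ θ : UnitAddCircle, fourier (-n) θ * (f ((q.1, θ), q.2) : ℂ) ∂AddCircle.haarAddCircle := rfl

theorem Md0.norm_fourier (n : ℤ) (θ : UnitAddCircle) : ‖fourier n θ‖ = 1 := Circle.norm_coe _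

theorem Md0.bd_slice {f : Ph × Z → ℝ} (hf : Bd f) (q : ℂ × Z) :
    Bd fun θ : UnitAddCircle => f ((q.1, θ), q.2) := hf.comp (by fun_prop)

theorem Md0.int_slice {f : Ph × Z → ℝ} (hf : Bd f) (n : ℤ) (q : ℂ × Z) :
    Integrable (fun θ : UnitAddCircle => fourier n θ * (f ((q.1, θ), q.2) : ℂ))
      AddCircle.haarAddCircle :=
  ((Md0.bd_slice hf q).integrable _).ofReal.fourier_smul n

theorem measurable_md {f : Ph × Z → ℝ} (hf : Bd f) (n : ℤ) : Measurable (md n f) := by
  have h1 : Measurable fun p : (ℂ × Z) × UnitAddCircle => f ((p.1.1, p.2), p.1.2) :=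
    hf.1.comp (by fun_prop)
  have h2 : Measurable fun p : (ℂ × Z) × UnitAddCircle => fourier (-n) p.2 :=
    (map_continuous (fourier (-n))).measurable.comp measurable_snd
  have h3 : Measurable fun p : (ℂ × Z) × UnitAddCircle =>
      fourier (-n) p.2 * (f ((p.1.1, p.2), p.1.2) : ℂ) :=
    h2.mul (Complex.measurable_ofReal.comp h1)
  exact (h3.stronglyMeasurable.integral_prod_right' (ν := AddCircle.haarAddCircle)).measurable

omit [MeasurableSpace Z] in
theorem norm_md_le {f : Ph × Z → ℝ} {C : ℝ} (hC : ∀ w, |f w| ≤ C) (n : ℤ) (q : ℂ × Z) :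
    ‖md n f q‖ ≤ C := by
  rw [Md0.md_def]
  refine (norm_integral_le_of_norm_le_const (C := C) (Eventually.of_forall fun θ => ?_)).trans
    (by simp)
  rw [norm_mul, Md0.norm_fourier, one_mul, Complex.norm_real, Real.norm_eq_abs]
  exact hC _

theorem md_add {f g : Ph × Z → ℝ} (hf : Bd f) (hg : Bd g) (n : ℤ) (q : ℂ × Z) :
    md n (fun w => f w + g w) q = md n f q + md n g q := by
  rw [Md0.md_def, Md0.md_def, Md0.md_def,
    ← integral_add (Md0.int_slice hf _ q) (Md0.int_slice hg _ q)]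
  refine integral_congr_ae (Eventually.of_forall fun θ => ?_)
  push_cast
  ring

theorem md_sub {f g : Ph × Z → ℝ} (hf : Bd f) (hg : Bd g) (n : ℤ) (q : ℂ × Z) :
    md n (fun w => f w - g w) q = md n f q - md n g q := by
  rw [Md0.md_def, Md0.md_def, Md0.md_def,
    ← integral_sub (Md0.int_slice hf _ q) (Md0.int_slice hg _ q)]
  refine integral_congr_ae (Eventually.of_forall fun θ => ?_)
  push_cast
  ring

omit [MeasurableSpace Z] in
theorem md_const_mul (c : ℝ) (f : Ph × Z → ℝ) (n : ℤ) (q : ℂ × Z) :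
    md n (fun w => c * f w) q = c * md n f q := by
  rw [Md0.md_def, Md0.md_def, ← integral_const_mul]
  refine integral_congr_ae (Eventually.of_forall fun θ => ?_)
  push_cast
  ring

theorem md_sum {ι : Type} (s : Finset ι) {f : ι → Ph × Z → ℝ} (hf : ∀ j ∈ s, Bd (f j)) (n : ℤ)
    (q : ℂ × Z) : md n (fun w => ∑ j ∈ s, f j w) q = ∑ j ∈ s, md n (f j) q := by
  simp only [Md0.md_def]
  rw [← integral_finsetSum _ fun j hj => Md0.int_slice (hf j hj) _ q]
  refine integral_congr_ae (Eventually.of_forall fun θ => ?_)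
  push_cast
  rw [Finset.mul_sum]

end Vale.Agent.P099
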