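import Vale.Agent.P099.Meas0

open MeasureTheory Set Filter Topology
open scoped ComplexConjugate

namespace Vale.Agent.P099

variable {v : Fin 3 → ℂ}

instance : SFinite m0 := by unfold m0; infer_instance

theorem meas_fin (v : Fin 3 → ℂ) : IsFiniteMeasure (volume.restrict (table v)) :=
  isFiniteMeasure_restrict.2 volume_table_ne_top

instance (v : Fin 3 → ℂ) : IsFiniteMeasure (mQ v) := by
  unfold mQ
  have := meas_fin v
  infer_instance

theorem mQ_eq : mQ v = m0.restrict {p | p.1 ∈ table v} := by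
  unfold mQ m0
  rw [Measure.restrict_prod_eq_prod_univ]
  congr 1
  ext p; simp

theorem mQ_univ : mQ v univ = volume (table v) := by
  unfold mQ
  rw [← univ_prod_univ, Measure.prod_prod]
  simp

theorem ae_table : ∀ᵐ p ∂(mQ v), p.1 ∈ table v := by
  rw [mQ_eq]
  exact ae_restrict_mem (measurable_fst isOpen_table.measurableSet)

theorem ae_lam_ne (hv : AffineIndependent ℝ v) : ∀ᵐ p ∂m0, ∀ i, lam v i p.1 ≠ 0 := by
  rw [ae_all_iff]
  intro i
  have hc : ∀ (c : ℝ) (x y : ℂ), lam v i (c • (x - y)) - lam v i 0 = c * (lam v i x - lam v i y) := by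
    intro c x y
    rw [lam_sub, lam_sub, sub_zero]
    simp [ncp]; ring
  let S : AffineSubspace ℝ ℂ :=
    { carrier := {x | lam v i x = 0}
      smul_vsub_vadd_mem' := by
        intro c p₁ p₂ p₃ h1 h2 h3
        simp only [mem_setOf_eq] at h1 h2 h3 ⊢
        have e : c • (p₁ -ᵥ p₂) +ᵥ p₃ = p₃ + c • (p₁ - p₂) := by
          simp only [vsub_eq_sub, vadd_eq_add]; ring
        rw [e, lam_add_smul, ← lam_sub, h1, h2, h3]; ring }
  have hS : S ≠ ⊤ := by
    intro h
    have h1 : v i ∈ S := by rw [h]; trivial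
    have h2 : lam v i (v i) = 0 := h1
    exact (lam_self_pos hv i).ne' h2
  have h0 : (volume : Measure ℂ) {x | lam v i x = 0} = 0 :=
    Measure.addHaar_affineSubspace volume S hS
  rw [ae_iff]
  have e : {a : Ph | ¬lam v i a.1 ≠ 0} = {x | lam v i x = 0} ×ˢ (univ : Set UnitAddCircle) := by
    ext p; simp
  rw [e]
  unfold m0
  rw [Measure.prod_prod, h0, zero_mul]

theorem mQ_rr_le (s : ℝ) : mQ v {p | rr v p.1 ≤ s} ≤ ENNReal.ofReal (12 * s ^ 2) := by
  have hsub : {p : Ph | rr v p.1 ≤ s} ⊆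
      ⋃ k : Fin 3, (Metric.closedBall (v k) s) ×ˢ (univ : Set UnitAddCircle) := by
    intro p hp
    obtain ⟨k, hk⟩ := rr_eq (v := v) p.1
    refine mem_iUnion.2 ⟨k, ?_, mem_univ _⟩
    rw [mem_closedBall_iff_norm, ← hk]
    exact hp
  have h1 : ∀ k : Fin 3, mQ v ((Metric.closedBall (v k) s) ×ˢ (univ : Set UnitAddCircle)) ≤
      ENNReal.ofReal (4 * s ^ 2) := by
    intro k
    unfold mQ
    rw [Measure.prod_prod, measure_univ, mul_one]
    refine (Measure.restrict_apply_le _ _).trans ?_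
    rw [Complex.volume_closedBall]
    rcases le_or_gt 0 s with hs | hs
    · rw [← ENNReal.ofReal_pow hs, ← ENNReal.ofReal_coe_nnreal,
        ← ENNReal.ofReal_mul (by positivity)]
      refine ENNReal.ofReal_le_ofReal ?_
      have := Real.pi_le_four
      simp only [NNReal.coe_real_pi]
      nlinarith [sq_nonneg s]
    · rw [ENNReal.ofReal_of_nonpos hs.le]; simp
  calc mQ v {p | rr v p.1 ≤ s}
      ≤ ∑ k : Fin 3, mQ v ((Metric.closedBall (v k) s) ×ˢ (univ : Set UnitAddCircle)) :=
        (measure_mono hsub).trans (measure_iUnion_fintype_le _ _)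
    _ ≤ ∑ _k : Fin 3, ENNReal.ofReal (4 * s ^ 2) := Finset.sum_le_sum fun k _ => h1 k
    _ = ENNReal.ofReal (12 * s ^ 2) := by
        rw [← ENNReal.ofReal_sum_of_nonneg (fun _ _ => by positivity)]
        congr 1
        simp; ring

section
variable {Z : Type} [MeasurableSpace Z] (ν : Measure Z) [IsProbabilityMeasure ν]

instance (v : Fin 3 → ℂ) : IsFiniteMeasure (mW v ν) := by unfold mW; infer_instance

instance (v : Fin 3 → ℂ) : IsFiniteMeasure (mB v ν) := by
  unfold mB
  have := meas_fin v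
  infer_instance

instance : SFinite (mW0 ν) := by unfold mW0; infer_instance

theorem mW_eq : mW v ν = (mW0 ν).restrict {w | w.1.1 ∈ table v} := by
  unfold mW mW0
  rw [mQ_eq, Measure.restrict_prod_eq_prod_univ]
  congr 1
  ext p; simp

theorem mp_mirW (hv : AffineIndependent ℝ v) (i : Fin 3) :
    MeasurePreserving (fun w : Ph × Z => (mirP v i w.1, w.2)) (mW0 ν) (mW0 ν) := by
  exact (mp_mirP hv i).prod (MeasurePreserving.id ν)

theorem mp_freeW (h : ℝ) :
    MeasurePreserving (fun w : Ph × Z => (free h w.1, w.2)) (mW0 ν) (mW0 ν) := by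
  exact (mp_free h).prod (MeasurePreserving.id ν)

end

theorem Bd.integrable {X : Type} [MeasurableSpace X] {f : X → ℝ} (hf : Bd f) (m : Measure X)
    [IsFiniteMeasure m] : Integrable f m := by
  obtain ⟨hm, C, hC⟩ := hf
  exact Integrable.of_bound hm.aestronglyMeasurable C (Eventually.of_forall hC)

theorem Bd.add {X : Type} [MeasurableSpace X] {f g : X → ℝ} (hf : Bd f) (hg : Bd g) :
    Bd (fun w => f w + g w) := by
  obtain ⟨hm, C, hC⟩ := hf
  obtain ⟨hm', D, hD⟩ := hg
  exact ⟨hm.add hm', C + D, fun w => (abs_add_le _ _).trans (add_le_add (hC w) (hD w))⟩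

theorem Bd.sub {X : Type} [MeasurableSpace X] {f g : X → ℝ} (hf : Bd f) (hg : Bd g) :
    Bd (fun w => f w - g w) := by
  obtain ⟨hm, C, hC⟩ := hf
  obtain ⟨hm', D, hD⟩ := hg
  exact ⟨hm.sub hm', C + D, fun w => (abs_sub _ _).trans (add_le_add (hC w) (hD w))⟩

theorem Bd.mul {X : Type} [MeasurableSpace X] {f g : X → ℝ} (hf : Bd f) (hg : Bd g) :
    Bd (fun w => f w * g w) := by
  obtain ⟨hm, C, hC⟩ := hf
  obtain ⟨hm', D, hD⟩ := hg
  refine ⟨hm.mul hm', C * D, fun w => ?_⟩
  rw [abs_mul]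
  exact mul_le_mul (hC w) (hD w) (abs_nonneg _) ((abs_nonneg _).trans (hC w))

theorem Bd.const {X : Type} [MeasurableSpace X] (c : ℝ) : Bd (fun _ : X => c) := by
  exact ⟨measurable_const, |c|, fun _ => le_rfl⟩

theorem Bd.abs {X : Type} [MeasurableSpace X] {f : X → ℝ} (hf : Bd f) : Bd (fun w => |f w|) := by
  obtain ⟨hm, C, hC⟩ := hf
  exact ⟨continuous_abs.measurable.comp hm, C, fun w => by rw [abs_abs]; exact hC w⟩

theorem Bd.comp {X Y : Type} [MeasurableSpace X] [MeasurableSpace Y] {f : X → ℝ} (hf : Bd f)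
    {g : Y → X} (hg : Measurable g) : Bd (fun w => f (g w)) := by
  obtain ⟨hm, C, hC⟩ := hf
  exact ⟨hm.comp hg, C, fun w => hC _⟩

theorem Bd.sum {X : Type} [MeasurableSpace X] {ι : Type} (s : Finset ι) {f : ι → X → ℝ}
    (hf : ∀ j ∈ s, Bd (f j)) : Bd (fun w => ∑ j ∈ s, f j w) := by
  classical
  induction s using Finset.induction_on with
  | empty => simpa using Bd.const (X := X) 0
  | insert a s ha ih =>
    simp only [Finset.sum_insert ha]
    exact (hf a (Finset.mem_insert_self _ _)).add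
      (ih fun j hj => hf j (Finset.mem_insert_of_mem hj))

theorem meas_bd_re {Z : Type} [MeasurableSpace Z] : Bd (fun w : Ph × Z => (vel w.1.2).re) :=
  ⟨(Complex.continuous_re.comp continuous_vel).measurable.comp
    (measurable_snd.comp measurable_fst), 1,
    fun w => (Complex.abs_re_le_norm _).trans (norm_vel _).le⟩

theorem meas_bd_im {Z : Type} [MeasurableSpace Z] : Bd (fun w : Ph × Z => (vel w.1.2).im) :=
  ⟨(Complex.continuous_im.comp continuous_vel).measurable.comp
    (measurable_snd.comp measurable_fst), 1,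
    fun w => (Complex.abs_im_le_norm _).trans (norm_vel _).le⟩

theorem Bd.xx {Z : Type} [MeasurableSpace Z] {f g : Ph × Z → ℝ} (hf : Bd f) (hg : Bd g) :
    Bd (XX f g) := by
  exact (meas_bd_re.mul hf).add (meas_bd_im.mul hg)

theorem Bd.yy {Z : Type} [MeasurableSpace Z] {f g : Ph × Z → ℝ} (hf : Bd f) (hg : Bd g) :
    Bd (YY f g) := by
  have h := (meas_bd_re.mul hg).sub (meas_bd_im.mul hf)
  have e : YY f g = fun w => (vel w.1.2).re * g w - (vel w.1.2).im * f w := by
    funext w; unfold YY; ring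
  rw [e]; exact h

end Vale.Agent.P099
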