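import Vale.Agent.P099.Geo3

open MeasureTheory Set Filter Topology
open scoped ComplexConjugate

namespace Vale.Agent.P099

variable {v : Fin 3 → ℂ}

theorem measurable_mirP (i : Fin 3) : Measurable (mirP v i) := by
  have h : Continuous (mirP v i) := by
    unfold mirP
    have := continuous_mir (v := v) i
    fun_prop
  exact h.measurable

theorem meas0_cont_free : Continuous (fun q : ℝ × Ph => free q.1 q.2) := by
  unfold free
  refine Continuous.prodMk ?_ (continuous_snd.comp continuous_snd)
  exact (continuous_fst.comp continuous_snd).add
    (continuous_fst.smul (continuous_vel.comp (continuous_snd.comp continuous_snd)))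

theorem measurable_free2 : Measurable (fun q : ℝ × Ph => free q.1 q.2) := by
  exact meas0_cont_free.measurable

theorem meas0_cont_ncp (i : Fin 3) : Continuous (fun p : Ph => ncp v i (vel p.2)) := by
  unfold ncp
  exact Complex.continuous_re.comp ((continuous_vel.comp continuous_snd).mul continuous_const)

theorem meas0_out (i : Fin 3) : MeasurableSet {p : Ph | Out v i p} := by
  have h1 : Measurable (fun p : Ph => lam v i p.1) :=
    ((continuous_lam i).comp continuous_fst).measurable
  have h2 : Measurable (fun p : Ph => ncp v i (vel p.2)) := (meas0_cont_ncp i).measurable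
  have e : {p : Ph | Out v i p} = {p : Ph | lam v i p.1 < 0} ∪
      ({p : Ph | lam v i p.1 = 0} ∩ {p : Ph | ncp v i (vel p.2) < 0}) := by
    ext p; simp [Out]
  rw [e]
  exact (measurableSet_lt h1 measurable_const).union
    ((measurableSet_eq_fun h1 measurable_const).inter (measurableSet_lt h2 measurable_const))

theorem measurable_fold : Measurable (fold v) := by
  classical
  unfold fold
  refine Measurable.ite (meas0_out 0) (measurable_mirP 0) ?_
  refine Measurable.ite (meas0_out 1) (measurable_mirP 1) ?_
  exact Measurable.ite (meas0_out 2) (measurable_mirP 2) measurable_id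

theorem measurable_step2 : Measurable (fun q : ℝ × Ph => step v q.1 q.2) := by
  unfold step
  exact measurable_fold.comp measurable_free2

theorem measurable_step (h : ℝ) : Measurable (step v h) := by
  have h1 : Continuous (free h) := by
    have := continuous_vel
    unfold free
    fun_prop
  have h2 : Measurable (fold v ∘ free h) := measurable_fold.comp h1.measurable
  exact h2

theorem meas0_seg (a b : ℂ) : MeasurableSet (openSegment ℝ a b) := by
  by_cases h : a = b
  · subst h
    rw [openSegment_same]
    exact measurableSet_singleton a
  · rw [openSegment_eq_image']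
    refine MeasurableSet.image_of_continuousOn_injOn measurableSet_Ioo ?_ ?_
    · exact (continuous_const.add (continuous_id.smul continuous_const)).continuousOn
    · intro s _ t _ hst
      have h1 : s • (b - a) = t • (b - a) := add_left_cancel hst
      exact smul_left_injective ℝ (sub_ne_zero.2 (Ne.symm h)) h1

theorem measurableSet_PM : MeasurableSet (PM v) := by
  have e : PM v = (Prod.fst ⁻¹' table v) ∪
      ⋃ i, ((Prod.fst ⁻¹' side v i) ∩ {p : Ph | 0 < ncp v i (vel p.2)}) := by
    ext p; simp [PM]
  rw [e]
  refine (measurable_fst isOpen_table.measurableSet).union (MeasurableSet.iUnion fun i => ?_)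
  exact (measurable_fst (meas0_seg _ _)).inter
    (measurableSet_lt measurable_const (meas0_cont_ncp i).measurable)

theorem mp_mir (hv : AffineIndependent ℝ v) (i : Fin 3) :
    MeasurePreserving (mir v i) volume volume := by
  let L : ℂ →ₗ[ℝ] ℂ :=
    { toFun := fun x => x - (2 * ncp v i x) • nrm v i
      map_add' := by
        intro x y
        have : ncp v i (x + y) = ncp v i x + ncp v i y := by
          simp [ncp, add_mul]
        rw [this, mul_add, add_smul]; ring
      map_smul' := by
        intro t x
        have : ncp v i (t • x) = t * ncp v i x := by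
          simp [ncp]; ring
        rw [this, RingHom.id_apply, smul_sub, smul_smul]
        congr 2; ring }
  have hL : ∀ x, L x = mir v i x - mir v i 0 := by
    intro x
    have h1 := lam_sub (v := v) i x 0
    rw [sub_zero] at h1
    show x - (2 * ncp v i x) • nrm v i = _
    unfold mir
    rw [← h1, mul_sub, sub_smul]; ring
  have hn : ∀ x, ‖L x‖ = ‖x‖ := by
    intro x
    rw [hL, norm_mir_sub_mir hv, sub_zero]
  let LI : ℂ →ₗᵢ[ℝ] ℂ := ⟨L, hn⟩
  let LE : ℂ ≃ₗᵢ[ℝ] ℂ := LI.toLinearIsometryEquiv rfl
  have h1 : MeasurePreserving LE volume volume := LE.measurePreserving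
  have h2 := (measurePreserving_add_right (volume : Measure ℂ) (mir v i 0)).comp h1
  have e : mir v i = (fun x => x + mir v i 0) ∘ LE := by
    funext x
    have : LE x = L x := rfl
    simp only [Function.comp, this, hL]
    ring
  rw [e]
  exact h2

theorem mp_mirP (hv : AffineIndependent ℝ v) (i : Fin 3) : MeasurePreserving (mirP v i) m0 m0 := by
  have h1 := (mp_mir hv i).prod
    (Measure.measurePreserving_sub_left (AddCircle.haarAddCircle : Measure UnitAddCircle) (bet v i))
  exact h1

theorem mp_free (h : ℝ) : MeasurePreserving (free h) m0 m0 := by
  have h1 : MeasurePreserving (fun q : UnitAddCircle × ℂ => (q.1, q.2 + h • vel q.1))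
      ((AddCircle.haarAddCircle : Measure UnitAddCircle).prod (volume : Measure ℂ))
      ((AddCircle.haarAddCircle : Measure UnitAddCircle).prod (volume : Measure ℂ)) := by
    refine MeasurePreserving.skew_product (f := id) (g := fun θ x => x + h • vel θ)
      (MeasurePreserving.id _) ?_ ?_
    · have : Continuous (fun q : UnitAddCircle × ℂ => q.2 + h • vel q.1) := by
        have := continuous_vel
        fun_prop
      exact this.measurable
    · exact Eventually.of_forall fun θ => (measurePreserving_add_right volume _).map_eq
  have h2 := (Measure.measurePreserving_swap.comp h1).comp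
    (Measure.measurePreserving_swap (μ := (volume : Measure ℂ))
      (ν := (AddCircle.haarAddCircle : Measure UnitAddCircle)))
  exact h2

end Vale.Agent.P099
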