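import Vale.Agent.P099.Stp
import Vale.Agent.P099.Der
import Vale.Agent.P099.Cut
import Vale.Agent.P099.Cv2
import Vale.Agent.P099.Cv3

open MeasureTheory Set Filter Topology
open scoped ComplexConjugate

namespace Vale.Agent.P099

variable {v : Fin 3 → ℂ} {Z : Type} [MeasurableSpace Z] (ν : Measure Z) [IsProbabilityMeasure ν]

/-- residual bound for one mollification -/
theorem resid (hv : AffineIndependent ℝ v) {K : ℝ} (hK : Kite v K) {σ c : ℝ} (hσ : 0 < σ)
    {k : ℂ → ℝ} (hk : IsKer σ c k) {f f' g : Ph × Z → ℝ} (hf : Bd f) (hf' : Bd f') (hg : Bd g)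
    (hg0 : ∀ w, 0 ≤ g w) (h0 : ∀ w, rr v w.1.1 < (K + 1) * σ → ext v f w = 0)
    (h0' : ∀ w, rr v w.1.1 < (K + 1) * σ → ext v f' w = 0)
    (h : Dv (mW v ν) univ (fun h w => (flow v h w.1, w.2)) f f' g) :
    ∀ᵐ w ∂(mW v ν), |XX (cv (d1 k) (ext v f)) (cv (d2 k) (ext v f)) w - cv k (ext v f') w| ≤
      cv k (ext v g) w := by
  obtain ⟨k0, k1, k2, -, -, -⟩ := hk.cont
  have hd := dv_ext ν hv hK h σ hσ
  have hder := der_cv ν hk (Bd.ext (v := v) hf) (Bd.ext (v := v) hf') (Bd.ext (v := v) hg)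
    {y | ∃ x ∈ table v, K * σ < rr v x ∧ ‖x - y‖ < σ} hd
  have hm : MeasurableSet {w : Ph × Z | w.1.1 ∈ table v} :=
    (measurable_fst.comp measurable_fst) isOpen_table.measurableSet
  rw [mW_eq]
  filter_upwards [ae_restrict_of_ae hder, ae_restrict_mem hm] with w hw hwt
  by_cases hr : K * σ < rr v w.1.1
  · exact hw fun y hy => ⟨w.1.1, hwt, hr, hy⟩
  · have hy : ∀ y : ℂ, ‖w.1.1 - y‖ < σ → rr v y < (K + 1) * σ := fun y hy => by
      have := rr_lip (v := v) y w.1.1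
      rw [norm_sub_rev] at this
      push Not at hr
      linarith
    have e1 : cv (d1 k) (ext v f) w = 0 := cv_vanish hk.supp1 fun y h => h0 _ (hy y h)
    have e2 : cv (d2 k) (ext v f) w = 0 := cv_vanish hk.supp2 fun y h => h0 _ (hy y h)
    have e3 : cv k (ext v f') w = 0 := cv_vanish hk.supp fun y h => h0' _ (hy y h)
    simp only [XX, e1, e2, e3, mul_zero, add_zero, sub_zero, abs_zero]
    exact cv_nonneg hk.nonneg (ext_nonneg hg0) w

theorem OneX.int_le {u : Ph × Z → ℝ} (hu : Bd u) {E : Set Ph} (hE : MeasurableSet E) {A : ℝ}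
    (hA : ∀ w, |u w| ≤ A * E.indicator 1 w.1) :
    ∫ w, |u w| ∂(mW v ν) ≤ A * (mQ v).real E := by
  have hm : MeasurableSet (E ×ˢ (univ : Set Z)) := hE.prod MeasurableSet.univ
  have e : ∀ w : Ph × Z, E.indicator (1 : Ph → ℝ) w.1 = (E ×ˢ (univ : Set Z)).indicator 1 w := by
    intro w
    by_cases hw : w.1 ∈ E
    · rw [indicator_of_mem hw, indicator_of_mem (show w ∈ E ×ˢ (univ : Set Z) from ⟨hw, trivial⟩)]
      rfl
    · rw [indicator_of_notMem hw, indicator_of_notMem (fun h => hw h.1)]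
  calc ∫ w, |u w| ∂(mW v ν) ≤ ∫ w, A * (E ×ˢ (univ : Set Z)).indicator 1 w ∂(mW v ν) := by
        refine integral_mono (hu.abs.integrable _) ?_ fun w => ?_
        · exact ((integrable_const (1 : ℝ)).indicator hm).const_mul A
        · simp only [← e]; exact hA w
    _ = A * (mQ v).real E := by
        rw [integral_const_mul, integral_indicator_one hm, mW, measureReal_prod_prod]
        simp

omit [MeasurableSpace Z] in
theorem OneX.abs_yy (a b : Ph × Z → ℝ) (w : Ph × Z) : |YY a b w| ≤ |a w| + |b w| := by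
  have h1 : |(vel w.1.2).im| ≤ 1 := (Complex.abs_im_le_norm _).trans (norm_vel _).le
  have h2 : |(vel w.1.2).re| ≤ 1 := (Complex.abs_re_le_norm _).trans (norm_vel _).le
  unfold YY
  refine (abs_add_le _ _).trans (add_le_add ?_ ?_)
  · rw [abs_mul, abs_neg]; exact mul_le_of_le_one_left (abs_nonneg _) h1
  · rw [abs_mul]; exact mul_le_of_le_one_left (abs_nonneg _) h2

theorem OneX.int_yy {a b : Ph × Z → ℝ} (ha : Bd a) (hb : Bd b) :
    ∫ w, |YY a b w| ∂(mW v ν) ≤ ∫ w, |a w| ∂(mW v ν) + ∫ w, |b w| ∂(mW v ν) := by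
  rw [← integral_add (ha.abs.integrable _) (hb.abs.integrable _)]
  exact integral_mono ((ha.yy hb).abs.integrable _) ((ha.abs.add hb.abs).integrable _)
    fun w => OneX.abs_yy a b w

theorem OneX.dv_cut {F F' : Ph × Z → ℝ} {B T : ℝ} (hT : 0 < T) (hB : ∀ w, |F w| ≤ B)
    (h : Dv (mW v ν) univ (fun h w => (flow v h w.1, w.2)) F F' (fun _ => 0))
    {ψ : Ph → ℝ} {E : Set Ph} (h01 : ∀ p, 0 ≤ ψ p ∧ ψ p ≤ 1)
    (hl : ∀ p h, |h| ≤ T → |ψ (flow v h p) - ψ p| ≤ |h| / T * E.indicator 1 p) :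
    Dv (mW v ν) univ (fun h w => (flow v h w.1, w.2)) (fun w => (1 - ψ w.1) * F w)
      (fun w => (1 - ψ w.1) * F' w) (fun w => B / T * E.indicator 1 w.1) := by
  obtain ⟨C, h₀, hh₀, hC⟩ := h
  refine ⟨C, min h₀ T, lt_min hh₀ hT, fun t ht => ?_⟩
  have ht0 : 0 < t := ht.1
  filter_upwards [hC t ⟨ht.1, ht.2.trans_le (min_le_left _ _)⟩] with w hw _
  have hw := hw trivial
  simp only [mul_zero, zero_add] at hw
  have h1 := hl w.1 t (by rw [abs_of_pos ht0]; exact (ht.2.trans_le (min_le_right _ _)).le)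
  rw [abs_of_pos ht0] at h1
  have e : (1 - ψ (flow v t w.1)) * F (flow v t w.1, w.2) - (1 - ψ w.1) * F w -
      t * ((1 - ψ w.1) * F' w) = (1 - ψ w.1) * (F (flow v t w.1, w.2) - F w - t * F' w) -
      (ψ (flow v t w.1) - ψ w.1) * F (flow v t w.1, w.2) := by ring
  rw [e]
  refine (abs_sub _ _).trans ?_
  rw [abs_mul, abs_mul]
  have h2 : |1 - ψ w.1| ≤ 1 := by
    rw [abs_le]; constructor <;> linarith [(h01 w.1).1, (h01 w.1).2]
  have h3 : |1 - ψ w.1| * |F (flow v t w.1, w.2) - F w - t * F' w| ≤ C * t ^ 2 :=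
    (mul_le_of_le_one_left (abs_nonneg _) h2).trans hw
  have h4 : |ψ (flow v t w.1) - ψ w.1| * |F (flow v t w.1, w.2)| ≤
      (t / T * E.indicator 1 w.1) * B :=
    mul_le_mul h1 (hB _) (abs_nonneg _) ((abs_nonneg _).trans h1)
  have e2 : (t / T * E.indicator 1 w.1) * B = t * (B / T * E.indicator 1 w.1) := by ring
  linarith

/-- one scale -/
theorem one_scale (hv : AffineIndependent ℝ v) {F F' : Ph × Z → ℝ} (hF : Bd F) (hF' : Bd F')
    (h : Dv (mW v ν) univ (fun h w => (flow v h w.1, w.2)) F F' (fun _ => 0)) :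
    ∃ c : ℝ, 0 < c ∧ ∀ ω : ℝ, 0 < ω → ∃ s₀ : ℝ, 0 < s₀ ∧ ∀ s T : ℝ, 0 < s → s < s₀ → s ≤ T →
      ∃ φ φ₁ φ₂ Ψ Ψ₁ Ψ₂ Y₁ Y₂ : Ph × Z → ℝ, Pack v ν F F' φ φ₁ φ₂ Ψ Ψ₁ Ψ₂ ∧ Bd Y₁ ∧ Bd Y₂ ∧
        (∀ w, |Ψ w| ≤ c) ∧
        (∀ᵐ w ∂(mW v ν), |XX φ₁ φ₂ w - Ψ w| ≤ c / T) ∧
        (∫ w, |XX φ₁ φ₂ w - Ψ w| ∂(mW v ν) ≤ c * s) ∧
        (∀ w, YY φ₁ φ₂ w = Y₁ w + Y₂ w) ∧
        (∀ w, |Y₁ w| ≤ c / s) ∧ (∫ w, |Y₁ w| ∂(mW v ν) ≤ ω / s) ∧
        (∀ w, |Y₂ w| ≤ c / s) ∧ (∫ w, |Y₂ w| ∂(mW v ν) ≤ c * T) ∧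
        (∫ w, |φ w - F w| ∂(mW v ν) ≤ ω + c * (s * T)) := by
  obtain ⟨K, hK⟩ := exists_kite hv
  have hK1 : 1 ≤ K := hK.1
  obtain ⟨ck, hck, hker⟩ := exists_ker
  obtain ⟨s₁, hs₁, hvan⟩ := ext_vanish (Z := Z) hv
  obtain ⟨B, hB0, hB, hB'⟩ : ∃ B : ℝ, 0 < B ∧ (∀ w, |F w| ≤ B) ∧ ∀ w, |F' w| ≤ B := by
    obtain ⟨-, B1, h1⟩ := hF
    obtain ⟨-, B2, h2⟩ := hF'
    refine ⟨max 1 (max B1 B2), lt_max_of_lt_left one_pos, fun w => (h1 w).trans ?_,
      fun w => (h2 w).trans ?_⟩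
    · exact le_max_of_le_right (le_max_left _ _)
    · exact le_max_of_le_right (le_max_right _ _)
  set L : ℝ := ck * (K + 1) with hL
  have hL0 : 0 < L := by positivity
  refine ⟨3200 * B * (1 + L), by positivity, fun ω hω => ?_⟩
  have hε : 0 < ω / (1 + 2 * L) := by positivity
  obtain ⟨δ, hδ, happ⟩ := cv_approx (v := v) ν (Bd.ext (v := v) hF) (integrable_ext ν hv hF) _ hε
  refine ⟨min s₁ ((K + 1) * δ), lt_min hs₁ (by positivity), fun s T hs hss hsT => ?_⟩
  have hT : 0 < T := hs.trans_le hsT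
  set σ : ℝ := s / (K + 1) with hσd
  have hσ : 0 < σ := by positivity
  have hσs : (K + 1) * σ = s := by rw [hσd]; field_simp
  have hσδ : σ ≤ δ := by
    rw [hσd, div_le_iff₀ (by positivity)]
    have := hss.trans_le (min_le_right _ _)
    linarith
  have hckσ : ck / σ = L / s := by rw [hσd, hL]; field_simp
  obtain ⟨k, hk⟩ := hker σ hσ
  obtain ⟨k0, k1, k2, i0, i1, i2⟩ := hk.cont
  obtain ⟨ψ, E, hψm, hEm, h01, hone, hzero, hlip, hE⟩ := exists_cut hv s T hs hT
  have hE2 : (mQ v).real E ≤ 400 * (s * T) := by nlinarith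
  have hψ : Bd (fun w : Ph × Z => ψ w.1) :=
    ⟨hψm.comp measurable_fst, 1, fun w => by
      rw [abs_le]; constructor <;> linarith [(h01 w.1).1, (h01 w.1).2]⟩
  have hχ : Bd (fun w : Ph × Z => 1 - ψ w.1) := (Bd.const 1).sub hψ
  have hχ1 : ∀ p, |1 - ψ p| ≤ 1 := fun p => by
    rw [abs_le]; constructor <;> linarith [(h01 p).1, (h01 p).2]
  have hind : ∀ p : Ph, 0 ≤ E.indicator (1 : Ph → ℝ) p ∧ E.indicator (1 : Ph → ℝ) p ≤ 1 := by
    intro p
    by_cases hp : p ∈ E <;> simp [hp]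
  set f : Ph × Z → ℝ := fun w => (1 - ψ w.1) * F w with hf
  set f' : Ph × Z → ℝ := fun w => (1 - ψ w.1) * F' w with hf'
  set g : Ph × Z → ℝ := fun w => B / T * E.indicator 1 w.1 with hg
  set u : Ph × Z → ℝ := fun w => ψ w.1 * F w with hu
  have bf : Bd f := hχ.mul hF
  have bf' : Bd f' := hχ.mul hF'
  have bu : Bd u := hψ.mul hF
  have hg0 : ∀ w, 0 ≤ g w := fun w => mul_nonneg (by positivity) (hind _).1
  have hgB : ∀ w, |g w| ≤ B / T := fun w => by
    rw [abs_of_nonneg (hg0 w)]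
    exact mul_le_of_le_one_right (by positivity) (hind _).2
  have bg : Bd g :=
    ⟨((measurable_const.indicator hEm).comp measurable_fst).const_mul _, B / T, hgB⟩
  have hf'B : ∀ w, |f' w| ≤ B := fun w => by
    simp only [hf']; rw [abs_mul]
    exact (mul_le_of_le_one_left (abs_nonneg _) (hχ1 _)).trans (hB' w)
  have huE : ∀ w, |u w| ≤ B * E.indicator 1 w.1 := fun w => by
    simp only [hu]
    by_cases hp : w.1 ∈ E
    · rw [indicator_of_mem hp, abs_mul, abs_of_nonneg (h01 _).1]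
      simp only [Pi.one_apply, mul_one]
      exact (mul_le_of_le_one_left (abs_nonneg _) (h01 _).2).trans (hB w)
    · rw [hzero _ hp, indicator_of_notMem hp]; simp
  have huB : ∀ w, |u w| ≤ B := fun w =>
    (huE w).trans (mul_le_of_le_one_right hB0.le (hind _).2)
  have hs1 : s ≤ s₁ := (hss.trans_le (min_le_left _ _)).le
  have h0 : ∀ w, rr v w.1.1 < (K + 1) * σ → ext v f w = 0 := by
    rw [hσs]
    exact hvan s hs1 f fun w hw => by simp [hf, hone _ hw]
  have h0' : ∀ w, rr v w.1.1 < (K + 1) * σ → ext v f' w = 0 := by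
    rw [hσs]
    exact hvan s hs1 f' fun w hw => by simp [hf', hone _ hw]
  have hdv := OneX.dv_cut ν hT hB h h01 hlip
  have hres := resid ν hv hK hσ hk bf bf' bg hg0 h0 h0' hdv
  have hlin : Lin ν F F' (ext v f) (ext v f') :=
    Lin.ext ν (Lin.mul ν (Lin.refl ν F F') fun p => 1 - ψ p) bf bf'
  have ef : Bd (ext v f) := Bd.ext bf
  have ef' : Bd (ext v f') := Bd.ext bf'
  have eF : Bd (ext v F) := Bd.ext hF
  have eu : Bd (ext v u) := Bd.ext bu
  have eg : Bd (ext v g) := Bd.ext bg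
  have hsplit : ∀ κ : ℂ → ℝ, Integrable κ → ∀ w,
      cv κ (ext v f) w = cv κ (ext v F) w - cv κ (ext v u) w := by
    intro κ hκ w
    rw [← cv_sub hκ eF eu]
    congr 1
    funext w
    rw [← ext_sub]
    congr 1
    funext w
    simp only [hf, hu]; ring
  have hu_int : ∫ w, |ext v u w| ∂(mW0 ν) ≤ 1600 * B * (s * T) := by
    refine (int_ext_le ν hv bu).trans ?_
    have := OneX.int_le (v := v) ν bu hEm huE
    have h2 : B * (mQ v).real E ≤ B * (400 * (s * T)) := by gcongr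
    linarith
  have hBL : 0 ≤ B * L := by positivity
  have hyb : ∀ G : Ph × Z → ℝ, (∀ w, |G w| ≤ B) → ∀ w,
      |YY (cv (d1 k) (ext v G)) (cv (d2 k) (ext v G)) w| ≤ 3200 * B * (1 + L) / s := by
    intro G hG w
    have a1 := abs_cv_le i1 (abs_ext_le (v := v) hG) w
    have a2 := abs_cv_le i2 (abs_ext_le (v := v) hG) w
    have b1 : (∫ y, |d1 k y|) * (4 * B) ≤ L / s * (4 * B) := by
      rw [← hckσ]; gcongr; exact hk.b1
    have b2 : (∫ y, |d2 k y|) * (4 * B) ≤ L / s * (4 * B) := by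
      rw [← hckσ]; gcongr; exact hk.b2
    refine (OneX.abs_yy _ _ w).trans ((add_le_add (a1.trans b1) (a2.trans b2)).trans ?_)
    have : L / s * (4 * B) + L / s * (4 * B) = 8 * (B * L) / s := by ring
    rw [this]
    exact div_le_div_of_nonneg_right (by nlinarith) hs.le
  refine ⟨cv k (ext v f), cv (d1 k) (ext v f), cv (d2 k) (ext v f), cv k (ext v f'),
    cv (d1 k) (ext v f'), cv (d2 k) (ext v f'),
    YY (cv (d1 k) (ext v F)) (cv (d2 k) (ext v F)),
    fun w => -YY (cv (d1 k) (ext v u)) (cv (d2 k) (ext v u)) w,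
    ⟨nice_cv hk ef, nice_cv hk ef', sym_cv hv hK hσ hk h0, sym_cv hv hK hσ hk h0',
      hlin.cv ν ef ef' k0 i0, hlin.cv ν ef ef' k1 i1, hlin.cv ν ef ef' k2 i2⟩,
    (eF.cv k1 i1).yy (eF.cv k2 i2), ?_, fun w => ?_, ?_, ?_, fun w => ?_, hyb F hB, ?_,
    fun w => ?_, ?_, ?_⟩
  · have := (Bd.const (0 : ℝ)).sub ((eu.cv k1 i1).yy (eu.cv k2 i2))
    simpa using this
  · have := abs_cv_le i0 (abs_ext_le (v := v) hf'B) w
    rw [hk.abs_int] at this
    nlinarith
  · filter_upwards [hres] with w hw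
    have := abs_cv_le i0 (abs_ext_le (v := v) hgB) w
    rw [hk.abs_int] at this
    refine hw.trans ((le_abs_self _).trans (this.trans ?_))
    have e : 1 * (4 * (B / T)) = 4 * B / T := by ring
    rw [e]
    exact div_le_div_of_nonneg_right (by nlinarith) hT.le
  · have h1 : ∫ w, |XX (cv (d1 k) (ext v f)) (cv (d2 k) (ext v f)) w - cv k (ext v f') w|
        ∂(mW v ν) ≤ ∫ w, |cv k (ext v g) w| ∂(mW v ν) := by
      refine integral_mono_ae
        ((((ef.cv k1 i1).xx (ef.cv k2 i2)).sub (ef'.cv k0 i0)).abs.integrable _)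
        ((eg.cv k0 i0).abs.integrable _) ?_
      filter_upwards [hres] with w hw using hw.trans (le_abs_self _)
    have h2 := int_cv_le (v := v) ν k0 i0 eg (integrable_ext ν hv bg)
    rw [hk.abs_int, one_mul] at h2
    have h3 := int_ext_le ν hv bg
    have h4 := OneX.int_le (v := v) ν bg hEm (A := B / T)
      (fun w => by rw [abs_of_nonneg (hg0 w)])
    have h5 : B / T * (mQ v).real E ≤ B / T * (400 * (s * T)) := by gcongr
    have h6 : B / T * (400 * (s * T)) = 400 * B * s := by field_simp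
    have h7 : 0 ≤ B * L * s := by positivity
    have h8 : 0 ≤ B * s := by positivity
    nlinarith
  · simp only [YY, hsplit _ i1, hsplit _ i2]; ring
  · refine (OneX.int_yy ν (eF.cv k1 i1) (eF.cv k2 i2)).trans ?_
    have a1 := happ (d1 k) k1 i1 fun y hy => hk.supp1 y (hσδ.trans hy)
    have a2 := happ (d2 k) k2 i2 fun y hy => hk.supp2 y (hσδ.trans hy)
    rw [hk.z1] at a1
    rw [hk.z2] at a2
    simp only [zero_mul, sub_zero] at a1 a2
    have b1 : ω / (1 + 2 * L) * ∫ y, |d1 k y| ≤ ω / (1 + 2 * L) * (L / s) := by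
      rw [← hckσ]; gcongr; exact hk.b1
    have b2 : ω / (1 + 2 * L) * ∫ y, |d2 k y| ≤ ω / (1 + 2 * L) * (L / s) := by
      rw [← hckσ]; gcongr; exact hk.b2
    refine (add_le_add (a1.trans b1) (a2.trans b2)).trans ?_
    have e : ω / (1 + 2 * L) * (L / s) + ω / (1 + 2 * L) * (L / s) =
        ω / s * (2 * L / (1 + 2 * L)) := by field_simp; ring
    rw [e]
    refine mul_le_of_le_one_right (by positivity) ?_
    rw [div_le_one (by positivity)]; linarith
  · rw [abs_neg]; exact hyb u huB w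
  · simp only [abs_neg]
    refine (OneX.int_yy ν (eu.cv k1 i1) (eu.cv k2 i2)).trans ?_
    have a1 := int_cv_le (v := v) ν k1 i1 eu (integrable_ext ν hv bu)
    have a2 := int_cv_le (v := v) ν k2 i2 eu (integrable_ext ν hv bu)
    have hn : 0 ≤ ∫ w, |ext v u w| ∂(mW0 ν) := integral_nonneg fun w => abs_nonneg _
    have b1 : (∫ y, |d1 k y|) * ∫ w, |ext v u w| ∂(mW0 ν) ≤ L / s * (1600 * B * (s * T)) := by
      rw [← hckσ]; exact mul_le_mul hk.b1 hu_int hn (by positivity)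
    have b2 : (∫ y, |d2 k y|) * ∫ w, |ext v u w| ∂(mW0 ν) ≤ L / s * (1600 * B * (s * T)) := by
      rw [← hckσ]; exact mul_le_mul hk.b2 hu_int hn (by positivity)
    refine (add_le_add (a1.trans b1) (a2.trans b2)).trans ?_
    have e : L / s * (1600 * B * (s * T)) = 1600 * (B * L) * T := by field_simp
    rw [e]
    have h8 : 0 ≤ B * T := by positivity
    nlinarith
  · have a0 := happ k k0 i0 fun y hy => hk.supp y (hσδ.trans hy)
    rw [hk.int, hk.abs_int] at a0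
    simp only [one_mul, mul_one] at a0
    have a1 := int_cv_le (v := v) ν k0 i0 eu (integrable_ext ν hv bu)
    rw [hk.abs_int, one_mul] at a1
    have hm : MeasurableSet {w : Ph × Z | w.1.1 ∈ table v} :=
      (measurable_fst.comp measurable_fst) isOpen_table.measurableSet
    have hae : ∀ᵐ w ∂(mW v ν), w.1.1 ∈ table v := by
      rw [mW_eq]; exact ae_restrict_mem hm
    have h1 : ∫ w, |cv k (ext v f) w - F w| ∂(mW v ν) ≤
        ∫ w, (|cv k (ext v F) w - ext v F w| + |cv k (ext v u) w|) ∂(mW v ν) := by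
      refine integral_mono_ae (((ef.cv k0 i0).sub hF).abs.integrable _)
        (((((eF.cv k0 i0).sub eF).abs).add (eu.cv k0 i0).abs).integrable _) ?_
      filter_upwards [hae] with w hw
      rw [hsplit _ i0, ext_of_table hv F hw]
      have e : cv k (ext v F) w - cv k (ext v u) w - F w =
          (cv k (ext v F) w - F w) - cv k (ext v u) w := by ring
      rw [e]
      exact abs_sub _ _
    rw [integral_add ((((eF.cv k0 i0).sub eF).abs).integrable _)
      ((eu.cv k0 i0).abs.integrable _)] at h1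
    have h2 : ω / (1 + 2 * L) ≤ ω := div_le_self hω.le (by linarith)
    have h7 : 0 ≤ B * L * (s * T) := by positivity
    have h8 : 0 ≤ B * (s * T) := by positivity
    nlinarith

end Vale.Agent.P099
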