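import Vale.Agent.P099.Jac
import Vale.Agent.P099.Md

open MeasureTheory Set Filter Topology
open scoped ComplexConjugate

namespace Vale.Agent.P099

variable {v : Fin 3 → ℂ} {Z : Type} [MeasurableSpace Z] (ν : Measure Z) [IsProbabilityMeasure ν]

/-- bounded measurable complex functions -/
def BdC {X : Type} [MeasurableSpace X] (f : X → ℂ) : Prop := Measurable f ∧ ∃ C, ∀ w, ‖f w‖ ≤ C

section BdCs
variable {X : Type} [MeasurableSpace X] {f g : X → ℂ}

theorem BdC.integrable (hf : BdC f) (m : Measure X) [IsFiniteMeasure m] : Integrable f m := by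
  obtain ⟨h1, C, hC⟩ := hf
  exact Integrable.of_bound h1.aestronglyMeasurable C (Eventually.of_forall hC)

theorem BdC.add (hf : BdC f) (hg : BdC g) : BdC (fun w => f w + g w) := by
  obtain ⟨h1, C, hC⟩ := hf
  obtain ⟨h2, D, hD⟩ := hg
  exact ⟨h1.add h2, C + D, fun w => (norm_add_le _ _).trans (add_le_add (hC w) (hD w))⟩

theorem BdC.sub (hf : BdC f) (hg : BdC g) : BdC (fun w => f w - g w) := by
  obtain ⟨h1, C, hC⟩ := hf
  obtain ⟨h2, D, hD⟩ := hg
  exact ⟨h1.sub h2, C + D, fun w => (norm_sub_le _ _).trans (add_le_add (hC w) (hD w))⟩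

theorem BdC.mul (hf : BdC f) (hg : BdC g) : BdC (fun w => f w * g w) := by
  obtain ⟨h1, C, hC⟩ := hf
  obtain ⟨h2, D, hD⟩ := hg
  refine ⟨h1.mul h2, C * D, fun w => ?_⟩
  rw [norm_mul]
  exact mul_le_mul (hC w) (hD w) (norm_nonneg _) ((norm_nonneg _).trans (hC w))

theorem BdC.const (c : ℂ) : BdC (fun _ : X => c) := ⟨measurable_const, ‖c‖, fun _ => le_rfl⟩

theorem BdC.half (hf : BdC f) : BdC (fun w => f w / 2) := by
  have := hf.mul (BdC.const (2⁻¹ : ℂ))
  simpa only [div_eq_mul_inv] using this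

theorem BdC.cj (hf : BdC f) : BdC (fun w => conj (f w)) := by
  obtain ⟨h1, C, hC⟩ := hf
  exact ⟨Complex.continuous_conj.measurable.comp h1, C, fun w => by simpa using hC w⟩

theorem BdC.re (hf : BdC f) : Bd (fun w => (f w).re) := by
  obtain ⟨h1, C, hC⟩ := hf
  exact ⟨Complex.measurable_re.comp h1, C, fun w => (Complex.abs_re_le_norm _).trans (hC w)⟩

theorem BdC.im (hf : BdC f) : Bd (fun w => (f w).im) := by
  obtain ⟨h1, C, hC⟩ := hf
  exact ⟨Complex.measurable_im.comp h1, C, fun w => (Complex.abs_im_le_norm _).trans (hC w)⟩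

theorem BdC.nsq (hf : BdC f) : Bd (fun w => ‖f w‖ ^ 2) := by
  obtain ⟨h1, C, hC⟩ := hf
  refine ⟨h1.norm.pow_const 2, C ^ 2, fun w => ?_⟩
  rw [abs_of_nonneg (by positivity)]
  exact pow_le_pow_left₀ (norm_nonneg _) (hC w) 2

theorem BdC.comp {Y : Type} [MeasurableSpace Y] (hf : BdC f) {u : Y → X} (hu : Measurable u) :
    BdC (fun w => f (u w)) := by
  obtain ⟨h1, C, hC⟩ := hf
  exact ⟨h1.comp hu, C, fun w => hC _⟩

end BdCs

theorem bdc_md {f : Ph × Z → ℝ} (hf : Bd f) (n : ℤ) : BdC (md n f) := by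
  obtain ⟨C, hC⟩ := hf.2
  exact ⟨measurable_md hf n, C, fun q => norm_md_le hC n q⟩

theorem bdc_dz {f g : Ph × Z → ℝ} (hf : Bd f) (hg : Bd g) (n : ℤ) : BdC (dz n f g) :=
  ((bdc_md hf n).sub ((BdC.const Complex.I).mul (bdc_md hg n))).half

theorem bdc_dzb {f g : Ph × Z → ℝ} (hf : Bd f) (hg : Bd g) (n : ℤ) : BdC (dzb n f g) :=
  ((bdc_md hf n).add ((BdC.const Complex.I).mul (bdc_md hg n))).half

theorem pestA (hv : AffineIndependent ℝ v) {φ φ₁ φ₂ : Ph × Z → ℝ} (hN : Nice φ φ₁ φ₂)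
    (hs : Sym v φ) (n : ℤ) :
    ∫ q, ‖dz n φ₁ φ₂ q‖ ^ 2 ∂(mB v ν) = ∫ q, ‖dzb n φ₁ φ₂ q‖ ^ 2 ∂(mB v ν) := by
  obtain ⟨h0, h1, h2, h3⟩ := hN
  have i1 := (bdc_dz h1 h2 n).nsq.integrable (mB v ν)
  have i2 := (bdc_dzb h1 h2 n).nsq.integrable (mB v ν)
  have i3 := ((bdc_md h1 n).cj.mul (bdc_md h2 n)).im.integrable (mB v ν)
  have key : ∫ q, (conj (md n φ₁ q) * md n φ₂ q).im ∂(mB v ν) = 0 := by
    unfold mB at i3 ⊢
    rw [integral_prod_symm _ i3]
    have : ∀ ζ : Z, ∫ x in table v, (conj (md n φ₁ (x, ζ)) * md n φ₂ (x, ζ)).im = 0 := by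
      intro ζ
      have := jac_zero hv (h3 n ζ).1 (fun i => ⟨_, fun x hx => md_sym hs n i hx ζ⟩)
      simpa only [((h3 n ζ).2 _).1, ((h3 n ζ).2 _).2] using this
    simp only [this, integral_zero]
  rw [← sub_eq_zero, ← integral_sub i1 i2, ← key]
  refine integral_congr_ae (Eventually.of_forall fun q => ?_)
  simp only [dz, dzb]
  generalize md n φ₁ q = a
  generalize md n φ₂ q = b
  rw [Complex.sq_norm, Complex.sq_norm, Complex.normSq_apply, Complex.normSq_apply]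
  simp
  ring

theorem pestB (hv : AffineIndependent ℝ v) {φ φ₁ φ₂ Ψ Ψ₁ Ψ₂ : Ph × Z → ℝ} (hN : Nice φ φ₁ φ₂)
    (hN' : Nice Ψ Ψ₁ Ψ₂) (hs : Sym v φ) (hs' : Sym v Ψ) (h1 : Sk ν φ₁ Ψ₁ φ Ψ)
    (h2 : Sk ν φ₂ Ψ₂ φ Ψ) (n : ℤ) :
    ∫ q, (md n Ψ q * conj (dzb (n + 1) φ₁ φ₂ q)).re ∂(mB v ν) =
      ∫ q, (md (n + 1) Ψ q * conj (dz n φ₁ φ₂ q)).re ∂(mB v ν) := by
  obtain ⟨a0, a1, a2, a3⟩ := hN
  obtain ⟨b0, b1, b2, b3⟩ := hN'
  have iU : Integrable (fun q => (dz n Ψ₁ Ψ₂ q * conj (md (n + 1) φ q)).re) (mB v ν) :=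
    ((bdc_dz b1 b2 n).mul (bdc_md a0 (n + 1)).cj).re.integrable _
  have iV : Integrable (fun q => (md n Ψ q * conj (dzb (n + 1) φ₁ φ₂ q)).re) (mB v ν) :=
    ((bdc_md b0 n).mul (bdc_dzb a1 a2 (n + 1)).cj).re.integrable _
  have iW : Integrable (fun q => (md (n + 1) Ψ q * conj (dz n φ₁ φ₂ q)).re) (mB v ν) :=
    ((bdc_md b0 (n + 1)).mul (bdc_dz a1 a2 n).cj).re.integrable _
  have k1 : ∫ q, ((dz n Ψ₁ Ψ₂ q * conj (md (n + 1) φ q)).re +
      (md n Ψ q * conj (dzb (n + 1) φ₁ φ₂ q)).re) ∂(mB v ν) = 0 := by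
    have i := iU.add iV
    unfold mB at i ⊢
    refine (integral_prod_symm _ i).trans ?_
    have : ∀ ζ : Z, ∫ x in table v, ((dz n Ψ₁ Ψ₂ (x, ζ) * conj (md (n + 1) φ (x, ζ))).re +
        (md n Ψ (x, ζ) * conj (dzb (n + 1) φ₁ φ₂ (x, ζ))).re) = 0 := by
      intro ζ
      have := parts_zero hv ((b3 n ζ).1.of_le (by norm_num)) ((a3 (n + 1) ζ).1.of_le (by norm_num))
        (fun i x hx => by
          have e1 := md_sym hs' n i hx ζ
          have e2 := md_sym hs (n + 1) i hx ζ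
          have e3 : fourier (-n) (bet v i) * conj (fourier (-(n + 1)) (bet v i)) =
              -(nrm v i) ^ 2 := by
            rw [← vel_bet0 hv i, vel_eq_fourier, ← fourier_neg, ← fourier_add]
            congr 2
            ring
          generalize md n Ψ (x, ζ) = a at e1 ⊢
          generalize md (n + 1) φ (x, ζ) = b at e2 ⊢
          have e4 := congrArg conj e2
          rw [map_mul, Complex.conj_conj] at e4
          rw [← e3, map_mul, Complex.conj_conj]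
          conv_lhs => rw [e1, e4]
          ring)
      simpa only [((a3 (n + 1) ζ).2 _).1, ((a3 (n + 1) ζ).2 _).2, ((b3 n ζ).2 _).1,
        ((b3 n ζ).2 _).2, Complex.add_re, dz, dzb] using this
    simp only [Pi.add_apply, this, integral_zero]
  have k2 : ∫ q, ((dz n Ψ₁ Ψ₂ q * conj (md (n + 1) φ q)).re +
      (md (n + 1) Ψ q * conj (dz n φ₁ φ₂ q)).re) ∂(mB v ν) = 0 := by
    have i := iU.add iW
    unfold mB at i ⊢
    refine (integral_prod _ i).trans ?_
    have : ∀ x : ℂ, ∫ ζ, ((dz n Ψ₁ Ψ₂ (x, ζ) * conj (md (n + 1) φ (x, ζ))).re +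
        (md (n + 1) Ψ (x, ζ) * conj (dz n φ₁ φ₂ (x, ζ))).re) ∂ν = 0 := by
      intro x
      have s1 := md_skew ν a1 b1 a0 b0 h1 n (n + 1) x
      have s2 := md_skew ν a2 b2 a0 b0 h2 n (n + 1) x
      have hm : Measurable (fun ζ : Z => (x, ζ)) := measurable_prodMk_left
      have c1 := (((bdc_md b1 n).mul (bdc_md a0 (n + 1)).cj).add
        ((bdc_md a1 n).mul (bdc_md b0 (n + 1)).cj)).comp hm
      have c2 := (((bdc_md b2 n).mul (bdc_md a0 (n + 1)).cj).add
        ((bdc_md a2 n).mul (bdc_md b0 (n + 1)).cj)).comp hm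
      have r1 := Complex.reCLM.integral_comp_comm (c1.integrable ν)
      have r2 := Complex.imCLM.integral_comp_comm (c2.integrable ν)
      rw [s1, map_zero] at r1
      rw [s2, map_zero] at r2
      have r3 := integral_add (c1.re.integrable ν) (c2.im.integrable ν)
      simp only [Complex.reCLM_apply, Complex.imCLM_apply] at r1 r2
      rw [r1, r2, add_zero] at r3
      have r4 := integral_const_mul (μ := ν) (2⁻¹ : ℝ) (fun ζ =>
        (md n Ψ₁ (x, ζ) * conj (md (n + 1) φ (x, ζ)) +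
          md n φ₁ (x, ζ) * conj (md (n + 1) Ψ (x, ζ))).re +
        (md n Ψ₂ (x, ζ) * conj (md (n + 1) φ (x, ζ)) +
          md n φ₂ (x, ζ) * conj (md (n + 1) Ψ (x, ζ))).im)
      rw [r3, mul_zero] at r4
      rw [← r4]
      refine integral_congr_ae (Eventually.of_forall fun ζ => ?_)
      simp only [dz]
      generalize md n Ψ₁ (x, ζ) = u1
      generalize md n Ψ₂ (x, ζ) = u2
      generalize md n φ₁ (x, ζ) = w1
      generalize md n φ₂ (x, ζ) = w2
      generalize md (n + 1) φ (x, ζ) = s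
      generalize md (n + 1) Ψ (x, ζ) = t
      have h2 : conj ((w1 - Complex.I * w2) / 2) = (conj w1 + Complex.I * conj w2) / 2 := by
        simp [map_div₀, map_ofNat]
      rw [h2]
      simp
      ring
    simp only [Pi.add_apply, this, integral_zero]
  rw [integral_add iU iV] at k1
  rw [integral_add iU iW] at k2
  linarith

end Vale.Agent.P099
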