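import Vale.Agent.P099.Meas

open MeasureTheory Set Filter Topology
open scoped ComplexConjugate

namespace Vale.Agent.P099

theorem seq0_sum {L : ℤ → ℝ} {Λ : ℝ} (hs : ∀ s : Finset ℤ, ∑ n ∈ s, L n ≤ Λ) (M : ℕ)
    {g : ℕ → ℤ} (hg : Function.Injective g) : ∑ m ∈ Finset.range M, L (g m) ≤ Λ := by
  have h := hs ((Finset.range M).image g)
  rwa [Finset.sum_image fun _ _ _ _ e => hg e] at h

theorem seq_conv (A L : ℤ → ℝ) (Λ δ : ℝ) (hδ : 0 ≤ δ) (hA : ∀ n, 0 ≤ A n)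
    (hc : ∀ n, -δ ≤ A (n - 1) - 2 * A n + A (n + 1)) (hL : ∀ n, 2 * A n ≤ L n + δ)
    (hs : ∀ s : Finset ℤ, ∑ n ∈ s, L n ≤ Λ) (N : ℤ) (M : ℕ) (hM : 0 < M) :
    A N ≤ Λ / M + δ * (1 + (M : ℝ) ^ 2) := by
  have key : ∀ m : ℕ, 2 * A N - δ * (m : ℝ) ^ 2 ≤ A (N - m) + A (N + m) ∧
      -(δ * (2 * m + 1)) ≤ A (N - m - 1) + A (N + m + 1) - A (N - m) - A (N + m) := by
    intro m
    induction m with
    | zero =>
      have := hc N
      simp only [Nat.cast_zero, sub_zero, add_zero]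
      constructor <;> linarith
    | succ m ih =>
      have h1 := hc (N - m - 1)
      have h2 := hc (N + m + 1)
      rw [sub_add_cancel] at h1
      rw [add_sub_cancel_right] at h2
      push_cast
      rw [← sub_sub, ← add_assoc]
      constructor <;> linarith [ih.1, ih.2]
  have h1 := seq0_sum hs M (g := fun m => N - m) fun a b e => by simpa using e
  have h2 := seq0_sum hs M (g := fun m => N + m) fun a b e => by simpa using e
  have h3 : ∀ m ∈ Finset.range M, 4 * A N - 2 * (δ * (1 + (M : ℝ) ^ 2)) ≤ L (N - m) + L (N + m) := by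
    intro m hm
    have h4 : (m : ℝ) ^ 2 ≤ (M : ℝ) ^ 2 := by
      gcongr
      exact (Finset.mem_range.1 hm).le
    have h5 := mul_le_mul_of_nonneg_left h4 hδ
    linarith [(key m).1, hL (N - m), hL (N + m)]
  have h4 := Finset.sum_le_sum h3
  rw [Finset.sum_add_distrib, Finset.sum_const, Finset.card_range, nsmul_eq_mul] at h4
  have hM' : (0 : ℝ) < M := by exact_mod_cast hM
  have h5 : 2 * A N - δ * (1 + (M : ℝ) ^ 2) ≤ Λ / M := by
    rw [le_div_iff₀ hM']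
    linarith
  linarith [hA N]

theorem seq_tel (B e : ℤ → ℝ) (ε : ℝ) (h : ∀ n, B n - B (n + 1) = e n)
    (he : ∀ s : Finset ℤ, ∑ n ∈ s, |e n| ≤ ε) (hB : Tendsto B atTop (𝓝 0)) (N : ℤ) :
    |B N| ≤ ε := by
  have h1 : ∀ k : ℕ, B N - B (N + k) = ∑ m ∈ Finset.range k, e (N + m) := by
    intro k
    induction k with
    | zero => simp
    | succ k ih =>
      rw [Finset.sum_range_succ, ← ih, ← h]
      push_cast
      rw [← add_assoc]
      ring
  have h2 : Tendsto (fun k : ℕ => |B N - B (N + k)|) atTop (𝓝 |B N - 0|) :=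
    (tendsto_const_nhds.sub
      (hB.comp (tendsto_atTop_add_const_left _ N tendsto_natCast_atTop_atTop))).abs
  rw [sub_zero] at h2
  refine le_of_tendsto' h2 fun k => ?_
  rw [h1]
  exact (Finset.abs_sum_le_sum_abs _ _).trans
    (seq0_sum he k (g := fun m => N + m) fun a b e => by simpa using e)

theorem seq_tendsto (a : ℤ → ℝ) (C : ℝ) (ha : ∀ n, 0 ≤ a n)
    (hs : ∀ s : Finset ℤ, ∑ n ∈ s, a n ≤ C) : Tendsto a atTop (𝓝 0) :=
  (summable_of_sum_le ha hs).tendsto_cofinite_zero.mono_left atTop_le_cofinite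

theorem seq_cs (a b : ℤ → ℝ) (P Q : ℝ) (ha : ∀ n, 0 ≤ a n) (hb : ∀ n, 0 ≤ b n)
    (hP : ∀ s : Finset ℤ, ∑ n ∈ s, a n ≤ P) (hQ : ∀ s : Finset ℤ, ∑ n ∈ s, b n ≤ Q)
    (s : Finset ℤ) : ∑ n ∈ s, √(a n) * √(b n) ≤ √P * √Q := by
  refine (Real.sum_sqrt_mul_sqrt_le s ha hb).trans ?_
  gcongr
  exacts [hP s, hQ s]

end Vale.Agent.P099
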