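import Vale.Agent.P099.Meas

open MeasureTheory Set Filter Topology
open scoped ComplexConjugate

namespace Vale.Agent.P099

variable {P Z : Type} [MeasurableSpace P] [MeasurableSpace Z] (m : Measure P) [IsFiniteMeasure m]
  (ν : Measure Z) [IsProbabilityMeasure ν]

theorem sma_meas {S : ℝ → Z → Z} (hS : Measurable (fun q : ℝ × Z => S q.1 q.2)) {F : P × Z → ℝ}
    (hF : Bd F) : Measurable fun q : (P × Z) × ℝ => F (q.1.1, S q.2 q.1.2) :=
  hF.1.comp (measurable_fst.fst.prodMk (hS.comp (measurable_snd.prodMk measurable_fst.snd)))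

theorem sma_int {S : ℝ → Z → Z} (hS : Measurable (fun q : ℝ × Z => S q.1 q.2)) {κ : ℝ → ℝ}
    (hκ : Continuous κ) (hc : HasCompactSupport κ) {F : P × Z → ℝ} (hF : Bd F) (w : P × Z) :
    Integrable fun t => κ t * F (w.1, S t w.2) := by
  obtain ⟨C, hC⟩ := hF.2
  exact (hκ.integrable_of_hasCompactSupport hc).mul_bdd
    ((sma_meas hS hF).comp measurable_prodMk_left).aestronglyMeasurable
    (Eventually.of_forall fun t => hC _)

theorem Bd.tsm {S : ℝ → Z → Z} (hS : Measurable (fun q : ℝ × Z => S q.1 q.2)) {κ : ℝ → ℝ}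
    (hκ : Continuous κ) (hc : HasCompactSupport κ) {F : P × Z → ℝ} (hF : Bd F) :
    Bd (tsm S κ F) := by
  obtain ⟨C, hC⟩ := hF.2
  refine ⟨(((hκ.measurable.comp measurable_snd).mul
    (sma_meas hS hF)).stronglyMeasurable.integral_prod_right' (ν := volume)).measurable,
    ∫ t, ‖κ t‖ * C, fun w => ?_⟩
  rw [← Real.norm_eq_abs]
  refine norm_integral_le_of_norm_le
    ((hκ.integrable_of_hasCompactSupport (μ := volume) hc).norm.mul_const C) (Eventually.of_forall fun t => ?_)
  rw [norm_mul]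
  exact mul_le_mul_of_nonneg_left (hC _) (norm_nonneg _)

theorem sma_taylor {κ : ℝ → ℝ} (hκ : ContDiff ℝ 2 κ) (hc : HasCompactSupport κ) :
    ∃ L R : ℝ, 0 ≤ L ∧ ∀ h t : ℝ, |h| ≤ 1 → |κ (t + h) - κ t - h * deriv κ t| ≤
      (Icc (-R) R).indicator (fun _ => L * h ^ 2) t := by
  have h1 : ContDiff ℝ 1 (deriv κ) := (contDiff_succ_iff_deriv.1 (show ContDiff ℝ (1 + 1) κ from hκ)).2.2
  obtain ⟨L, hL⟩ := ContDiff.lipschitzWith_of_hasCompactSupport hc.deriv h1 (by simp)
  obtain ⟨R, hR⟩ := hc.isCompact.isBounded.exists_norm_le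
  refine ⟨L, R + 1, L.2, fun h t hh => ?_⟩
  by_cases ht : t ∈ Icc (-(R + 1)) (R + 1)
  · rw [indicator_of_mem ht]
    have h2 : ∀ u ∈ Metric.closedBall (0 : ℝ) |h|, HasDerivWithinAt
        (fun u => κ (t + u) - u * deriv κ t) (deriv κ (t + u) - deriv κ t)
        (Metric.closedBall (0 : ℝ) |h|) u := fun u _ => by
      have h3 := ((hκ.differentiable (by simp) (t + u)).hasDerivAt.comp_const_add t u).sub
        ((hasDerivAt_id u).mul_const (deriv κ t))
      rw [one_mul] at h3
      exact h3.hasDerivWithinAt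
    have h3 := Convex.norm_image_sub_le_of_norm_hasDerivWithin_le (C := L * |h|) h2
      (fun u hu => by
        have := hL.dist_le_mul (t + u) t
        rw [dist_eq_norm, dist_eq_norm, add_sub_cancel_left] at this
        exact this.trans (mul_le_mul_of_nonneg_left (mem_closedBall_zero_iff.1 hu) L.2))
      (convex_closedBall _ _) (Metric.mem_closedBall_self (abs_nonneg h))
      (y := h) (by simp)
    simp only [add_zero, zero_mul, sub_zero, Real.norm_eq_abs] at h3
    rw [mul_assoc, abs_mul_abs_self, ← sq] at h3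
    rwa [sub_right_comm]
  · rw [indicator_of_notMem ht]
    have h2 : R + 1 < |t| := not_le.1 fun h => ht (abs_le.1 h)
    have h3 : t ∉ tsupport κ := fun h => by linarith [hR t h, Real.norm_eq_abs t]
    have h4 : t + h ∉ tsupport κ := fun h5 => by
      have := abs_sub (t + h) h
      rw [add_sub_cancel_right] at this
      linarith [hR _ h5, Real.norm_eq_abs (t + h)]
    rw [image_eq_zero_of_notMem_tsupport h3, image_eq_zero_of_notMem_tsupport h4,
      deriv_of_notMem_tsupport h3]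
    simp

theorem sma_key {S : ℝ → Z → Z} (hS : Measurable (fun q : ℝ × Z => S q.1 q.2))
    {F : P × Z → ℝ} (hF : Bd F) {κ : ℝ → ℝ} (hκ : ContDiff ℝ 2 κ) (hc : HasCompactSupport κ) :
    ∃ M : ℝ, 0 ≤ M ∧ ∀ h : ℝ, |h| ≤ 1 → ∀ w, |tsm S (fun t => κ (t + h)) F w - tsm S κ F w -
      h * tsm S (deriv κ) F w| ≤ M * h ^ 2 := by
  obtain ⟨L, R, hL, H⟩ := sma_taylor hκ hc
  obtain ⟨C, hC⟩ := hF.2
  refine ⟨volume.real (Icc (-R) R) * L * |C|, by positivity, fun h hh w => ?_⟩
  have i1 := sma_int hS (hκ.continuous.comp (continuous_add_const h))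
    (hc.comp_homeomorph (Homeomorph.addRight h)) hF w
  have i2 := sma_int hS hκ.continuous hc hF w
  have i3 := (sma_int hS (hκ.continuous_deriv (by norm_num)) hc.deriv hF w).const_mul h
  have h1 := integral_sub (i1.sub i2) i3
  simp only [Pi.sub_apply, Function.comp] at h1 i1
  rw [integral_sub i1 i2, integral_const_mul] at h1
  unfold Vale.Agent.P099.tsm
  rw [← h1]
  have hi : Integrable fun t => (Icc (-R) R).indicator (fun _ => L * h ^ 2) t * |C| :=
    ((integrable_indicator_iff measurableSet_Icc).2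
      (integrableOn_const measure_Icc_lt_top.ne)).mul_const _
  rw [← Real.norm_eq_abs]
  refine (norm_integral_le_of_norm_le hi (Eventually.of_forall fun t => ?_)).trans (le_of_eq ?_)
  · rw [← mul_assoc, ← sub_mul, ← sub_mul, norm_mul]
    exact mul_le_mul (H h t hh) ((hC _).trans (le_abs_self C)) (norm_nonneg _)
      ((abs_nonneg _).trans (H h t hh))
  · rw [integral_mul_const, integral_indicator_const _ measurableSet_Icc, smul_eq_mul]
    ring

omit [MeasurableSpace P] in
theorem sma_shift {S : ℝ → Z → Z} (hadd : ∀ s t ζ, S s (S t ζ) = S (s + t) ζ) (κ : ℝ → ℝ)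
    (F : P × Z → ℝ) (h : ℝ) (w : P × Z) :
    tsm S κ F (w.1, S (-h) w.2) = tsm S (fun t => κ (t + h)) F w := by
  unfold tsm
  rw [← integral_add_right_eq_self _ h]
  simp [hadd]

theorem tsm_dv {S : ℝ → Z → Z} (hS : Measurable (fun q : ℝ × Z => S q.1 q.2))
    (hmp : ∀ t, MeasurePreserving (S t) ν ν) (hadd : ∀ s t ζ, S s (S t ζ) = S (s + t) ζ)
    {Φ : ℝ → P → P} (hΦ : ∀ t, Measurable (Φ t)) {F : P × Z → ℝ} (hF : Bd F)
    (hinv : ∀ t, ∀ᵐ w ∂(m.prod ν), F (Φ t w.1, S t w.2) = F w)
    {κ : ℝ → ℝ} (hκ : ContDiff ℝ 2 κ) (hc : HasCompactSupport κ) :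
    Dv (m.prod ν) univ (fun h w => (Φ h w.1, w.2)) (tsm S κ F) (tsm S (deriv κ) F)
      (fun _ => 0) := by
  obtain ⟨M, -, H⟩ := sma_key hS hF hκ hc
  refine ⟨M, 1, one_pos, fun h hh => ?_⟩
  have h1 : ∀ᵐ t : ℝ, ∀ᵐ w ∂(m.prod ν), F (Φ h w.1, S t w.2) = F (w.1, S t (S (-h) w.2)) := by
    refine Eventually.of_forall fun t => ?_
    filter_upwards [((MeasurePreserving.id m).prod (hmp (t + -h))).quasiMeasurePreserving.ae
      (hinv h)] with w hw
    simp only [Prod.map, id, hadd] at hw ⊢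
    rwa [show h + (t + -h) = t by ring] at hw
  have m1 : Measurable fun q : ℝ × P × Z => F (Φ h q.2.1, S q.1 q.2.2) :=
    hF.1.comp (((hΦ h).comp measurable_snd.fst).prodMk
      (hS.comp (measurable_fst.prodMk measurable_snd.snd)))
  have m2 : Measurable fun q : ℝ × P × Z => F (q.2.1, S q.1 (S (-h) q.2.2)) :=
    hF.1.comp (measurable_snd.fst.prodMk (hS.comp (measurable_fst.prodMk
      ((hmp (-h)).measurable.comp measurable_snd.snd))))
  filter_upwards [(Measure.ae_ae_comm (p := fun (t : ℝ) (w : P × Z) =>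
    F (Φ h w.1, S t w.2) = F (w.1, S t (S (-h) w.2))) (measurableSet_eq_fun m1 m2)).1 h1] with w hw _
  have h2 : tsm S κ F (Φ h w.1, w.2) = tsm S κ F (w.1, S (-h) w.2) :=
    integral_congr_ae (hw.mono fun t ht => by simp only [ht])
  rw [h2, sma_shift hadd, mul_zero, zero_add]
  exact H h (abs_le.2 ⟨by linarith [hh.1], hh.2.le⟩) w

theorem tsm_skew {S : ℝ → Z → Z} (hS : Measurable (fun q : ℝ × Z => S q.1 q.2))
    (hmp : ∀ t, MeasurePreserving (S t) ν ν) (hadd : ∀ s t ζ, S s (S t ζ) = S (s + t) ζ)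
    {F : P × Z → ℝ} (hF : Bd F) {κ : ℝ → ℝ} (hκ : ContDiff ℝ 2 κ) (hc : HasCompactSupport κ) :
    Sk ν (tsm S κ F) (tsm S (deriv κ) F) (tsm S κ F) (tsm S (deriv κ) F) := by
  intro p p'
  obtain ⟨M, hM, H⟩ := sma_key hS hF hκ hc
  have ba := Bd.tsm hS hκ.continuous hc hF
  have bb := Bd.tsm hS (hκ.continuous_deriv (by norm_num)) hc.deriv hF
  obtain ⟨A, hA⟩ := ba.2
  obtain ⟨B, hB⟩ := bb.2
  have b0 : Bd fun ζ => tsm S κ F (p, ζ) * tsm S κ F (p', ζ) :=
    (ba.comp measurable_prodMk_left).mul (ba.comp measurable_prodMk_left)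
  have b1 : Bd fun ζ => tsm S (deriv κ) F (p, ζ) * tsm S κ F (p', ζ) +
      tsm S κ F (p, ζ) * tsm S (deriv κ) F (p', ζ) :=
    ((bb.comp measurable_prodMk_left).mul (ba.comp measurable_prodMk_left)).add
      ((ba.comp measurable_prodMk_left).mul (bb.comp measurable_prodMk_left))
  have key : ∀ u : ℝ, 0 < u → u ≤ 1 → |∫ ζ, (tsm S (deriv κ) F (p, ζ) * tsm S κ F (p', ζ) +
      tsm S κ F (p, ζ) * tsm S (deriv κ) F (p', ζ)) ∂ν| ≤
        (B * B + M * (|A| + |B|) + M * (|A| + |B| + M)) * u := by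
    intro u hu hu1
    have b2 := b0.comp (hmp (-u)).measurable
    have h1 : ∫ ζ, tsm S κ F (p, S (-u) ζ) * tsm S κ F (p', S (-u) ζ) ∂ν =
        ∫ ζ, tsm S κ F (p, ζ) * tsm S κ F (p', ζ) ∂ν := by
      rw [← integral_map (hmp (-u)).measurable.aemeasurable b0.1.aestronglyMeasurable,
        (hmp (-u)).map_eq]
    have h2 := integral_sub ((b2.sub b0).integrable ν) ((b1.integrable ν).const_mul u)
    rw [integral_sub (b2.integrable ν) (b0.integrable ν), h1, sub_self, zero_sub,
      integral_const_mul] at h2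
    have h3 := norm_integral_le_of_norm_le_const (μ := ν)
      (C := (B * B + M * (|A| + |B|) + M * (|A| + |B| + M)) * u ^ 2)
      (f := fun ζ => tsm S κ F (p, S (-u) ζ) * tsm S κ F (p', S (-u) ζ) -
        tsm S κ F (p, ζ) * tsm S κ F (p', ζ) - u * (tsm S (deriv κ) F (p, ζ) * tsm S κ F (p', ζ) +
          tsm S κ F (p, ζ) * tsm S (deriv κ) F (p', ζ))) (Eventually.of_forall fun ζ => by
        have hu' : |u| ≤ 1 := by rwa [abs_of_pos hu]
        have r1 := H u hu' (p, ζ)
        have r2 := H u hu' (p', ζ)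
        rw [← sma_shift hadd] at r1 r2
        have a1 := (hA (p, ζ)).trans (le_abs_self A)
        have a2 := (hA (p', ζ)).trans (le_abs_self A)
        have c1 := (hB (p, ζ)).trans (le_abs_self B)
        have c2 := (hB (p', ζ)).trans (le_abs_self B)
        dsimp only at r1 r2
        generalize tsm S κ F (p, S (-u) ζ) = x at *
        generalize tsm S κ F (p', S (-u) ζ) = y at *
        generalize tsm S κ F (p, ζ) = a at *
        generalize tsm S κ F (p', ζ) = b at *
        generalize tsm S (deriv κ) F (p, ζ) = a' at *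
        generalize tsm S (deriv κ) F (p', ζ) = b' at *
        have e : x * y - a * b - u * (a' * b + a * b') = u ^ 2 * (a' * b') +
            (y - b - u * b') * (a + u * a') + (x - a - u * a') * (b + u * b' + (y - b - u * b')) := by
          ring
        have hu2 : u ^ 2 ≤ 1 := by nlinarith
        have d1 : |a + u * a'| ≤ |A| + |B| := (abs_add_le _ _).trans (add_le_add a1 (by
          rw [abs_mul]; exact (mul_le_of_le_one_left (abs_nonneg _) hu').trans c1))
        have d2 : |b + u * b'| ≤ |A| + |B| := (abs_add_le _ _).trans (add_le_add a2 (by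
          rw [abs_mul]; exact (mul_le_of_le_one_left (abs_nonneg _) hu').trans c2))
        have d3 : |b + u * b' + (y - b - u * b')| ≤ |A| + |B| + M := (abs_add_le _ _).trans
          (add_le_add d2 (r2.trans (mul_le_of_le_one_right hM hu2)))
        have d4 : |a' * b'| ≤ B * B := by
          rw [abs_mul, ← abs_mul_abs_self B]
          exact mul_le_mul c1 c2 (abs_nonneg _) (abs_nonneg _)
        rw [Real.norm_eq_abs, e]
        refine (abs_add_three _ _ _).trans ?_
        rw [abs_mul, abs_mul (y - b - u * b'), abs_mul (x - a - u * a'), abs_of_nonneg (sq_nonneg u)]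
        have e1 := mul_le_mul_of_nonneg_left d4 (sq_nonneg u)
        have e2 := mul_le_mul r2 d1 (abs_nonneg _) (by positivity)
        have e3 := mul_le_mul r1 d3 (abs_nonneg _) (by positivity)
        linarith)
    rw [h2, probReal_univ, mul_one, norm_neg, Real.norm_eq_abs, abs_mul, abs_of_pos hu, sq,
      ← mul_assoc, mul_comm _ u] at h3
    exact le_of_mul_le_mul_left h3 hu
  refine abs_nonpos_iff.1 (ge_of_tendsto (b := _) (f := fun u : ℝ =>
    (B * B + M * (|A| + |B|) + M * (|A| + |B| + M)) * u) (x := 𝓝[>] 0) ?_ ?_)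
  · have : Continuous fun u : ℝ => (B * B + M * (|A| + |B|) + M * (|A| + |B| + M)) * u := by
      fun_prop
    simpa using (this.tendsto 0).mono_left (nhdsWithin_le_nhds (s := Ioi 0))
  · filter_upwards [Ioc_mem_nhdsGT (zero_lt_one' ℝ)] with u hu using key u hu.1 hu.2

end Vale.Agent.P099
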