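import Vale.Agent.P099.Ext
import Vale.Agent.P099.GlobB
import Vale.Agent.P099.Cv1
import Vale.Agent.P099.Ker

open MeasureTheory Set Filter Topology
open scoped ComplexConjugate

namespace Vale.Agent.P099

variable {v : Fin 3 → ℂ} {Z : Type} [MeasurableSpace Z] (ν : Measure Z) [IsProbabilityMeasure ν]

theorem stp_lam_mir_far (hv : AffineIndependent ℝ v) (i j : Fin 3) (y : ℂ) :
    lam v j y - 2 * |lam v i y| ≤ lam v j (mir v i y) := by
  have h1 := lam_lip hv j (mir v i y) y
  rw [norm_mir_sub_self hv] at h1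
  have := (abs_le.1 h1).1
  linarith

omit [MeasurableSpace Z] in
theorem stp_ext_fold (hv : AffineIndependent ℝ v) (f : Ph × Z → ℝ) (i : Fin 3) (q : Ph) (ζ : Z)
    {η : ℝ} (hη : 0 < η) (h0 : lam v i q.1 ≠ 0) (h1 : -(2 * η) < lam v i q.1)
    (h2 : ∀ j, j ≠ i → 8 * η < lam v j q.1) : ext v f (q, ζ) = f (fold v q, ζ) := by
  have hf := fold_of_far (v := v) i q (fun j hj => by have := h2 j hj; linarith)
  rcases lt_or_gt_of_ne h0 with h | h
  · rw [hf.1 (Or.inl h)]
    refine (ext_of_out hv f (w := (q, ζ)) i h fun j hj => ?_).2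
    have := h2 j hj
    show 2 * |lam v i q.1| < lam v j q.1
    rw [abs_of_neg h]; linarith
  · have hn : ¬ Out v i q := by
      rintro (h' | h')
      · linarith
      · exact h0 h'.1
    rw [hf.2 hn]
    refine ext_of_table hv f (w := (q, ζ)) ((mem_table hv _).2 fun j => ?_)
    by_cases hj : j = i
    · rw [hj]; exact h
    · have := h2 j hj
      show 0 < lam v j q.1
      linarith

theorem stp_fold_mir (hv : AffineIndependent ℝ v) (i : Fin 3) (q : Ph)
    {η : ℝ} (hη : 0 < η) (h0 : lam v i q.1 ≠ 0) (h1 : |lam v i q.1| < 2 * η)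
    (h2 : ∀ j, j ≠ i → 8 * η < lam v j q.1) : fold v (mirP v i q) = fold v q := by
  have hf := fold_of_far (v := v) i q (fun j hj => by have := h2 j hj; linarith)
  have hf' := fold_of_far (v := v) i (mirP v i q) (fun j hj => by
    have := h2 j hj
    have h3 := stp_lam_mir_far hv i j q.1
    show 0 < lam v j (mir v i q.1)
    linarith)
  have hl : lam v i (mirP v i q).1 = -lam v i q.1 := lam_mir hv i q.1
  rcases lt_or_gt_of_ne h0 with h | h
  · have hn : ¬ Out v i (mirP v i q) := by
      rintro (h' | h')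
      · linarith
      · have := h'.1; linarith
    rw [hf'.2 hn, hf.1 (Or.inl h)]
  · have hn : ¬ Out v i q := by
      rintro (h' | h')
      · linarith
      · exact h0 h'.1
    rw [hf.2 hn, hf'.1 (Or.inl (by linarith)), mirP_mirP hv]

/-- the derivative bound along the flow passes to the extension, along free motion -/
theorem dv_ext (hv : AffineIndependent ℝ v) {K : ℝ} (hK : Kite v K) {f f' g : Ph × Z → ℝ}
    (h : Dv (mW v ν) univ (fun h w => (flow v h w.1, w.2)) f f' g) (η : ℝ) (hη : 0 < η) :
    Dv (mW0 ν) {w | ∃ x ∈ table v, K * η < rr v x ∧ ‖x - w.1.1‖ < η}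
      (fun h w => (free h w.1, w.2)) (ext v f) (ext v f') (ext v g) := by
  obtain ⟨C, h₀, hh₀, H⟩ := h
  have hK1 : 1 ≤ K := hK.1
  have hKp : 0 < K := by linarith
  refine ⟨C, min h₀ (η / K), lt_min hh₀ (div_pos hη hKp), fun h hh => ?_⟩
  have hhp : 0 < h := hh.1
  have hKh : K * h < η := by
    have := lt_of_lt_of_le hh.2 (min_le_right _ _)
    rw [lt_div_iff₀ hKp] at this; linarith
  have hhη : h < η := by nlinarith
  have hG : ∀ᵐ w ∂(mW v ν), w.1 ∈ Good v :=
    (measurePreserving_fst (μ := mQ v) (ν := ν)).quasiMeasurePreserving.ae (ae_good hv)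
  have hA : ∀ᵐ w ∂(mW0 ν), w.1.1 ∈ table v → (w.1 ∈ Good v ∧
      |f (flow v h w.1, w.2) - f w - h * f' w| ≤ h * g w + C * h ^ 2) := by
    have h1 := hG.and (H h ⟨hhp, lt_of_lt_of_le hh.2 (min_le_left _ _)⟩)
    rw [mW_eq] at h1
    filter_upwards [ae_imp_of_ae_restrict h1] with w hw hwt
    exact ⟨(hw hwt).1, (hw hwt).2 (mem_univ _)⟩
  have hB : ∀ᵐ w ∂(mW0 ν), ∀ i, (mirP v i w.1).1 ∈ table v → (mirP v i w.1 ∈ Good v ∧
      |f (flow v h (mirP v i w.1), w.2) - f (mirP v i w.1, w.2) - h * f' (mirP v i w.1, w.2)| ≤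
        h * g (mirP v i w.1, w.2) + C * h ^ 2) :=
    ae_all_iff.2 fun i => (mp_mirW ν hv i).quasiMeasurePreserving.ae hA
  have hL : ∀ᵐ w ∂(mW0 ν), ∀ i, lam v i w.1.1 ≠ 0 :=
    (measurePreserving_fst (μ := m0) (ν := ν)).quasiMeasurePreserving.ae (ae_lam_ne hv)
  have hL' : ∀ᵐ w ∂(mW0 ν), ∀ i, lam v i (free h w.1).1 ≠ 0 :=
    (mp_freeW ν h).quasiMeasurePreserving.ae hL
  filter_upwards [hA, hB, hL, hL'] with w wA wB wL wL' hw
  obtain ⟨p, ζ⟩ := w
  obtain ⟨x, hx, hr, hxy⟩ := hw
  have hx' := (mem_table hv x).1 hx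
  obtain ⟨i, hi⟩ := hK.2 x η hη (fun j => (hx' j).le) hr
  have hxy' : ‖x - p.1‖ < η := hxy
  have hy : ∀ j, lam v j x - η < lam v j p.1 := fun j => by
    have := (abs_le.1 (lam_lip hv j x p.1)).2
    linarith
  have hq : ∀ j, |lam v j (free h p).1 - lam v j p.1| ≤ h := fun j => by
    have := lam_lip hv j (free h p).1 p.1
    rwa [norm_free_sub, abs_of_pos hhp] at this
  have hyj : ∀ j, j ≠ i → 9 * η < lam v j p.1 := fun j hj => by
    have := hi j hj; have := hy j; linarith
  have hqj : ∀ j, j ≠ i → 8 * η < lam v j (free h p).1 := fun j hj => by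
    have := hyj j hj; have := (abs_le.1 (hq j)).1; linarith
  have hyi : -η < lam v i p.1 := by have := hx' i; have := hy i; linarith
  have hqi : -(2 * η) < lam v i (free h p).1 := by have := (abs_le.1 (hq i)).1; linarith
  have e0 : ext v f (free h p, ζ) = f (fold v (free h p), ζ) :=
    stp_ext_fold hv f i _ ζ hη (wL' i) hqi hqj
  show |ext v f (free h p, ζ) - ext v f (p, ζ) - h * ext v f' (p, ζ)| ≤
    h * ext v g (p, ζ) + C * h ^ 2
  rcases lt_or_gt_of_ne (wL i) with hs | hs
  · have hs' : lam v i p.1 < 0 := hs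
    have hfar : ∀ j, j ≠ i → 2 * |lam v i p.1| < lam v j p.1 := fun j hj => by
      have := hyj j hj
      rw [abs_of_neg hs']; linarith
    have o1 := ext_of_out hv f (w := (p, ζ)) i hs hfar
    have o2 := ext_of_out hv f' (w := (p, ζ)) i hs hfar
    have o3 := ext_of_out hv g (w := (p, ζ)) i hs hfar
    obtain ⟨b1, b2⟩ := wB i o1.1
    have hr' : K * |h| < rr v (mirP v i p).1 := by
      rw [abs_of_pos hhp]
      refine hKh.trans (lt_rr hv i _ η fun j hj => ?_)
      have h3 := stp_lam_mir_far hv i j p.1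
      have := hyj j hj
      rw [abs_of_neg hs'] at h3
      show η < lam v j (mir v i p.1)
      linarith
    have e1 : flow v h (mirP v i p) = fold v (free h p) := by
      rw [flow_eq_step hv hK b1 hr', step, ← mirP_free hv]
      refine stp_fold_mir hv i _ hη (wL' i) ?_ hqj
      have := (abs_le.1 (hq i)).2
      rw [abs_lt]; constructor <;> linarith
    rw [e0, o1.2, o2.2, o3.2, ← e1]
    exact b2
  · have hs' : 0 < lam v i p.1 := hs
    have hpt : p.1 ∈ table v := (mem_table hv _).2 fun j => by
      by_cases hj : j = i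
      · rw [hj]; exact hs'
      · have := hyj j hj; linarith
    obtain ⟨b1, b2⟩ := wA hpt
    have hr' : K * |h| < rr v p.1 := by
      rw [abs_of_pos hhp]
      refine hKh.trans (lt_rr hv i _ η fun j hj => ?_)
      have := hyj j hj
      linarith
    have e1 : flow v h p = fold v (free h p) := by
      rw [flow_eq_step hv hK b1 hr', step]
    rw [e0, ext_of_table hv f (w := (p, ζ)) hpt, ext_of_table hv f' (w := (p, ζ)) hpt,
      ext_of_table hv g (w := (p, ζ)) hpt, ← e1]
    exact b2

omit [MeasurableSpace Z] in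
theorem sym_cv (hv : AffineIndependent ℝ v) {K : ℝ} (hK : Kite v K) {σ c : ℝ} (hσ : 0 < σ)
    {k : ℂ → ℝ} (hk : IsKer σ c k) {f : Ph × Z → ℝ}
    (h0 : ∀ w, rr v w.1.1 < (K + 1) * σ → ext v f w = 0) : Sym v (cv k (ext v f)) := by
  intro i x hx θ ζ
  have hx' := (mem_side hv i x).1 hx
  by_cases hr : K * σ < rr v x
  · obtain ⟨i', hi⟩ := hK.2 x σ hσ (fun j => by
      by_cases hj : j = i
      · rw [hj, hx'.1]
      · exact (hx'.2 j hj).le) hr
    have hii : i' = i := by
      by_contra hc
      have := hi i (Ne.symm hc)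
      rw [hx'.1] at this
      linarith
    subst hii
    have hemb : MeasurableEmbedding (mir v i') :=
      (MeasurableEquiv.ofInvolutive (mir v i') (mir_mir hv i')
        (continuous_mir i').measurable).measurableEmbedding
    unfold cv
    rw [← (mp_mir hv i').integral_comp hemb
      (fun y => k (x - y) * ext v f ((y, bet v i' - θ), ζ))]
    refine integral_congr_ae (Eventually.of_forall fun y => ?_)
    have hn : ‖x - mir v i' y‖ = ‖x - y‖ := by
      rw [← norm_mir_sub_mir hv i' x y, mir_fix i' x hx'.1]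
    show k (x - mir v i' y) * ext v f (mirP v i' (y, θ), ζ) = k (x - y) * ext v f ((y, θ), ζ)
    rw [hk.radial _ _ hn]
    by_cases hy : ‖x - y‖ < σ
    · congr 1
      have hl : ∀ j, |lam v j x - lam v j y| < σ := fun j => (lam_lip hv j x y).trans_lt hy
      have hyj : ∀ j, j ≠ i' → 9 * σ < lam v j y := fun j hj => by
        have := hi j hj; have := (abs_lt.1 (hl j)).2; linarith
      have hyi : |lam v i' y| < σ := by
        have := hl i'
        rwa [hx'.1, zero_sub, abs_neg] at this
      have hm : lam v i' (mir v i' y) = -lam v i' y := lam_mir hv i' y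
      rcases lt_trichotomy (lam v i' y) 0 with hs | hs | hs
      · have o1 := ext_of_out hv f (w := ((y, θ), ζ)) i' hs (fun j hj => by
          have := hyj j hj
          show 2 * |lam v i' y| < lam v j y
          linarith)
        rw [o1.2]
        exact ext_of_table hv f (w := (mirP v i' (y, θ), ζ)) o1.1
      · rw [ext_of_line hv f (w := ((y, θ), ζ)) i' hs (fun j hj => by
          have := hyj j hj
          show 0 < lam v j y
          linarith)]
        refine ext_of_line hv f (w := (mirP v i' (y, θ), ζ)) i' ?_ fun j hj => ?_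
        · show lam v i' (mir v i' y) = 0
          rw [hm, hs, neg_zero]
        · show 0 < lam v j (mir v i' y)
          rw [mir_fix i' y hs]
          have := hyj j hj
          linarith
      · have hyt : y ∈ table v := (mem_table hv _).2 fun j => by
          by_cases hj : j = i'
          · rw [hj]; exact hs
          · have := hyj j hj; linarith
        have o1 := ext_of_out hv f (w := (mirP v i' (y, θ), ζ)) i'
          (show lam v i' (mir v i' y) < 0 by linarith) (fun j hj => by
          have := hyj j hj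
          have h3 := stp_lam_mir_far hv i' j y
          show 2 * |lam v i' (mir v i' y)| < lam v j (mir v i' y)
          rw [hm, abs_neg]
          linarith)
        rw [o1.2, ext_of_table hv f (w := ((y, θ), ζ)) hyt]
        show f (mirP v i' (mirP v i' (y, θ)), ζ) = _
        rw [mirP_mirP hv]
    · rw [hk.supp _ (not_lt.1 hy), zero_mul, zero_mul]
  · have hz : ∀ θ' : UnitAddCircle, cv k (ext v f) ((x, θ'), ζ) = 0 := fun θ' =>
      cv_vanish hk.supp fun y hy => h0 _ (by
        have h1 := rr_lip (v := v) y x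
        have h2 : ‖x - y‖ < σ := hy
        rw [norm_sub_rev] at h1
        show rr v y < (K + 1) * σ
        have := not_lt.1 hr
        linarith)
    rw [hz, hz]

end Vale.Agent.P099
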