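import Vale.Agent.P099.Traj0

open MeasureTheory Set Filter Topology
open scoped ComplexConjugate

namespace Vale.Agent.P099

variable {v : Fin 3 → ℂ}

theorem flow_of_good {p : Ph} (hp : p ∈ Good v) (t : ℝ) :
    flow v t p = (show ∃ γ, IsTraj v γ ∧ γ 0 = p from hp).choose t := by
  unfold flow
  rw [dif_pos (show ∃ γ, IsTraj v γ ∧ γ 0 = p from hp)]

theorem flow_of_not_good {p : Ph} (hp : p ∉ Good v) (t : ℝ) : flow v t p = p := by
  unfold flow
  rw [dif_neg (show ¬ ∃ γ, IsTraj v γ ∧ γ 0 = p from hp)]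

theorem flow_zero (p : Ph) : flow v 0 p = p := by
  by_cases hp : p ∈ Good v
  · rw [flow_of_good hp]
    exact (show ∃ γ, IsTraj v γ ∧ γ 0 = p from hp).choose_spec.2
  · exact flow_of_not_good hp 0

theorem isTraj_flow {p : Ph} (hp : p ∈ Good v) : IsTraj v (fun t => flow v t p) := by
  have : (fun t => flow v t p) = (show ∃ γ, IsTraj v γ ∧ γ 0 = p from hp).choose := by
    funext t; exact flow_of_good hp t
  rw [this]
  exact (show ∃ γ, IsTraj v γ ∧ γ 0 = p from hp).choose_spec.1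

theorem isTraj_unique (hv : AffineIndependent ℝ v) {γ γ' : ℝ → Ph} (h : IsTraj v γ)
    (h' : IsTraj v γ') (he : γ 0 = γ' 0) : γ = γ' := by
  funext t
  have h0 : (0 : ℝ) ∈ Ioo (-(|t| + 1)) (|t| + 1) := by
    constructor <;> linarith [abs_nonneg t]
  have ht : t ∈ Ioo (-(|t| + 1)) (|t| + 1) := by
    constructor <;> linarith [le_abs_self t, neg_abs_le t]
  exact traj_unique hv (fun τ _ => h τ) (fun τ _ => h' τ) h0 he ht

theorem flow_eq (hv : AffineIndependent ℝ v) {γ : ℝ → Ph} (h : IsTraj v γ) (t : ℝ) :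
    flow v t (γ 0) = γ t := by
  have hp : γ 0 ∈ Good v := ⟨γ, h, rfl⟩
  have := isTraj_unique hv (isTraj_flow hp) h (flow_zero _)
  exact congrFun this t

theorem IsTraj.shift {γ : ℝ → Ph} (h : IsTraj v γ) (s : ℝ) : IsTraj v (fun t => γ (t + s)) :=
  fun τ => (h (τ + s)).shift

theorem flow_mem_good {p : Ph} (hp : p ∈ Good v) (t : ℝ) : flow v t p ∈ Good v :=
  ⟨fun u => flow v (u + t) p, (isTraj_flow hp).shift t, by simp⟩

theorem flow_add (hv : AffineIndependent ℝ v) (s t : ℝ) (p : Ph) :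
    flow v s (flow v t p) = flow v (s + t) p := by
  by_cases hp : p ∈ Good v
  · have := flow_eq hv ((isTraj_flow hp).shift t) s
    simpa using this
  · rw [flow_of_not_good hp, flow_of_not_good hp, flow_of_not_good hp]

theorem flow_lip (p : Ph) (s t : ℝ) : ‖(flow v t p).1 - (flow v s p).1‖ ≤ |t - s| := by
  by_cases hp : p ∈ Good v
  · exact (isTraj_flow hp).lip s t
  · rw [flow_of_not_good hp, flow_of_not_good hp]; simp

theorem good_sub_PM (hv : AffineIndependent ℝ v) : Good v ⊆ PM v := by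
  rintro p ⟨γ, h, rfl⟩
  exact (h 0).mem_PM hv

theorem existsUnique_of_good (hv : AffineIndependent ℝ v) {p : Ph} (hp : p ∈ Good v) :
    ∃! γ, IsTraj v γ ∧ γ 0 = p := by
  obtain ⟨γ, h, h0⟩ := hp
  exact ⟨γ, ⟨h, h0⟩, fun γ' h' => isTraj_unique hv h'.1 h (h'.2.trans h0.symm)⟩

end Vale.Agent.P099
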