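import Vale.Agent.P099.Geo3

open MeasureTheory Set Filter Topology
open scoped ComplexConjugate

namespace Vale.Agent.P099

variable {v : Fin 3 → ℂ}

theorem TrajAt.congr {γ γ' : ℝ → Ph} {τ : ℝ} (h : TrajAt v γ τ) (he : γ =ᶠ[𝓝 τ] γ') :
    TrajAt v γ' τ := by
  obtain ⟨ε, hε, θ, h1, h2, h3, h4⟩ := h
  obtain ⟨δ, hδ, hb⟩ := Metric.eventually_nhds_iff.1 he
  have hb' : ∀ t, τ - min ε δ < t → t < τ + min ε δ → γ t = γ' t := by
    intro t ht1 ht2
    apply hb
    rw [Real.dist_eq, abs_lt]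
    constructor <;> linarith [min_le_right ε δ]
  have hm : 0 < min ε δ := lt_min hε hδ
  have h0 : γ τ = γ' τ := hb' τ (by linarith) (by linarith)
  have hl := min_le_left ε δ
  refine ⟨min ε δ, hm, θ, ?_, ?_, ?_, ?_⟩
  · intro t ht
    rw [← hb' t (by linarith [ht.1]) ht.2, ← h0]
    exact h1 t ⟨ht.1, by linarith [ht.2]⟩
  · intro t ht
    rw [← hb' t ht.1 (by linarith [ht.2]), ← h0]
    exact h2 t ⟨by linarith [ht.1], ht.2⟩
  · intro t ht hne
    rw [← hb' t ht.1 ht.2]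
    exact h3 t ⟨by linarith [ht.1], by linarith [ht.2]⟩ hne
  · rw [← h0]; exact h4

theorem TrajAt.shift {γ : ℝ → Ph} {τ s : ℝ} (h : TrajAt v γ (τ + s)) :
    TrajAt v (fun t => γ (t + s)) τ := by
  obtain ⟨ε, hε, θ, h1, h2, h3, h4⟩ := h
  refine ⟨ε, hε, θ, ?_, ?_, ?_, h4⟩
  · intro t ht
    have := h1 (t + s) ⟨by linarith [ht.1], by linarith [ht.2]⟩
    rw [show t + s - (τ + s) = t - τ by ring] at this
    exact this
  · intro t ht
    have := h2 (t + s) ⟨by linarith [ht.1], by linarith [ht.2]⟩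
    rw [show t + s - (τ + s) = t - τ by ring] at this
    exact this
  · intro t ht hne
    exact h3 (t + s) ⟨by linarith [ht.1], by linarith [ht.2]⟩ (fun h => hne (by linarith))

theorem TrajAt.mem_PM (hv : AffineIndependent ℝ v) {γ : ℝ → Ph} {τ : ℝ} (h : TrajAt v γ τ) :
    γ τ ∈ PM v := by
  obtain ⟨ε, hε, θ, h1, h2, h3, h4⟩ := h
  rcases h4 with h4 | ⟨i, hi, _⟩
  · exact Or.inl h4.1
  · refine Or.inr ⟨i, hi, ?_⟩
    have e1 := h1 (τ + ε / 2) ⟨by linarith, by linarith⟩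
    have e2 := h3 (τ + ε / 2) ⟨by linarith, by linarith⟩ (by intro h; linarith)
    rw [e1] at e2
    have e3 := (mem_table hv _).1 e2 i
    simp only at e3
    rw [lam_add_smul, ((mem_side hv i _).1 hi).1, zero_add] at e3
    have e4 : 0 < τ + ε / 2 - τ := by linarith
    exact (pos_iff_pos_of_mul_pos e3).1 e4

theorem traj0_side_eq (hv : AffineIndependent ℝ v) {i j : Fin 3} {x : ℂ} (hi : x ∈ side v i)
    (hj : x ∈ side v j) : i = j := by
  by_contra hne
  have h1 := ((mem_side hv i x).1 hi).1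
  have h2 := ((mem_side hv j x).1 hj).2 i hne
  linarith

theorem traj0_not_side (hv : AffineIndependent ℝ v) {i : Fin 3} {x : ℂ} (hi : x ∈ side v i)
    (ht : x ∈ table v) : False := by
  have h1 := ((mem_side hv i x).1 hi).1
  have h2 := (mem_table hv x).1 ht i
  linarith

theorem traj0_iff (hv : AffineIndependent ℝ v) {x : ℂ} {θ θ' d d' : UnitAddCircle}
    (h : (x ∈ table v ∧ θ = d) ∨
      ∃ i, x ∈ side v i ∧ IsReflection (v (i + 2) - v (i + 1)) (vel θ) (vel d))
    (h' : (x ∈ table v ∧ θ' = d') ∨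
      ∃ i, x ∈ side v i ∧ IsReflection (v (i + 2) - v (i + 1)) (vel θ') (vel d')) :
    θ = θ' ↔ d = d' := by
  rcases h with ⟨h1, h2⟩ | ⟨i, h1, h2⟩
  · rcases h' with ⟨_, h4⟩ | ⟨j, h3, _⟩
    · rw [h2, h4]
    · exact (traj0_not_side hv h3 h1).elim
  · rcases h' with ⟨h3, _⟩ | ⟨j, h3, h4⟩
    · exact (traj0_not_side hv h1 h3).elim
    · have hij := traj0_side_eq hv h1 h3
      subst hij
      rw [isReflection_iff hv] at h2 h4
      rw [h2, h4]
      exact sub_right_inj

theorem traj0_loc (hv : AffineIndependent ℝ v) {γ γ' : ℝ → Ph} {τ : ℝ} (h : TrajAt v γ τ)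
    (h' : TrajAt v γ' τ) : ∀ᶠ t in 𝓝 τ, (γ t = γ' t ↔ γ τ = γ' τ) := by
  obtain ⟨ε, hε, θ, h1, h2, _, h4⟩ := h
  obtain ⟨ε', hε', θ', h1', h2', _, h4'⟩ := h'
  have hm : 0 < min ε ε' := lt_min hε hε'
  have hl := min_le_left ε ε'
  have hr := min_le_right ε ε'
  filter_upwards [Ioo_mem_nhds (show τ - min ε ε' < τ by linarith)
    (show τ < τ + min ε ε' by linarith)] with t ht
  rcases le_or_gt τ t with hτ | hτ
  · rw [h1 t ⟨hτ, by linarith [ht.2]⟩, h1' t ⟨hτ, by linarith [ht.2]⟩]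
    constructor
    · intro e
      have e2 : (γ τ).2 = (γ' τ).2 := (Prod.mk.inj e).2
      have e1 : (γ τ).1 + (t - τ) • vel (γ τ).2 = (γ' τ).1 + (t - τ) • vel (γ' τ).2 :=
        congrArg Prod.fst e
      rw [e2] at e1
      exact Prod.ext (add_right_cancel e1) e2
    · intro e; rw [e]
  · rw [h2 t ⟨by linarith [ht.1], hτ⟩, h2' t ⟨by linarith [ht.1], hτ⟩]
    constructor
    · intro e
      have e2 : θ = θ' := congrArg Prod.snd e
      have e1 : (γ τ).1 + (t - τ) • vel θ = (γ' τ).1 + (t - τ) • vel θ' := congrArg Prod.fst e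
      rw [e2] at e1
      have e3 : (γ τ).1 = (γ' τ).1 := add_right_cancel e1
      rw [← e3] at h4'
      exact Prod.ext e3 ((traj0_iff hv h4 h4').1 e2)
    · intro e
      have e3 : (γ τ).1 = (γ' τ).1 := congrArg Prod.fst e
      have e2 : (γ τ).2 = (γ' τ).2 := congrArg Prod.snd e
      rw [← e3] at h4'
      rw [(traj0_iff hv h4 h4').2 e2, e3]

theorem traj_unique (hv : AffineIndependent ℝ v) {γ γ' : ℝ → Ph} {a b τ₀ : ℝ}
    (h : ∀ τ ∈ Ioo a b, TrajAt v γ τ) (h' : ∀ τ ∈ Ioo a b, TrajAt v γ' τ) (h0 : τ₀ ∈ Ioo a b)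
    (he : γ τ₀ = γ' τ₀) : EqOn γ γ' (Ioo a b) := by
  have key : Ioo a b ⊆ interior {t | γ t = γ' t} := by
    refine (isPreconnected_Ioo (a := a) (b := b)).subset_left_of_subset_union
      (v := interior {t | γ t ≠ γ' t}) isOpen_interior isOpen_interior ?_ ?_ ?_
    · rw [Set.disjoint_left]
      intro t h1 h2
      have a1 := interior_subset h1
      have a2 := interior_subset h2
      exact a2 a1
    · intro τ hτ
      have hl := traj0_loc hv (h τ hτ) (h' τ hτ)
      by_cases e : γ τ = γ' τ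
      · left
        rw [mem_interior_iff_mem_nhds]
        filter_upwards [hl] with t ht
        exact ht.2 e
      · right
        rw [mem_interior_iff_mem_nhds]
        filter_upwards [hl] with t ht
        exact fun e' => e (ht.1 e')
    · refine ⟨τ₀, h0, ?_⟩
      rw [mem_interior_iff_mem_nhds]
      filter_upwards [traj0_loc hv (h τ₀ h0) (h' τ₀ h0)] with t ht
      exact ht.2 he
  intro t ht
  have a1 := interior_subset (key ht)
  exact a1

theorem traj0_right {γ : ℝ → Ph} {τ : ℝ} (h : TrajAt v γ τ) :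
    HasDerivWithinAt (fun t => (γ t).1) (vel (γ τ).2) (Ici τ) τ := by
  obtain ⟨ε, hε, θ, h1, _, _, _⟩ := h
  have hd : HasDerivAt (fun t : ℝ => (γ τ).1 + (t - τ) • vel (γ τ).2) (vel (γ τ).2) τ := by
    have := (((hasDerivAt_id τ).sub_const τ).smul_const (vel (γ τ).2)).const_add (γ τ).1
    simpa using this
  refine hd.hasDerivWithinAt.congr_of_eventuallyEq ?_ (by simp)
  filter_upwards [Ico_mem_nhdsGE (show τ < τ + ε by linarith)] with t ht
  rw [h1 t ht]

theorem traj0_cont {γ : ℝ → Ph} {τ : ℝ} (h : TrajAt v γ τ) :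
    ContinuousAt (fun t => (γ t).1) τ := by
  have hr := (traj0_right h).continuousWithinAt
  obtain ⟨ε, hε, θ, _, h2, _, _⟩ := h
  have hc : Continuous (fun t : ℝ => (γ τ).1 + (t - τ) • vel θ) := by fun_prop
  have hl : ContinuousWithinAt (fun t => (γ t).1) (Iio τ) τ := by
    refine hc.continuousWithinAt.congr_of_eventuallyEq ?_ (by simp)
    filter_upwards [Ioo_mem_nhdsLT (show τ - ε < τ by linarith)] with t ht
    rw [h2 t ht]
  have := hl.union hr
  rw [Iio_union_Ici] at this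
  exact continuousWithinAt_univ _ _ |>.1 this

theorem traj0_lip {γ : ℝ → Ph} (h : IsTraj v γ) {s t : ℝ} (hst : s ≤ t) :
    ‖(γ t).1 - (γ s).1‖ ≤ t - s := by
  have := norm_image_sub_le_of_norm_deriv_right_le_segment (f := fun t => (γ t).1)
    (f' := fun t => vel (γ t).2) (C := 1) (a := s) (b := t)
    (fun x _ => (traj0_cont (h x)).continuousWithinAt) (fun x _ => traj0_right (h x))
    (fun x _ => (norm_vel _).le) t ⟨hst, le_rfl⟩
  simpa using this

theorem IsTraj.lip {γ : ℝ → Ph} (h : IsTraj v γ) (s t : ℝ) : ‖(γ t).1 - (γ s).1‖ ≤ |t - s| := by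
  rcases le_total s t with hst | hst
  · exact (traj0_lip h hst).trans (le_abs_self _)
  · rw [norm_sub_rev, abs_sub_comm]
    exact (traj0_lip h hst).trans (le_abs_self _)

end Vale.Agent.P099
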